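import Claimed.Open.R314.SanityEvery

/-!
# Result 314: `Spt.every d` preserves the stable homotopy groups

`Spt.every d : Spt 1 → Spt d` (every `d`-th space, `d` structure maps composed by `Spt.strIter`) transports the
theories `K(i)` to the category `Spt d`, `d = [G : H]`, in which `Φ^H X` lives (`Spt.CohomologyVanishes`).  The docstring
of `Spt.every` and M5 of `CLAIM.md` say that it preserves the homotopy groups.  This file proves it, for **every**
spectrum `X : Spt 1`, every `d ≥ 1` and every `k`:

* `stablePiEveryIso`: `π_{k+2}(every d X) ≅ π_{k+2}(X)`, an isomorphism of abelian groups;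
* `stablePiEveryIso_hom_ι`: it sends the class of a loop at level `n` to the class of the same loop, with renumbered
  coordinates, at level `d n`;
* `subsingleton_stablePi_every_iff`, `stablePiEveryShiftIso`: consequences;
* `not_isZero_every`, `not_cohomologyVanishes_every_self`: if `π_{k+2}(X) ≠ 0` for one `k`, then `every d X` is not a zero object of
  `GSH PUnit (Fin d)`, and it is not `X`-acyclic: `X^*(every d X) ≠ 0`.

Proof: renumbering the coordinates by `kap d n : Fin n × Fin d ≃ Fin (d n)`, `(a, c) ↦ d a + c`, is a homeomorphism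
`Map_*(S^{n·ℝ^d}, X_{dn}) ≅ Map_*(S^{dn}, X_{dn})` (`everyLoop`, `everyLoopInv`) which turns the stabilisation map of
`every d X` into the composite of `d` stabilisation maps of `X` (`everyLoop_stab`, from `stabIter_apply`: the composite of
`j` stabilisation maps is given by `Spt.strIter X m j`).  So the sequence of groups of `every d X` is the subsequence
`n ↦ d n` of the sequence of `X` (`everyNatTrans`), which is cofinal (`final_mulFunctor`).
-/

open CategoryTheory Topology unitInterval
open scoped Topology.Homotopy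

namespace Claimed.Open.R314

noncomputable section

set_option linter.unusedSectionVars false

/-! ## Coordinates -/

/-- `Fin m → Fin (m + j)`, `r ↦ r + j`. -/
def shiftF (m : ℕ) : ∀ j : ℕ, Fin m → Fin (m + j)
  | 0 => id
  | j + 1 => fun r => (shiftF m j r).succ

/-- `Fin j → Fin (m + j)`, `c ↦ c`. -/
def frontF (m : ℕ) : ∀ j : ℕ, Fin j → Fin (m + j)
  | 0 => fun c => c.elim0
  | j + 1 => fun c => Fin.cases (motive := fun _ => Fin (m + j + 1)) 0 (fun c => (frontF m j c).succ) c

lemma shiftF_or_frontF (m j : ℕ) (i : Fin (m + j)) :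
    (∃ r, shiftF m j r = i) ∨ ∃ c, frontF m j c = i := by
  induction j with
  | zero => exact Or.inl ⟨i, rfl⟩
  | succ j ih =>
    induction i using Fin.cases with
    | zero => exact Or.inr ⟨0, rfl⟩
    | succ i =>
      rcases ih i with ⟨r, rfl⟩ | ⟨c, rfl⟩
      · exact Or.inl ⟨r, rfl⟩
      · exact Or.inr ⟨c.succ, rfl⟩

/-- The bijection `Fin n × Fin d ≃ Fin (d n)`, `(a, c) ↦ d a + c`. -/
def kap (d : ℕ) : ∀ n : ℕ, Fin n × Fin d → Fin (d * n)
  | 0, q => q.1.elim0
  | n + 1, q => Fin.cases (motive := fun _ => Fin (d * n + d)) (frontF (d * n) d q.2)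
      (fun a => shiftF (d * n) d (kap d n (a, q.2))) q.1

lemma kap_zero (d n : ℕ) (c : Fin d) : kap d (n + 1) (0, c) = frontF (d * n) d c := rfl

lemma kap_succ (d n : ℕ) (a : Fin n) (c : Fin d) :
    kap d (n + 1) (a.succ, c) = shiftF (d * n) d (kap d n (a, c)) := rfl

lemma kap_surjective (d n : ℕ) : Function.Surjective (kap d n) := by
  induction n with
  | zero => exact fun i => i.elim0
  | succ n ih =>
    intro i
    rcases shiftF_or_frontF (d * n) d i with ⟨r, rfl⟩ | ⟨c, rfl⟩
    · obtain ⟨⟨a, c⟩, rfl⟩ := ih r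
      exact ⟨(a.succ, c), rfl⟩
    · exact ⟨(0, c), rfl⟩

lemma kap_bijective (d n : ℕ) : Function.Bijective (kap d n) :=
  (Fintype.bijective_iff_surjective_and_card _).2 ⟨kap_surjective d n, by simp [mul_comm]⟩

/-- `kap` as an equivalence. -/
def kapEquiv (d n : ℕ) : Fin n × Fin d ≃ Fin (d * n) := Equiv.ofBijective _ (kap_bijective d n)

/-! ## Iterated stabilisation -/

section Iter

variable (X : Spt 1) (H : Subgroup PUnit.{1})

/-- The composite of `j` stabilisation maps. -/
def stabIter (m : ℕ) : ∀ j : ℕ, C(X.LoopFix H m, X.LoopFix H (m + j))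
  | 0 => ContinuousMap.id _
  | j + 1 => (X.stab H (m + j)).comp (stabIter m j)

lemma stabIter_base (m j : ℕ) : stabIter X H m j (X.loopFixBase H m) = X.loopFixBase H (m + j) := by
  induction j with
  | zero => rfl
  | succ j ih =>
    show X.stab H (m + j) (stabIter X H m j (X.loopFixBase H m)) = _
    rw [ih, X.stab_base]
    rfl

/-- The iterated stabilisation map in terms of the iterated structure map. -/
lemma stabIter_apply (m j : ℕ) (γ : X.LoopFix H m) (t : Fin (m + j) × Fin 1 → I) :
    (stabIter X H m j γ).1 t =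
      Spt.strIter X m j (γ.1 (fun r => t (shiftF m j r.1, r.2))) (fun c => t (frontF m j c, 0)) := by
  induction j with
  | zero => rfl
  | succ j ih =>
    show X.str (m + j) ((stabIter X H m j γ).1 (fun q => t (q.1.succ, q.2))) (fun i => t (0, i)) =
      X.str (m + j) (Spt.strIter X m j (γ.1 (fun r => t (shiftF m (j + 1) r.1, r.2)))
        (Fin.tail fun c => t (frontF m (j + 1) c, 0))) (fun _ => t (frontF m (j + 1) 0, 0))
    rw [ih]
    congr 1
    funext i
    rw [Subsingleton.elim i 0]
    rfl

end Iter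

/-! ## The comparison of the mapping spaces -/

section Compare

variable (X : Spt 1) (d : ℕ) (H : Subgroup PUnit.{1})

/-- `Map_*(S^{n·ℝ^d}, X_{dn}) → Map_*(S^{dn}, X_{dn})`: renumbering of the coordinates by `kap`. -/
def everyLoop (n : ℕ) : C((Spt.every d X).LoopFix H n, X.LoopFix H (d * n)) where
  toFun γ := ⟨⟨⟨fun t => γ.1 (fun q => t (kap d n q, 0)),
      γ.1.1.continuous.comp (continuous_pi fun _ => continuous_apply _)⟩, by
      rintro t ⟨⟨i, z⟩, hi⟩
      obtain ⟨q, rfl⟩ := kap_surjective d n i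
      refine γ.1.2 _ ⟨q, ?_⟩
      rw [Subsingleton.elim z 0] at hi
      exact hi⟩, fun h _ t => by
      obtain rfl : h = 1 := Subsingleton.elim _ _
      exact (@one_smul PUnit.{1} (X.space (d * n)) _ (X.act (d * n)) _).symm⟩
  continuous_toFun := by
    refine Continuous.subtype_mk (Continuous.subtype_mk ?_ _) _
    refine ContinuousMap.continuous_of_continuous_uncurry _ ?_
    show Continuous fun z : (Spt.every d X).LoopFix H n × (Fin (d * n) × Fin 1 → I) =>
      z.1.1 (fun q => z.2 (kap d n q, 0))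
    have h1 : Continuous fun z : (Spt.every d X).LoopFix H n × (Fin (d * n) × Fin 1 → I) => z.1.1 :=
      continuous_subtype_val.comp continuous_fst
    fun_prop

/-- The inverse renumbering. -/
def everyLoopInv (n : ℕ) : C(X.LoopFix H (d * n), (Spt.every d X).LoopFix H n) where
  toFun γ := ⟨⟨⟨fun u => γ.1 (fun r => u ((kapEquiv d n).symm r.1)),
      γ.1.1.continuous.comp (continuous_pi fun _ => continuous_apply _)⟩, by
      rintro u ⟨q, hq⟩
      refine γ.1.2 _ ⟨(kapEquiv d n q, 0), ?_⟩
      show u ((kapEquiv d n).symm (kapEquiv d n q)) = 0 ∨ u ((kapEquiv d n).symm (kapEquiv d n q)) = 1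
      rw [Equiv.symm_apply_apply]
      exact hq⟩, fun _ _ _ => rfl⟩
  continuous_toFun := by
    refine Continuous.subtype_mk (Continuous.subtype_mk ?_ _) _
    refine ContinuousMap.continuous_of_continuous_uncurry _ ?_
    show Continuous fun z : X.LoopFix H (d * n) × (Fin n × Fin d → I) =>
      z.1.1 (fun r => z.2 ((kapEquiv d n).symm r.1))
    have h1 : Continuous fun z : X.LoopFix H (d * n) × (Fin n × Fin d → I) => z.1.1 :=
      continuous_subtype_val.comp continuous_fst
    fun_prop

lemma everyLoop_base (n : ℕ) :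
    everyLoop X d H n ((Spt.every d X).loopFixBase H n) = X.loopFixBase H (d * n) := rfl

lemma everyLoopInv_base (n : ℕ) :
    everyLoopInv X d H n (X.loopFixBase H (d * n)) = (Spt.every d X).loopFixBase H n := rfl

lemma everyLoopInv_everyLoop (n : ℕ) (γ : (Spt.every d X).LoopFix H n) :
    everyLoopInv X d H n (everyLoop X d H n γ) = γ := by
  apply Subtype.ext
  ext u
  show γ.1 (fun q => u ((kapEquiv d n).symm (kapEquiv d n q))) = γ.1 u
  simp only [Equiv.symm_apply_apply]

lemma everyLoop_everyLoopInv (n : ℕ) (γ : X.LoopFix H (d * n)) :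
    everyLoop X d H n (everyLoopInv X d H n γ) = γ := by
  apply Subtype.ext
  ext t
  show γ.1 (fun r => t (kapEquiv d n ((kapEquiv d n).symm r.1), 0)) = γ.1 t
  congr 1
  funext ⟨i, z⟩
  rw [Equiv.apply_symm_apply, Subsingleton.elim z 0]

/-- The renumbering turns the stabilisation map of `every d X` into the composite of `d` stabilisation
maps of `X`. -/
lemma everyLoop_stab (n : ℕ) (γ : (Spt.every d X).LoopFix H n) :
    everyLoop X d H (n + 1) ((Spt.every d X).stab H n γ) =
      stabIter X H (d * n) d (everyLoop X d H n γ) := by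
  apply Subtype.ext
  ext t
  rw [stabIter_apply]
  rfl

end Compare

/-! ## The colimits -/

section Colimit

variable (H : Subgroup PUnit.{1}) (k : ℕ)

/-- The sequence of abelian groups whose colimit is `π_{k+2}(Y)`. -/
abbrev evSeqAdd {d' : ℕ} (Y : Spt d') : ℕ ⥤ AddCommGrpCat.{0} :=
  (GSpt.piSeq H k).obj Y ⋙ CommGrpCat.toAddCommGrp

/-- The class of a loop in the `j`-th group of the sequence. -/
def clsAt {d' : ℕ} (Y : Spt d') (j : ℕ)
    (γ : Ω^ (Fin (k + 2)) (Y.LoopFix H j) (Y.loopFixBase H j)) : (evSeqAdd H k Y).obj j :=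
  (Additive.ofMul (piMk γ) :
    Additive (HomotopyGroup (Fin (k + 2)) (Y.LoopFix H j) (Y.loopFixBase H j)))

lemma exists_clsAt {d' : ℕ} (Y : Spt d') (j : ℕ) (x : (evSeqAdd H k Y).obj j) :
    ∃ γ, x = clsAt H k Y j γ := by
  let x' : HomotopyGroup (Fin (k + 2)) (Y.LoopFix H j) (Y.loopFixBase H j) := Additive.toMul
    (x : Additive (HomotopyGroup (Fin (k + 2)) (Y.LoopFix H j) (Y.loopFixBase H j)))
  obtain ⟨γ, hγ⟩ := Quotient.exists_rep x'
  exact ⟨γ, hγ.symm⟩

lemma evSeqAdd_map_succ {d' : ℕ} (Y : Spt d') (j : ℕ)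
    (γ : Ω^ (Fin (k + 2)) (Y.LoopFix H j) (Y.loopFixBase H j)) :
    (evSeqAdd H k Y).map (homOfLE (Nat.le_succ j)) (clsAt H k Y j γ) =
      clsAt H k Y (j + 1) (mapLoop (Y.stab H j) (Y.stab_base H j) γ) := by
  have h : ((GSpt.piSeq H k).obj Y).map (homOfLE (Nat.le_succ j)) =
      CommGrpCat.ofHom (mapPiHom (Y.stab H j) (Y.stab_base H j)) :=
    Functor.ofSequence_map_homOfLE_succ _ j
  show (CommGrpCat.toAddCommGrp.map (((GSpt.piSeq H k).obj Y).map (homOfLE (Nat.le_succ j))))
    (clsAt H k Y j γ) = _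
  rw [h]
  rfl

variable (X : Spt 1)

lemma evSeqAdd_map_add (m j : ℕ) (h : m ≤ m + j)
    (γ : Ω^ (Fin (k + 2)) (X.LoopFix H m) (X.loopFixBase H m)) :
    (evSeqAdd H k X).map (homOfLE h) (clsAt H k X m γ) =
      clsAt H k X (m + j) (mapLoop (stabIter X H m j) (stabIter_base X H m j) γ) := by
  induction j with
  | zero =>
    rw [Subsingleton.elim (homOfLE h) (𝟙 m), (evSeqAdd H k X).map_id]
    rfl
  | succ j ih =>
    rw [Subsingleton.elim (homOfLE h)
      (homOfLE (Nat.le_add_right m j) ≫ homOfLE (Nat.le_succ (m + j))), (evSeqAdd H k X).map_comp]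
    show (evSeqAdd H k X).map (homOfLE (Nat.le_succ (m + j)))
      ((evSeqAdd H k X).map (homOfLE (Nat.le_add_right m j)) (clsAt H k X m γ)) = _
    rw [ih, evSeqAdd_map_succ]
    rfl

variable (d : ℕ)

/-- The isomorphism `π_{k+2}(Map_*(S^{n·ℝ^d}, X_{dn})) ≅ π_{k+2}(Map_*(S^{dn}, X_{dn}))`. -/
def everyPiEquiv (n : ℕ) :
    HomotopyGroup (Fin (k + 2)) ((Spt.every d X).LoopFix H n) ((Spt.every d X).loopFixBase H n) ≃*
      HomotopyGroup (Fin (k + 2)) (X.LoopFix H (d * n)) (X.loopFixBase H (d * n)) :=
  { mapPiHom (everyLoop X d H n) (everyLoop_base X d H n) with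
    invFun := mapPiHom (everyLoopInv X d H n) (everyLoopInv_base X d H n)
    left_inv := by
      rintro ⟨γ⟩
      refine congrArg piMk ?_
      ext s
      exact everyLoopInv_everyLoop X d H n _
    right_inv := by
      rintro ⟨γ⟩
      refine congrArg piMk ?_
      ext s
      exact everyLoop_everyLoopInv X d H n _ }

/-- The same in the category of abelian groups. -/
def everyAppIso (n : ℕ) : (evSeqAdd H k (Spt.every d X)).obj n ≅ (evSeqAdd H k X).obj (d * n) :=
  CommGrpCat.toAddCommGrp.mapIso (MulEquiv.toCommGrpIso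
    (X := CommGrpCat.of (HomotopyGroup (Fin (k + 2)) ((Spt.every d X).LoopFix H n)
      ((Spt.every d X).loopFixBase H n)))
    (Y := CommGrpCat.of (HomotopyGroup (Fin (k + 2)) (X.LoopFix H (d * n))
      (X.loopFixBase H (d * n)))) (everyPiEquiv H k X d n))

lemma everyAppIso_hom_clsAt (n : ℕ) (γ : Ω^ (Fin (k + 2)) ((Spt.every d X).LoopFix H n)
    ((Spt.every d X).loopFixBase H n)) :
    (everyAppIso H k X d n).hom (clsAt H k (Spt.every d X) n γ) =
      clsAt H k X (d * n) (mapLoop (everyLoop X d H n) (everyLoop_base X d H n) γ) := rfl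

/-- Multiplication by `d` as a functor `ℕ ⥤ ℕ`. -/
def mulFunctor : ℕ ⥤ ℕ :=
  Monotone.functor (f := fun n => d * n) (fun _ _ h => Nat.mul_le_mul_left d h)

/-- The sequence of `every d X` is the subsequence `n ↦ d n` of the sequence of `X`. -/
def everyNatTrans : evSeqAdd H k (Spt.every d X) ⟶ mulFunctor d ⋙ evSeqAdd H k X :=
  NatTrans.ofSequence (fun n => (everyAppIso H k X d n).hom) (fun n => by
    ext x
    obtain ⟨γ, rfl⟩ := exists_clsAt H k _ n x
    show (everyAppIso H k X d (n + 1)).hom ((evSeqAdd H k (Spt.every d X)).map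
        (homOfLE (Nat.le_succ n)) (clsAt H k _ n γ)) =
      (evSeqAdd H k X).map (homOfLE (Nat.le_add_right (d * n) d))
        ((everyAppIso H k X d n).hom (clsAt H k _ n γ))
    rw [evSeqAdd_map_succ, everyAppIso_hom_clsAt, everyAppIso_hom_clsAt, evSeqAdd_map_add]
    refine congrArg (clsAt H k X (d * n + d)) ?_
    ext s
    exact everyLoop_stab X d H n _)

instance (n : ℕ) : IsIso ((everyNatTrans H k X d).app n) :=
  inferInstanceAs (IsIso (everyAppIso H k X d n).hom)

instance : IsIso (everyNatTrans H k X d) := NatIso.isIso_of_isIso_app _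

lemma final_mulFunctor (hd : 0 < d) : (mulFunctor d).Final :=
  (Monotone.final_functor_iff _).2 fun j => ⟨j, Nat.le_mul_of_pos_left j hd⟩

/-- **`Spt.every d` preserves the stable homotopy groups**, `d ≥ 1`. -/
def stablePiEveryIso (hd : 0 < d) :
    (GSpt.stablePi H k).obj (Spt.every d X) ≅ (GSpt.stablePi H k).obj X :=
  haveI := final_mulFunctor d hd
  Limits.colim.mapIso (asIso (everyNatTrans H k X d)) ≪≫
    Functor.Final.colimitIso (mulFunctor d) (evSeqAdd H k X)

/-- The isomorphism sends the class of a loop `γ` at level `n` to the class of the renumbered loop at level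
`d n`. -/
lemma stablePiEveryIso_hom_ι (hd : 0 < d) (n : ℕ) (γ : Ω^ (Fin (k + 2)) ((Spt.every d X).LoopFix H n)
    ((Spt.every d X).loopFixBase H n)) :
    (stablePiEveryIso H k X d hd).hom.hom
        (Limits.colimit.ι (evSeqAdd H k (Spt.every d X)) n (clsAt H k _ n γ)) =
      Limits.colimit.ι (evSeqAdd H k X) (d * n)
        (clsAt H k X (d * n) (mapLoop (everyLoop X d H n) (everyLoop_base X d H n) γ)) := by
  have := final_mulFunctor d hd
  have h : Limits.colimit.ι (evSeqAdd H k (Spt.every d X)) n ≫ (stablePiEveryIso H k X d hd).hom =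
      (everyAppIso H k X d n).hom ≫ Limits.colimit.ι (evSeqAdd H k X) (d * n) := by
    have h1 : Limits.colimit.ι (evSeqAdd H k (Spt.every d X)) n ≫
        Limits.colim.map (everyNatTrans H k X d) =
        (everyNatTrans H k X d).app n ≫
          Limits.colimit.ι (mulFunctor d ⋙ evSeqAdd H k X) n := Limits.ι_colimMap _ n
    have h2 : Limits.colimit.ι (mulFunctor d ⋙ evSeqAdd H k X) n ≫
        (Functor.Final.colimitIso (mulFunctor d) (evSeqAdd H k X)).hom =
        Limits.colimit.ι (evSeqAdd H k X) (d * n) :=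
      Functor.Final.ι_colimitIso_hom (mulFunctor d) (evSeqAdd H k X) n
    show Limits.colimit.ι (evSeqAdd H k (Spt.every d X)) n ≫
      (Limits.colim.map (everyNatTrans H k X d) ≫
        (Functor.Final.colimitIso (mulFunctor d) (evSeqAdd H k X)).hom) = _
    rw [← Category.assoc, h1, Category.assoc, h2]
    rfl
  exact ConcreteCategory.congr_hom h (clsAt H k _ n γ)

/-- In particular `π_{k+2}(every d X) = 0` iff `π_{k+2}(X) = 0`, -/
theorem subsingleton_stablePi_every_iff (hd : 0 < d) :
    Subsingleton ((GSpt.stablePi H k).obj (Spt.every d X)) ↔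
      Subsingleton ((GSpt.stablePi H k).obj X) := by
  have e := (stablePiEveryIso H k X d hd).addCommGroupIsoToAddEquiv.toEquiv
  exact ⟨fun _ => e.symm.subsingleton, fun _ => e.subsingleton⟩

/-- and this applies to the spectra `every d (Σ^b K)` which represent `K^b` in `Spt.CohomologyVanishes`. -/
def stablePiEveryShiftIso (hd : 0 < d) (b : ℕ) :
    (GSpt.stablePi H k).obj (Spt.every d ((GSpt.shIter b).obj X)) ≅
      (GSpt.stablePi H k).obj ((GSpt.shIter b).obj X) :=
  stablePiEveryIso H k _ d hd

variable {H k X d}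

/-- If `π_{k+2}(X) ≠ 0` for one `k`, then `every d X` is not a zero object of `GSH PUnit (Fin d)`, -/
theorem not_isZero_every (hX : ¬ Subsingleton ((GSpt.stablePi H k).obj X)) (hd : 0 < d) :
    ¬ Limits.IsZero (GSH.Q.obj (Spt.every d X)) :=
  not_isZero_of_stablePi (H := H) (k := k) (m := 0)
    (fun h => hX ((subsingleton_stablePi_every_iff H k X d hd).1 h))

/-- and `X^*(every d X) ≠ 0`: `every d X` is not `X`-acyclic in the sense of `Spt.CohomologyVanishes`. -/
theorem not_cohomologyVanishes_every_self (hX : ¬ Subsingleton ((GSpt.stablePi H k).obj X))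
    (hd : 0 < d) : ¬ (Spt.every d X).CohomologyVanishes X := fun h =>
  not_isZero_every hX hd (isZero_of_subsingleton_hom
    (GSH.isZero_of_isTrivial (GSpt.isTrivial_pt (G := PUnit.{1}) (N := Fin d))) (Iso.refl _) (h 0))

end Colimit

end

end Claimed.Open.R314
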