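import Claimed.Open.R314.SpaceLevelSanity

/-!
# Result 314: further consequences of the conditions of `MultCohomologyTheory`

These lemmas show that the conditions have the expected content.

1. `h^*(X) = h^*(pt) ⊕ h̃^*(X)` for a pointed space; `X` is acyclic iff `h^*(pt) → h^*(X)` is
   bijective; acyclicity is invariant under pointed homotopy equivalences.
2. `h^*(S^1 × X) = h^*(X) ⊕ σ h^*(X)`, with the degree shift; `h^*(S^1) = h^*(pt) ⊕ σ h^*(pt)`;
   on the torus `σ × σ ≠ 0`.
3. For a Morava `K`-theory of positive height: `p = 0` in every `h^*(X)`, the class `v_n` is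
   invertible of degree `-2(p^n-1)`, so `h^k(X) ≅ h^{k-2(p^n-1)}(X)` (periodicity), and
   `h^k(pt) = 0` unless `2(p^n-1) ∣ k`.  For `K(0)`: every `h^*(X)` is a `ℚ`-algebra.
-/

namespace Claimed.Open.R314

namespace MultCohomologyTheory

variable (K : MultCohomologyTheory)

section Pointed

variable {X Y : Type} [TopologicalSpace X] [TopologicalSpace Y]

theorem atPt_fromPt (x₀ : X) (c : K.H Unit) : K.atPt x₀ (K.fromPt X c) = c := by
  rw [atPt, fromPt, map_comp_apply]
  have : (ContinuousMap.const X ()).comp (ContinuousMap.const Unit x₀) = ContinuousMap.id Unit :=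
    rfl
  rw [this, K.map_id]; rfl

theorem fromPt_injective (x₀ : X) : Function.Injective (K.fromPt X) :=
  Function.LeftInverse.injective (K.atPt_fromPt x₀)

/-- `h^*(X) = h^*(pt) ⊕ h̃^*(X)`. -/
theorem exists_unique_decomposition (x₀ : X) (a : K.H X) :
    ∃! cb : K.H Unit × K.H X, K.atPt x₀ cb.2 = 0 ∧ a = K.fromPt X cb.1 + cb.2 := by
  refine ⟨(K.atPt x₀ a, a - K.fromPt X (K.atPt x₀ a)), ⟨by simp [atPt_fromPt], by simp⟩, ?_⟩
  rintro ⟨c, b⟩ ⟨hb, rfl⟩
  simp only at hb
  simp [atPt_fromPt, hb]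

/-- A pointed space is acyclic if and only if `h^*(pt) → h^*(X)` is bijective. -/
theorem acyclic_iff_bijective_fromPt (x₀ : X) :
    K.Acyclic X x₀ ↔ Function.Bijective (K.fromPt X) := by
  constructor
  · intro h
    refine ⟨K.fromPt_injective x₀, fun a => ⟨K.atPt x₀ a, ?_⟩⟩
    have := h (a - K.fromPt X (K.atPt x₀ a)) (by simp [atPt_fromPt])
    exact (sub_eq_zero.1 this).symm
  · rintro ⟨-, hs⟩ a ha
    obtain ⟨c, rfl⟩ := hs a
    rw [atPt_fromPt] at ha
    rw [ha, map_zero]

/-- In particular acyclicity does not depend on the base point. -/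
theorem acyclic_basePoint_indep (x₀ x₁ : X) : K.Acyclic X x₀ ↔ K.Acyclic X x₁ := by
  rw [acyclic_iff_bijective_fromPt, acyclic_iff_bijective_fromPt]

/-- Acyclicity is invariant under homotopy equivalences. -/
theorem Acyclic.of_homotopyEquiv {x₀ : X} (h : K.Acyclic X x₀) (e : ContinuousMap.HomotopyEquiv X Y)
    (y₀ : Y) : K.Acyclic Y y₀ := by
  rw [acyclic_iff_bijective_fromPt] at h ⊢
  have h1 : ∀ a : K.H Y, K.map e.invFun (K.map e.toFun a) = a := by
    intro a
    rw [map_comp_apply, K.map_homotopic _ _ e.right_inv, K.map_id]; rfl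
  have h2 : ∀ c : K.H Unit, K.map e.invFun (K.fromPt X c) = K.fromPt Y c := by
    intro c
    rw [fromPt, map_comp_apply]; rfl
  refine ⟨K.fromPt_injective y₀, fun a => ?_⟩
  obtain ⟨c, hc⟩ := h.2 (K.map e.toFun a)
  exact ⟨c, by rw [← h2, hc, h1]⟩

end Pointed

section Suspension

variable (X : Type) [TopologicalSpace X]

/-- The exterior product `σ × a`. -/
noncomputable def sigmaTimes (a : K.H X) : K.H (Circle × X) :=
  K.map (ContinuousMap.fst : C(Circle × X, Circle)) K.σ *
    K.map (ContinuousMap.snd : C(Circle × X, X)) a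

/-- `σ × -` raises degrees by one. -/
theorem sigmaTimes_mem {k : ℤ} {a : K.H X} (ha : a ∈ K.gr X k) :
    K.sigmaTimes X a ∈ K.gr (Circle × X) (1 + k) :=
  SetLike.GradedMul.mul_mem (K.map_mem _ 1 _ K.σ_mem) (K.map_mem _ k _ ha)

/-- `h^*(S^1 × X) = h^*(X) ⊕ σ h^*(X)`. -/
theorem exists_unique_circle_prod (b : K.H (Circle × X)) :
    ∃! a : K.H X × K.H X,
      b = K.map (ContinuousMap.snd : C(Circle × X, X)) a.1 + K.sigmaTimes X a.2 := by
  set i : C(X, Circle × X) := (ContinuousMap.const X (1 : Circle)).prodMk (ContinuousMap.id X)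
  have hi : ∀ a : K.H X, K.map i (K.map (ContinuousMap.snd : C(Circle × X, X)) a) = a := by
    intro a
    rw [map_comp_apply]
    have : (ContinuousMap.snd : C(Circle × X, X)).comp i = ContinuousMap.id X := rfl
    rw [this, K.map_id]; rfl
  obtain ⟨a₁, ha₁⟩ := K.susp_surjective X
    (b - K.map (ContinuousMap.snd : C(Circle × X, X)) (K.map i b)) (by rw [map_sub, hi, sub_self])
  refine ⟨(K.map i b, a₁), ?_, ?_⟩
  · simp only [sigmaTimes, ha₁]; abel
  · rintro ⟨c₀, c₁⟩ hc
    simp only at hc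
    have h0 : K.map i b = c₀ := by
      rw [hc, map_add, hi, sigmaTimes, K.susp_restrict, add_zero]
    subst h0
    have h1 : K.sigmaTimes X c₁ = K.sigmaTimes X a₁ := by
      have : K.sigmaTimes X a₁ = b - K.map (ContinuousMap.snd : C(Circle × X, X)) (K.map i b) := ha₁
      rw [this]
      exact eq_sub_of_add_eq' hc.symm
    rw [K.susp_injective X h1]

end Suspension

/-- On the torus `σ × σ ≠ 0` for a nonzero theory. -/
theorem sigmaTimes_sigma_ne_zero [Nontrivial (K.H Unit)] : K.sigmaTimes Circle K.σ ≠ 0 := by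
  intro h
  have h0 : K.σ = 0 := K.susp_injective Circle (by
    show K.sigmaTimes Circle K.σ = K.sigmaTimes Circle 0
    rw [h]; simp [sigmaTimes])
  exact K.not_acyclic_circle fun a ha => by
    have := @K.susp_injective Unit _ 0 1 (by simp [h0])
    exact absurd this zero_ne_one

section Morava

open LaurentPolynomial

variable {K} {p n : ℕ}

/-- `p = 0` in `K(n)^*(X)` for `n ≥ 1`. -/
theorem IsMoravaKPos.natCast_eq_zero (h : K.IsMoravaKPos p n) (X : Type) [TopologicalSpace X] :
    (p : K.H X) = 0 := by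
  obtain ⟨e, -, -, -⟩ := h
  have h1 : (p : K.H Unit) = 0 := by
    apply e.injective
    rw [map_natCast, map_zero]
    have : (C (p : ZMod p) : (ZMod p)[T;T⁻¹]) = 0 := by
      rw [ZMod.natCast_self, map_zero]
    rwa [map_natCast] at this
  have h2 := congrArg (K.fromPt X) h1
  simpa using h2

/-- The periodicity class `v_n`: a unit of `K(n)^*(pt)` of cohomological degree `-2(p^n-1)`. -/
theorem IsMoravaKPos.exists_periodicity (h : K.IsMoravaKPos p n) :
    ∃ v w : K.H Unit, v * w = 1 ∧ w * v = 1 ∧ v ∈ K.gr Unit (-(2 * ((p : ℤ) ^ n - 1))) ∧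
      w ∈ K.gr Unit (2 * ((p : ℤ) ^ n - 1)) := by
  obtain ⟨e, -, hdeg, -⟩ := h
  have hT : ∀ j m : ℤ, ((T j : (ZMod p)[T;T⁻¹])).coeff m ≠ 0 → m = j := by
    intro j m hm
    by_contra hne
    apply hm
    rw [LaurentPolynomial.T, AddMonoidAlgebra.coeff_single, Finsupp.single_apply,
      if_neg (fun h => hne h.symm)]
  refine ⟨e.symm (T 1), e.symm (T (-1)), ?_, ?_, ?_, ?_⟩
  · rw [← map_mul, ← T_add]; simp
  · rw [← map_mul, ← T_add]; simp
  · rw [hdeg]
    intro m hm
    rw [e.apply_symm_apply] at hm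
    rw [hT 1 m hm]; ring
  · rw [hdeg]
    intro m hm
    rw [e.apply_symm_apply] at hm
    rw [hT (-1) m hm]; ring

/-- Periodicity: multiplication by `v_n` is a bijection `K(n)^k(X) → K(n)^{k-2(p^n-1)}(X)`. -/
theorem IsMoravaKPos.periodicity (h : K.IsMoravaKPos p n) (X : Type) [TopologicalSpace X] (k : ℤ) :
    ∃ v : K.H X, Set.BijOn (fun a => v * a) (K.gr X k)
      (K.gr X (-(2 * ((p : ℤ) ^ n - 1)) + k)) := by
  obtain ⟨v, w, hvw, hwv, hv, hw⟩ := h.exists_periodicity
  have hvw' : K.fromPt X v * K.fromPt X w = 1 := by rw [← map_mul, hvw, map_one]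
  have hwv' : K.fromPt X w * K.fromPt X v = 1 := by rw [← map_mul, hwv, map_one]
  refine ⟨K.fromPt X v, fun a ha => ?_, fun a _ b _ hab => ?_, fun b hb => ?_⟩
  · exact SetLike.GradedMul.mul_mem (K.map_mem _ _ _ hv) ha
  · have := congrArg (fun c => K.fromPt X w * c) hab
    simpa [← mul_assoc, hwv'] using this
  · refine ⟨K.fromPt X w * b, ?_, by simp [← mul_assoc, hvw']⟩
    have := SetLike.GradedMul.mul_mem (K.map_mem (ContinuousMap.const X ()) _ _ hw) hb
    have e : 2 * ((p : ℤ) ^ n - 1) + (-(2 * ((p : ℤ) ^ n - 1)) + k) = k := by ring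
    rw [e] at this
    exact this

/-- `K(n)^k(pt) = 0` unless `2(p^n-1)` divides `k`. -/
theorem IsMoravaKPos.gr_unit_eq_bot (h : K.IsMoravaKPos p n) {k : ℤ}
    (hk : ¬ (2 * ((p : ℤ) ^ n - 1)) ∣ k) : K.gr Unit k = ⊥ := by
  obtain ⟨e, -, hdeg, -⟩ := h
  rw [eq_bot_iff]
  intro c hc
  rw [AddSubgroup.mem_bot]
  apply e.injective
  rw [map_zero]
  by_contra hne
  have : ∃ m : ℤ, (e c).coeff m ≠ 0 := by
    by_contra hall
    push Not at hall
    apply hne
    apply AddMonoidAlgebra.coeff_injective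
    ext m
    simpa using hall m
  obtain ⟨m, hm⟩ := this
  exact hk ⟨-m, by rw [← (hdeg k c).1 hc m hm]; ring⟩

/-- For `K(0) = Hℚ` every nonzero integer is invertible in `h^*(X)`. -/
theorem IsRational.isUnit_natCast (h : K.IsRational) (X : Type) [TopologicalSpace X] {m : ℕ}
    (hm : m ≠ 0) : IsUnit (m : K.H X) := by
  obtain ⟨⟨e⟩, -⟩ := h
  have h1 : IsUnit (m : K.H Unit) := by
    have : IsUnit (e.symm (m : ℚ)) := (IsUnit.mk0 (m : ℚ) (by exact_mod_cast hm)).map e.symm
    simpa using this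
  simpa using h1.map (K.fromPt X)

end Morava

end MultCohomologyTheory

end Claimed.Open.R314
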