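import Claimed.Open.R314.SanityRfl

/-!
# Result 314: checked facts about the cyclic length `ℓ(G, H)`

Elementwise description of a cyclic step; chains exist in every finite `p`-group, so
`cyclicLength` is attained; `ℓ(G, G) = 0` and `ℓ(G, H) = 0 ⟺ H = G`; the example of the paper's
introduction, `ℓ(C_{p²} × C_p, p C_{p²} × 0) = 2` and `ℓ(C_{p²} × C_p, 0 × C_p) = 1`, for every
prime `p`.
-/

namespace Claimed.Open.R314

/-! ## 1. Cyclic length -/

section CyclicLength

variable {G : Type} [Group G]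

/-- Elementwise description of a cyclic step. -/
theorem cyclicStep_iff (A B : Subgroup G) :
    CyclicStep A B ↔ A ≤ B ∧ (∀ b ∈ B, ∀ a ∈ A, b * a * b⁻¹ ∈ A) ∧
      ∃ g ∈ B, ∀ b ∈ B, ∃ k : ℤ, (g ^ k)⁻¹ * b ∈ A := by
  constructor
  · rintro ⟨hle, hn, hc⟩
    refine ⟨hle, fun b hb a ha => ?_, ?_⟩
    · have := hn.conj_mem ⟨a, hle ha⟩ (by simpa [Subgroup.mem_subgroupOf] using ha) ⟨b, hb⟩
      simpa [Subgroup.mem_subgroupOf] using this
    · obtain ⟨q, hq⟩ := hc.exists_generator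
      obtain ⟨⟨g, hg⟩, rfl⟩ := QuotientGroup.mk_surjective q
      refine ⟨g, hg, fun b hb => ?_⟩
      obtain ⟨k, hk⟩ := Subgroup.mem_zpowers_iff.mp (hq (QuotientGroup.mk ⟨b, hb⟩))
      refine ⟨k, ?_⟩
      rw [← QuotientGroup.mk_zpow, QuotientGroup.eq] at hk
      simpa [Subgroup.mem_subgroupOf] using hk
  · rintro ⟨hle, hn, g, hg, hgen⟩
    have hN : (A.subgroupOf B).Normal := ⟨fun a ha b => by
      have := hn b b.2 a (by simpa [Subgroup.mem_subgroupOf] using ha)
      simpa [Subgroup.mem_subgroupOf] using this⟩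
    refine ⟨hle, hN, ?_⟩
    refine ⟨⟨QuotientGroup.mk ⟨g, hg⟩, fun q => ?_⟩⟩
    obtain ⟨⟨b, hb⟩, rfl⟩ := QuotientGroup.mk_surjective q
    obtain ⟨k, hk⟩ := hgen b hb
    refine Subgroup.mem_zpowers_iff.mpr ⟨k, ?_⟩
    rw [← QuotientGroup.mk_zpow, QuotientGroup.eq]
    simpa [Subgroup.mem_subgroupOf] using hk

theorem hasCyclicChain_top_zero : HasCyclicChain (⊤ : Subgroup G) 0 :=
  ⟨fun _ => ⊤, rfl, rfl, fun _ h => absurd h (Nat.not_lt_zero _)⟩

theorem cyclicLength_top : cyclicLength (⊤ : Subgroup G) = 0 :=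
  Nat.eq_zero_of_le_zero (Nat.sInf_le hasCyclicChain_top_zero)

theorem hasCyclicChain_zero_iff (H : Subgroup G) : HasCyclicChain H 0 ↔ H = ⊤ := by
  constructor
  · rintro ⟨c, h0, h1, -⟩
    rw [← h0, h1]
  · rintro rfl
    exact hasCyclicChain_top_zero

/-- prepend a step -/
theorem HasCyclicChain.cons {A B : Subgroup G} {s : ℕ} (hAB : CyclicStep A B)
    (hB : HasCyclicChain B s) : HasCyclicChain A (s + 1) := by
  obtain ⟨c, h0, hs, hstep⟩ := hB
  refine ⟨fun i => Nat.casesOn i A c, rfl, hs, ?_⟩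
  rintro (_ | i) hi
  · simpa [h0] using hAB
  · exact hstep i (by omega)

theorem hasCyclicChain_succ_iff (A : Subgroup G) (s : ℕ) :
    HasCyclicChain A (s + 1) ↔ ∃ B, CyclicStep A B ∧ HasCyclicChain B s := by
  constructor
  · rintro ⟨c, h0, hs, hstep⟩
    refine ⟨c 1, h0 ▸ hstep 0 (by omega), fun i => c (i + 1), rfl, hs, fun i hi => ?_⟩
    exact hstep (i + 1) (by omega)
  · rintro ⟨B, hAB, hB⟩
    exact hB.cons hAB

/-- In a group satisfying the normalizer condition a proper subgroup admits a proper cyclic step. -/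
theorem exists_cyclicStep_of_lt_normalizer {H : Subgroup G}
    (h : H < Subgroup.normalizer (H : Set G)) :
    ∃ K, H < K ∧ CyclicStep H K := by
  obtain ⟨g, hgN, hgH⟩ := SetLike.exists_of_lt h
  have hZ : Subgroup.zpowers g ≤ Subgroup.normalizer (H : Set G) := by
    rw [Subgroup.zpowers_le]; exact hgN
  refine ⟨Subgroup.zpowers g ⊔ H, ?_, le_sup_right,
    Subgroup.normal_subgroupOf_sup_of_le_normalizer hZ, ?_⟩
  · refine lt_of_le_of_ne le_sup_right fun heq => hgH ?_
    rw [heq]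
    exact Subgroup.mem_sup_left (Subgroup.mem_zpowers g)
  · have h1 := Subgroup.normal_subgroupOf_of_le_normalizer hZ
    have h2 := Subgroup.normal_subgroupOf_sup_of_le_normalizer hZ
    have h3 : IsCyclic (↥(Subgroup.zpowers g) ⧸ H.subgroupOf (Subgroup.zpowers g)) :=
      isCyclic_of_surjective (QuotientGroup.mk' _) (QuotientGroup.mk'_surjective _)
    exact isCyclic_of_surjective
      (QuotientGroup.quotientInfEquivProdNormalizerQuotient (Subgroup.zpowers g) H hZ)
      (MulEquiv.surjective _)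

theorem exists_hasCyclicChain_of_isPGroup [Finite G] {p : ℕ} (hp : p.Prime) (hG : IsPGroup p G)
    (H : Subgroup G) : ∃ s, HasCyclicChain H s := by
  have : Fact p.Prime := ⟨hp⟩
  have := hG.isNilpotent
  have hN : NormalizerCondition G := Group.normalizerCondition_of_isNilpotent
  induction H using WellFoundedGT.induction with
  | ind H ih =>
    by_cases hH : H = ⊤
    · exact ⟨0, hH ▸ hasCyclicChain_top_zero⟩
    · obtain ⟨K, hHK, hstep⟩ := exists_cyclicStep_of_lt_normalizer (hN H (lt_top_iff_ne_top.mpr hH))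
      obtain ⟨s, hs⟩ := ih K hHK
      exact ⟨s + 1, hs.cons hstep⟩

theorem hasCyclicChain_one_iff (A : Subgroup G) : HasCyclicChain A 1 ↔ CyclicStep A ⊤ := by
  rw [hasCyclicChain_succ_iff]
  constructor
  · rintro ⟨B, hAB, hB⟩
    rwa [(hasCyclicChain_zero_iff B).mp hB] at hAB
  · exact fun h => ⟨⊤, h, hasCyclicChain_top_zero⟩

/-- In a finite `p`-group the infimum which defines `cyclicLength` is attained. -/
theorem hasCyclicChain_cyclicLength [Finite G] {p : ℕ} (hp : p.Prime) (hG : IsPGroup p G)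
    (H : Subgroup G) : HasCyclicChain H (cyclicLength H) :=
  Nat.sInf_mem (exists_hasCyclicChain_of_isPGroup hp hG H)

/-- In a finite `p`-group `ℓ(G, H) = 0` only for `H = G`. -/
theorem cyclicLength_eq_zero_iff [Finite G] {p : ℕ} (hp : p.Prime) (hG : IsPGroup p G)
    (H : Subgroup G) : cyclicLength H = 0 ↔ H = ⊤ := by
  constructor
  · intro h
    have := hasCyclicChain_cyclicLength hp hG H
    rwa [h, hasCyclicChain_zero_iff] at this
  · rintro rfl
    exact cyclicLength_top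

end CyclicLength

section Additive

variable {A : Type} [AddCommGroup A]

/-- cyclic steps between subgroups of an abelian group written additively -/
theorem cyclicStep_toSubgroup_iff (S T : AddSubgroup A) :
    CyclicStep (AddSubgroup.toSubgroup S) (AddSubgroup.toSubgroup T) ↔
      S ≤ T ∧ ∃ g ∈ T, ∀ b ∈ T, ∃ k : ℤ, b - k • g ∈ S := by
  rw [cyclicStep_iff]
  constructor
  · rintro ⟨hle, -, g, hg, hgen⟩
    refine ⟨fun x hx => hle (show Multiplicative.ofAdd x ∈ AddSubgroup.toSubgroup S from hx),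
      Multiplicative.toAdd g, hg, fun b hb => ?_⟩
    obtain ⟨k, hk⟩ := hgen (Multiplicative.ofAdd b) hb
    refine ⟨k, ?_⟩
    have : Multiplicative.toAdd ((g ^ k)⁻¹ * Multiplicative.ofAdd b) ∈ S := hk
    simpa [sub_eq_neg_add] using this
  · rintro ⟨hle, g, hg, hgen⟩
    refine ⟨fun x hx => hle hx, fun b _ a ha => ?_, Multiplicative.ofAdd g, hg, fun b hb => ?_⟩
    · simpa using ha
    · obtain ⟨k, hk⟩ := hgen (Multiplicative.toAdd b) hb
      refine ⟨k, ?_⟩
      show Multiplicative.toAdd ((Multiplicative.ofAdd g ^ k)⁻¹ * b) ∈ S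
      simpa [sub_eq_neg_add] using hk

end Additive

section Example

variable (p : ℕ)

/-- `G = C_{p²} × C_p` -/
abbrev ExG : Type := Multiplicative (ZMod (p ^ 2) × ZMod p)

/-- `H₁ = p C_{p²} × 0`. -/
def exH₁ : Subgroup (ExG p) :=
  AddSubgroup.toSubgroup ((AddSubgroup.zmultiples (p : ZMod (p ^ 2))).prod ⊥)

/-- `H₂ = 0 × C_p`. -/
def exH₂ : Subgroup (ExG p) :=
  AddSubgroup.toSubgroup ((⊥ : AddSubgroup (ZMod (p ^ 2))).prod ⊤)

theorem toSubgroup_top' {A : Type} [AddGroup A] :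
    AddSubgroup.toSubgroup (⊤ : AddSubgroup A) = ⊤ := rfl

theorem cyclicLength_exH₂ [Fact p.Prime] : cyclicLength (exH₂ p) = 1 := by
  have hp : p.Prime := Fact.out
  have h1 : HasCyclicChain (exH₂ p) 1 := by
    rw [hasCyclicChain_one_iff, ← toSubgroup_top', exH₂, cyclicStep_toSubgroup_iff]
    refine ⟨le_top, (1, 0), trivial, fun b _ => ⟨(b.1.val : ℤ), ?_⟩⟩
    haveI : NeZero (p ^ 2) := ⟨pow_ne_zero 2 hp.ne_zero⟩
    simp [AddSubgroup.mem_prod]
  have h0 : ¬ HasCyclicChain (exH₂ p) 0 := by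
    rw [hasCyclicChain_zero_iff]
    intro h
    have : Multiplicative.ofAdd ((1, 0) : ZMod (p ^ 2) × ZMod p) ∈ exH₂ p := h ▸ trivial
    have h2 : ((1 : ZMod (p ^ 2)), (0 : ZMod p)) ∈ (⊥ : AddSubgroup (ZMod (p ^ 2))).prod ⊤ := this
    haveI : Fact (1 < p ^ 2) := ⟨Nat.one_lt_pow two_ne_zero hp.one_lt⟩
    simp [AddSubgroup.mem_prod] at h2
  refine le_antisymm (Nat.sInf_le h1) ?_
  by_contra hlt
  have : cyclicLength (exH₂ p) = 0 := by omega
  exact h0 (this ▸ Nat.sInf_mem (⟨1, h1⟩ : {s | HasCyclicChain (exH₂ p) s}.Nonempty))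

theorem cyclicLength_exH₁ [Fact p.Prime] : cyclicLength (exH₁ p) = 2 := by
  have hp : p.Prime := Fact.out
  have : NeZero (p ^ 2) := ⟨pow_ne_zero 2 hp.ne_zero⟩
  have h2 : HasCyclicChain (exH₁ p) 2 := by
    have hM : HasCyclicChain
        (AddSubgroup.toSubgroup ((⊤ : AddSubgroup (ZMod (p ^ 2))).prod (⊥ : AddSubgroup (ZMod p))))
        1 := by
      rw [hasCyclicChain_one_iff, ← toSubgroup_top', cyclicStep_toSubgroup_iff]
      refine ⟨le_top, (0, 1), trivial, fun b _ => ⟨(b.2.val : ℤ), ?_⟩⟩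
      simp [AddSubgroup.mem_prod]
    refine hM.cons ?_
    rw [exH₁, cyclicStep_toSubgroup_iff]
    refine ⟨AddSubgroup.prod_mono le_top le_rfl, (1, 0), by simp [AddSubgroup.mem_prod],
      fun b hb => ⟨(b.1.val : ℤ), ?_⟩⟩
    simp only [AddSubgroup.mem_prod, AddSubgroup.mem_top, AddSubgroup.mem_bot, true_and] at hb
    simp [AddSubgroup.mem_prod, hb]
  have h0 : ¬ HasCyclicChain (exH₁ p) 0 := by
    rw [hasCyclicChain_zero_iff]
    intro h
    have h3 : Multiplicative.ofAdd ((0, 1) : ZMod (p ^ 2) × ZMod p) ∈ exH₁ p := h ▸ trivial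
    have h4 : ((0 : ZMod (p ^ 2)), (1 : ZMod p)) ∈
      (AddSubgroup.zmultiples (p : ZMod (p ^ 2))).prod ⊥ := h3
    simp [AddSubgroup.mem_prod] at h4
  have h1 : ¬ HasCyclicChain (exH₁ p) 1 := by
    rw [hasCyclicChain_one_iff, ← toSubgroup_top', exH₁, cyclicStep_toSubgroup_iff]
    rintro ⟨-, ⟨a, c⟩, -, hgen⟩
    let φ : ZMod (p ^ 2) →+* ZMod p := ZMod.castHom (Dvd.intro_left (p ^ 1) (by ring)) (ZMod p)
    have hφ : ∀ z ∈ AddSubgroup.zmultiples (p : ZMod (p ^ 2)), φ z = 0 := by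
      intro z hz
      obtain ⟨j, rfl⟩ := AddSubgroup.mem_zmultiples_iff.mp hz
      simp [φ]
    obtain ⟨k, hk⟩ := hgen (1, 0) trivial
    obtain ⟨l, hl⟩ := hgen (0, 1) trivial
    simp only [AddSubgroup.mem_prod, AddSubgroup.mem_bot, Prod.fst_sub, Prod.snd_sub,
      Prod.smul_fst, Prod.smul_snd] at hk hl
    have e1 := hφ _ hk.1
    have e2 := hk.2
    have e3 := hl.2
    simp only [map_sub, map_one, zsmul_eq_mul, zero_sub, neg_eq_zero, map_mul, map_intCast]
      at e1 e2 e3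
    have hc : c ≠ 0 := by
      rintro rfl
      simp at e3
    have hk0 : (k : ZMod p) = 0 := (mul_eq_zero.mp e2).resolve_right hc
    rw [hk0] at e1
    simp at e1
  refine le_antisymm (Nat.sInf_le h2) ?_
  by_contra hlt
  have hmem := Nat.sInf_mem (⟨2, h2⟩ : {s | HasCyclicChain (exH₁ p) s}.Nonempty)
  have hcases : cyclicLength (exH₁ p) = 0 ∨ cyclicLength (exH₁ p) = 1 := by omega
  rcases hcases with h | h
  · exact h0 (h ▸ hmem)
  · exact h1 (h ▸ hmem)

end Example

/-- The hypotheses on the group are met, for instance by `C_{p²} × C_p`. -/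
theorem isPGroup_exG (p : ℕ) [Fact p.Prime] : IsPGroup p (ExG p) := by
  have : NeZero (p ^ 2) := ⟨pow_ne_zero 2 (Fact.out : p.Prime).ne_zero⟩
  refine IsPGroup.of_card (n := 3) ?_
  rw [Nat.card_eq_fintype_card]
  simp [ExG, ZMod.card]
  ring

end Claimed.Open.R314
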