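import Claimed.Open.R314.SanityCyclicLength

/-!
# Result 314: further checked facts about the cyclic length `ℓ(G, H)`

All facts below are used, mostly tacitly, in the paper.

1. Repetitions are allowed, so `{s | HasCyclicChain H s}` is upward closed.
2. Functoriality: a surjection `φ : G ↠ Q` maps chains to chains
   (`ℓ(Q, φ H) ≤ ℓ(G, H)`), chains of `Q` pull back to chains of `G`, hence
   `ℓ(G, φ⁻¹ J) = ℓ(Q, J)` ("chains above `H` correspond to chains in the quotient", §1), and
   `ℓ` is invariant under conjugation (used in Lemma 7.3).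
3. The order grows at most by the exponent in a cyclic step; `ℓ(C_p^k, 1) = k`
   (the loss for elementary abelian groups is the rank).
4. `D_8`: a noncentral subgroup of order two has `ℓ = 2` (§1, the example of Kuhn and Lloyd), although
   the largest elementary abelian quotient of `D_8` in which it dies has rank one.
-/

namespace Claimed.Open.R314

open Subgroup

section General

variable {G : Type} [Group G]

theorem CyclicStep.refl (A : Subgroup G) : CyclicStep A A :=
  (cyclicStep_iff A A).2 ⟨le_rfl, fun b hb a ha => A.mul_mem (A.mul_mem hb ha) (A.inv_mem hb),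
    1, A.one_mem, fun b hb => ⟨0, by simpa using hb⟩⟩

/-- append a step at the top -/
theorem HasCyclicChain.mono {H : Subgroup G} {s t : ℕ} (h : HasCyclicChain H s) (hst : s ≤ t) :
    HasCyclicChain H t := by
  obtain ⟨c, h0, hs, hstep⟩ := h
  refine ⟨fun i => if i ≤ s then c i else ⊤, by simp [h0], ?_, ?_⟩
  · by_cases h : t ≤ s
    · have : t = s := le_antisymm h hst
      simp [this, hs]
    · simp [h]
  · intro i _
    by_cases h1 : i + 1 ≤ s
    · have h2 : i ≤ s := by omega
      simpa [h1, h2] using hstep i (by omega)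
    · by_cases h2 : i ≤ s
      · have : i = s := by omega
        subst this
        simpa [h1, hs] using CyclicStep.refl (⊤ : Subgroup G)
      · simpa [h1, h2] using CyclicStep.refl (⊤ : Subgroup G)

/-- `ℓ(G, H) ≤ s` if and only if there is a chain of length `s` (repetitions allowed). -/
theorem cyclicLength_le_iff {H : Subgroup G} (hne : ∃ s, HasCyclicChain H s) (s : ℕ) :
    cyclicLength H ≤ s ↔ HasCyclicChain H s :=
  ⟨fun h => HasCyclicChain.mono (show HasCyclicChain H (cyclicLength H) from Nat.sInf_mem hne) h,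
    fun h => Nat.sInf_le h⟩

end General

section Functoriality

variable {G Q : Type} [Group G] [Group Q]

/-- The image of a cyclic step under a homomorphism is a cyclic step. -/
theorem CyclicStep.map (φ : G →* Q) {A B : Subgroup G} (h : CyclicStep A B) :
    CyclicStep (A.map φ) (B.map φ) := by
  obtain ⟨hle, hn, g, hg, hgen⟩ := (cyclicStep_iff A B).1 h
  refine (cyclicStep_iff _ _).2 ⟨Subgroup.map_mono hle, ?_, φ g, Subgroup.mem_map_of_mem φ hg, ?_⟩
  · rintro _ ⟨b, hb, rfl⟩ _ ⟨a, ha, rfl⟩
    exact ⟨b * a * b⁻¹, hn b hb a ha, by simp⟩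
  · rintro _ ⟨b, hb, rfl⟩
    obtain ⟨k, hk⟩ := hgen b hb
    exact ⟨k, (g ^ k)⁻¹ * b, hk, by simp⟩

/-- The preimage of a cyclic step under a surjective homomorphism is a cyclic step. -/
theorem CyclicStep.comap {φ : G →* Q} (hφ : Function.Surjective φ) {A B : Subgroup Q}
    (h : CyclicStep A B) : CyclicStep (A.comap φ) (B.comap φ) := by
  obtain ⟨hle, hn, g, hg, hgen⟩ := (cyclicStep_iff A B).1 h
  obtain ⟨g', rfl⟩ := hφ g
  refine (cyclicStep_iff _ _).2 ⟨Subgroup.comap_mono hle, ?_, g', hg, ?_⟩
  · intro b hb a ha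
    simpa [Subgroup.mem_comap] using hn (φ b) hb (φ a) ha
  · intro b hb
    obtain ⟨k, hk⟩ := hgen (φ b) hb
    exact ⟨k, by simpa [Subgroup.mem_comap] using hk⟩

theorem HasCyclicChain.map {φ : G →* Q} (hφ : Function.Surjective φ) {H : Subgroup G} {s : ℕ}
    (h : HasCyclicChain H s) : HasCyclicChain (H.map φ) s := by
  obtain ⟨c, h0, hs, hstep⟩ := h
  exact ⟨fun i => (c i).map φ, by simp [h0], by simp [hs, Subgroup.map_top_of_surjective φ hφ],
    fun i hi => (hstep i hi).map φ⟩

theorem HasCyclicChain.comap {φ : G →* Q} (hφ : Function.Surjective φ) {J : Subgroup Q} {s : ℕ}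
    (h : HasCyclicChain J s) : HasCyclicChain (J.comap φ) s := by
  obtain ⟨c, h0, hs, hstep⟩ := h
  exact ⟨fun i => (c i).comap φ, by simp [h0], by simp [hs], fun i hi => (hstep i hi).comap hφ⟩

/-- "Chains above `H` correspond to chains in the quotient". -/
theorem hasCyclicChain_comap_iff {φ : G →* Q} (hφ : Function.Surjective φ) (J : Subgroup Q)
    (s : ℕ) : HasCyclicChain (J.comap φ) s ↔ HasCyclicChain J s :=
  ⟨fun h => by simpa [Subgroup.map_comap_eq_self_of_surjective hφ] using h.map hφ,
    fun h => h.comap hφ⟩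

/-- `ℓ(G, φ⁻¹ J) = ℓ(Q, J)` for a surjection `φ : G ↠ Q`; in particular
`ℓ(G, H) = ℓ(G/N, H/N)` for `N ⊴ G`, `N ≤ H`. -/
theorem cyclicLength_comap {φ : G →* Q} (hφ : Function.Surjective φ) (J : Subgroup Q) :
    cyclicLength (J.comap φ) = cyclicLength J := by
  unfold cyclicLength
  congr 1
  ext s
  exact hasCyclicChain_comap_iff hφ J s

/-- `ℓ(K, B) = ℓ(K/B, 1)` for `B ⊴ K` (proof of Lemma 7.3). -/
theorem cyclicLength_eq_cyclicLength_quotient_bot (N : Subgroup G) [N.Normal] :
    cyclicLength N = cyclicLength (⊥ : Subgroup (G ⧸ N)) := by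
  rw [← cyclicLength_comap (QuotientGroup.mk'_surjective N) ⊥]
  congr 1
  exact (QuotientGroup.ker_mk' N).symm

/-- `ℓ` does not increase in quotients. -/
theorem cyclicLength_map_le {φ : G →* Q} (hφ : Function.Surjective φ) {H : Subgroup G}
    (hne : ∃ s, HasCyclicChain H s) : cyclicLength (H.map φ) ≤ cyclicLength H :=
  Nat.sInf_le
    (HasCyclicChain.map hφ (show HasCyclicChain H (cyclicLength H) from Nat.sInf_mem hne))

/-- `ℓ` is invariant under isomorphisms, -/
theorem cyclicLength_map_equiv (e : G ≃* Q) (H : Subgroup G) :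
    cyclicLength (H.map e.toMonoidHom) = cyclicLength H := by
  rw [← cyclicLength_comap (φ := e.toMonoidHom) e.surjective,
    Subgroup.comap_map_eq_self_of_injective e.injective]

/-- in particular under conjugation (used in Lemma 7.3). -/
theorem cyclicLength_conj (g : G) (H : Subgroup G) :
    cyclicLength (H.map (MulAut.conj g).toMonoidHom) = cyclicLength H :=
  cyclicLength_map_equiv (MulAut.conj g) H

end Functoriality

section Concatenation

variable {G : Type} [Group G]

/-- Concatenation of chains: a chain from `B` to `K` inside `K` followed by a chain from `K` to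
`G`. -/
theorem HasCyclicChain.concat {K : Subgroup G} {s t : ℕ} (hK : HasCyclicChain K t)
    (B' : Subgroup K) (hB : HasCyclicChain B' s) :
    HasCyclicChain (B'.map K.subtype) (s + t) := by
  induction s generalizing B' with
  | zero =>
    rw [hasCyclicChain_zero_iff] at hB
    subst hB
    simpa [← MonoidHom.range_eq_map] using hK
  | succ s ih =>
    obtain ⟨C', hstep, hC⟩ := (hasCyclicChain_succ_iff B' s).1 hB
    have := (ih C' hC).cons (hstep.map K.subtype)
    rwa [show s + 1 + t = s + t + 1 by omega]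

/-- `ℓ(G, B) ≤ ℓ(K, B) + ℓ(G, K)` for `B ≤ K ≤ G` (proof of Lemma 7.3). -/
theorem cyclicLength_le_add {B K : Subgroup G} (hBK : B ≤ K)
    (h1 : ∃ s, HasCyclicChain (B.subgroupOf K) s) (h2 : ∃ t, HasCyclicChain K t) :
    cyclicLength B ≤ cyclicLength (B.subgroupOf K) + cyclicLength K := by
  have h := HasCyclicChain.concat
    (show HasCyclicChain K (cyclicLength K) from Nat.sInf_mem h2) (B.subgroupOf K)
    (show HasCyclicChain (B.subgroupOf K) (cyclicLength (B.subgroupOf K)) from Nat.sInf_mem h1)
  rw [Subgroup.map_subgroupOf_eq_of_le hBK] at h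
  exact Nat.sInf_le h

end Concatenation

section Order

variable {G : Type} [Group G]

/-- If `x ^ m ∈ A` for all `x ∈ B`, then a cyclic step `A ⊴ B` multiplies the order by at most
`m`. -/
theorem CyclicStep.card_le {A B : Subgroup G} (h : CyclicStep A B) {m : ℕ} (hm : 0 < m)
    (hpow : ∀ x ∈ B, x ^ m ∈ A) : Nat.card B ≤ m * Nat.card A := by
  obtain ⟨hle, hn, hc⟩ := h
  have h1 : Nat.card (B ⧸ A.subgroupOf B) ≤ m := by
    obtain ⟨q, hq⟩ := hc.exists_generator
    have h2 : Nat.card (B ⧸ A.subgroupOf B) = orderOf q := by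
      rw [← Nat.card_zpowers, (Subgroup.eq_top_iff' _).2 hq, Subgroup.card_top]
    rw [h2]
    apply orderOf_le_of_pow_eq_one hm
    obtain ⟨x, rfl⟩ := QuotientGroup.mk_surjective q
    rw [← QuotientGroup.mk_pow, QuotientGroup.eq_one_iff]
    simpa [Subgroup.mem_subgroupOf] using hpow x x.2
  have h3 : Nat.card B = Nat.card (B ⧸ A.subgroupOf B) * Nat.card (A.subgroupOf B) :=
    Subgroup.card_eq_card_quotient_mul_card_subgroup _
  have h4 : Nat.card (A.subgroupOf B) = Nat.card A :=
    Nat.card_congr (Subgroup.subgroupOfEquivOfLe hle).toEquiv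
  rw [h3, h4]
  exact Nat.mul_le_mul_right _ h1

/-- In a group of exponent dividing `m` a chain of length `s` from `H` to `G` forces
`|G| ≤ m ^ s |H|`. -/
theorem HasCyclicChain.card_le {H : Subgroup G} {s m : ℕ} (h : HasCyclicChain H s) (hm : 0 < m)
    (hpow : ∀ x : G, x ^ m = 1) : Nat.card G ≤ m ^ s * Nat.card H := by
  induction s generalizing H with
  | zero =>
    rw [hasCyclicChain_zero_iff] at h
    subst h
    simp
  | succ s ih =>
    obtain ⟨B, hstep, hB⟩ := (hasCyclicChain_succ_iff H s).1 h
    calc Nat.card G ≤ m ^ s * Nat.card B := ih hB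
      _ ≤ m ^ s * (m * Nat.card H) :=
        Nat.mul_le_mul_left _ (hstep.card_le hm fun x _ => by rw [hpow x]; exact H.one_mem)
      _ = m ^ (s + 1) * Nat.card H := by ring

end Order

section Commutative

variable {A : Type} [CommGroup A]

theorem cyclicStep_sup_zpowers (K : Subgroup A) (g : A) : CyclicStep K (K ⊔ zpowers g) := by
  refine (cyclicStep_iff _ _).2 ⟨le_sup_left, fun b _ a ha => by simpa using ha, g,
    mem_sup_right (mem_zpowers g), fun b hb => ?_⟩
  obtain ⟨x, hx, y, hy, rfl⟩ := Subgroup.mem_sup.1 hb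
  obtain ⟨k, rfl⟩ := Subgroup.mem_zpowers_iff.1 hy
  exact ⟨k, by simpa using hx⟩

/-- In a commutative group which is generated by `H` and `k` further elements there is a chain of
length `k` from `H`. -/
theorem hasCyclicChain_of_generators (k : ℕ) (g : ℕ → A) (H : Subgroup A)
    (hgen : H ⊔ Subgroup.closure (g '' Set.Iio k) = ⊤) : HasCyclicChain H k := by
  refine ⟨fun i => H ⊔ Subgroup.closure (g '' Set.Iio i), by simp, hgen, fun i _ => ?_⟩
  have : H ⊔ Subgroup.closure (g '' Set.Iio (i + 1)) =
      (H ⊔ Subgroup.closure (g '' Set.Iio i)) ⊔ zpowers (g i) := by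
    rw [sup_assoc, zpowers_eq_closure, ← Subgroup.closure_union]
    congr 2
    ext x
    simp only [Set.mem_image, Set.mem_Iio, Set.union_singleton, Set.mem_insert_iff]
    constructor
    · rintro ⟨j, hj, rfl⟩
      rcases Nat.lt_succ_iff_lt_or_eq.1 hj with h | rfl
      · exact Or.inr ⟨j, h, rfl⟩
      · exact Or.inl rfl
    · rintro (rfl | ⟨j, hj, rfl⟩)
      · exact ⟨i, Nat.lt_succ_self i, rfl⟩
      · exact ⟨j, Nat.lt_succ_of_lt hj, rfl⟩
  simp only [this]
  exact cyclicStep_sup_zpowers _ _

end Commutative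

section ElementaryAbelian

variable (p k : ℕ) [hp : Fact p.Prime]

/-- The elementary abelian group `C_p^k`. -/
abbrev ElemAb : Type := Multiplicative (Fin k → ZMod p)

/-- the standard generators (and `1` for indices `≥ k`) -/
def elemAbGen (i : ℕ) : ElemAb p k :=
  if h : i < k then Multiplicative.ofAdd (Pi.single ⟨i, h⟩ 1) else 1

theorem elemAb_closure : Subgroup.closure (elemAbGen p k '' Set.Iio k) = ⊤ := by
  rw [eq_top_iff]
  intro x _
  have hx : x = ∏ i : Fin k, (elemAbGen p k i) ^ ((Multiplicative.toAdd x i).val) := by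
    apply Multiplicative.toAdd.injective
    rw [toAdd_prod]
    funext j
    simp only [toAdd_pow, elemAbGen, Fin.is_lt, dite_true, Fin.eta, toAdd_ofAdd,
      Finset.sum_apply, Pi.smul_apply, Pi.single_apply, smul_ite, smul_zero]
    simp
  rw [hx]
  exact Subgroup.prod_mem _ fun i _ => Subgroup.pow_mem _
    (Subgroup.subset_closure (Set.mem_image_of_mem _ (Set.mem_Iio.2 i.2))) _

/-- `ℓ(C_p^k, 1) = k`: for elementary abelian groups the cyclic length is the rank. -/
theorem cyclicLength_elemAb : cyclicLength (⊥ : Subgroup (ElemAb p k)) = k := by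
  apply le_antisymm
  · exact Nat.sInf_le (hasCyclicChain_of_generators k (elemAbGen p k) ⊥
      (by rw [elemAb_closure, bot_sup_eq]))
  · apply le_csInf ⟨k, hasCyclicChain_of_generators k (elemAbGen p k) ⊥
      (by rw [elemAb_closure, bot_sup_eq])⟩
    intro s hs
    have h1 := HasCyclicChain.card_le hs hp.out.pos (fun x => by
      apply Multiplicative.toAdd.injective
      funext j
      simp)
    have h2 : Nat.card (ElemAb p k) = p ^ k := by
      simp [ElemAb, Nat.card_eq_fintype_card, ZMod.card]
    rw [h2] at h1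
    simp only [Subgroup.card_bot, mul_one] at h1
    exact (Nat.pow_le_pow_iff_right hp.out.one_lt).1 h1

end ElementaryAbelian

section D8

open DihedralGroup

/-- The noncentral subgroup `{1, s}` of order two of `D_8`. -/
def D8H : Subgroup (DihedralGroup 4) where
  carrier := {1, sr 0}
  one_mem' := by simp
  mul_mem' := by
    rintro a b (rfl | rfl) (rfl | rfl) <;> decide
  inv_mem' := by
    rintro a (rfl | rfl) <;> decide

/-- The Klein four subgroup `{1, s, r², sr²}` of `D_8`. -/
def D8K : Subgroup (DihedralGroup 4) where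
  carrier := {1, sr 0, r 2, sr 2}
  one_mem' := by simp
  mul_mem' := by
    rintro a b (rfl | rfl | rfl | rfl) (rfl | rfl | rfl | rfl) <;> decide
  inv_mem' := by
    rintro a (rfl | rfl | rfl | rfl) <;> decide

instance D8H.decidableMem : DecidablePred (· ∈ D8H) := fun x =>
  decidable_of_iff (x = 1 ∨ x = sr 0) Iff.rfl

instance D8K.decidableMem : DecidablePred (· ∈ D8K) := fun x =>
  decidable_of_iff (x = 1 ∨ x = sr 0 ∨ x = r 2 ∨ x = sr 2) Iff.rfl

/-- `{1, s}` is not central, -/
theorem D8H_not_le_center : ¬ D8H ≤ Subgroup.center (DihedralGroup 4) := by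
  intro h
  have h1 : (sr 0 : DihedralGroup 4) ∈ Subgroup.center (DihedralGroup 4) := h (by decide)
  have h2 := Subgroup.mem_center_iff.1 h1 (r 1)
  revert h2
  decide

/-- not even normal, so there is no chain of length one. -/
theorem D8_not_cyclicStep : ¬ CyclicStep D8H ⊤ := by
  intro h
  obtain ⟨-, hn, -⟩ := (cyclicStep_iff _ _).1 h
  have h2 := hn (r 1) (mem_top _) (sr 0) (by decide)
  revert h2
  decide

theorem D8_cyclicStep₁ : CyclicStep D8H D8K := by
  refine (cyclicStep_iff _ _).2 ⟨?_, ?_, r 2, by decide, ?_⟩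
  · intro x; revert x; decide
  · decide
  · have key : ∀ b ∈ D8K, ∃ k : Fin 2, ((r 2 : DihedralGroup 4) ^ (k : ℕ))⁻¹ * b ∈ D8H := by
      decide
    intro b hb
    obtain ⟨k, hk⟩ := key b hb
    exact ⟨(k : ℕ), by simpa using hk⟩

theorem D8_cyclicStep₂ : CyclicStep D8K ⊤ := by
  refine (cyclicStep_iff _ _).2 ⟨le_top, ?_, r 1, mem_top _, ?_⟩
  · have key : ∀ b : DihedralGroup 4, ∀ a ∈ D8K, b * a * b⁻¹ ∈ D8K := by decide
    exact fun b _ a ha => key b a ha
  · have key : ∀ b : DihedralGroup 4, ∃ k : Fin 2,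
        ((r 1 : DihedralGroup 4) ^ (k : ℕ))⁻¹ * b ∈ D8K := by
      decide
    intro b _
    obtain ⟨k, hk⟩ := key b
    exact ⟨(k : ℕ), by simpa using hk⟩

/-- `ℓ(D_8, {1, s}) = 2` (the example of Kuhn and Lloyd quoted in §1 of the paper). -/
theorem cyclicLength_D8H : cyclicLength D8H = 2 := by
  have h2 : HasCyclicChain D8H 2 :=
    ((hasCyclicChain_one_iff D8K).2 D8_cyclicStep₂).cons D8_cyclicStep₁
  apply le_antisymm (Nat.sInf_le h2)
  apply le_csInf ⟨2, h2⟩
  intro s hs
  by_contra hlt
  have hs1 : HasCyclicChain D8H 1 := HasCyclicChain.mono hs (by omega)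
  exact D8_not_cyclicStep ((hasCyclicChain_one_iff D8H).1 hs1)

/-- Every normal subgroup of `D_8` which contains `s` contains the Klein four group `D8K`, which has
index two.  So the largest quotient of `D_8` in which `{1, s}` dies is `C_2`: the lower bound for
the loss by elementary abelian quotients is `1 < 2 = ℓ`. -/
theorem D8K_le_of_normal (N : Subgroup (DihedralGroup 4)) [hN : N.Normal] (h : D8H ≤ N) :
    D8K ≤ N := by
  have h0 : (sr 0 : DihedralGroup 4) ∈ N := h (by decide)
  have h1 : (sr 2 : DihedralGroup 4) ∈ N := by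
    have := hN.conj_mem _ h0 (r 1)
    have e : (r 1 * sr 0 * (r 1)⁻¹ : DihedralGroup 4) = sr 2 := by decide
    rwa [e] at this
  have h2 : (r 2 : DihedralGroup 4) ∈ N := by
    have e : (r 2 : DihedralGroup 4) = sr 0 * sr 2 := by decide
    rw [e]; exact N.mul_mem h0 h1
  rintro x (rfl | rfl | rfl | rfl)
  · exact N.one_mem
  · exact h0
  · exact h2
  · exact h1

theorem D8K_index : D8K.index = 2 := by
  have h1 : Nat.card D8K = 4 := by
    rw [Nat.card_eq_fintype_card]
    decide
  have h2 := D8K.card_mul_index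
  rw [h1, DihedralGroup.nat_card] at h2
  omega

end D8

end Claimed.Open.R314
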