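import Mathlib
import Claimed.Agent.R304.AsCube

/-!
# Result 314, sanity: a model-free degree for based loops `(Iⁿ, ∂Iⁿ) → (X, x₀)`

For a field `k` and a based loop `f` the linear map `degMap k f = f^* : Hⁿ(X, {x₀}; k) → Hⁿ(Iⁿ, ∂Iⁿ; k)`
(Alexander-Spanier cohomology, `Claimed/Agent/R304/As*.lean`).  It is homotopy invariant and additive, and it
is bijective, onto a one-dimensional space, for a collapse map `Iⁿ → Iⁿ/∂Iⁿ ≅ X`.  Hence the class of a collapse
map in Mathlib's `HomotopyGroup` is not an `ℓ`-th power for any prime `ℓ` and has infinite order.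
(Written by helper95 for the five folders on stable homotopy theory; this is the copy of folder R314.)
-/

set_option autoImplicit false

open Topology unitInterval Claimed.Agent.R304
open scoped Topology.Homotopy

namespace Claimed.Open.R314

noncomputable section

variable {k : Type} [Field k] {n : ℕ} {X : Type} [TopologicalSpace X] {x₀ : X}

theorem genLoop_mapsTo (f : Ω^ (Fin n) X x₀) : Set.MapsTo f (asCubeBd n) {x₀} :=
  fun t ht => f.2 t ht

/-- `f^* : Hⁿ(X, {x₀}; k) → Hⁿ(Iⁿ, ∂Iⁿ; k)` -/
def degMap (k : Type) [Field k] (f : Ω^ (Fin n) X x₀) :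
    AsH k X {x₀} n →ₗ[k] AsH k (AsCube n) (asCubeBd n) n :=
  asMapH k f f.1.continuous (asCubeBd n) {x₀} (genLoop_mapsTo f) n

/-! ## Collapse maps -/

/-- A continuous surjection from a compact space to a Hausdorff space that is injective off the fibre of `x₀` is a relative homeomorphism. -/
theorem exists_asRelHomeo_of_collapse {P Y : Type} [TopologicalSpace P] [CompactSpace P]
    [TopologicalSpace Y] [T2Space Y] (c : P → Y) (hc : Continuous c) (y₀ : Y)
    (hsurj : Function.Surjective c) (hinj : ∀ a b, c a ≠ y₀ → c a = c b → a = b) :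
    ∃ s : Y → P, AsRelHomeo c s {y₀} := by
  choose s hs using hsurj
  refine ⟨s, hc, isClosed_singleton, fun y _ => hs y, fun x hx => ?_, fun y hy => ?_⟩
  · exact (hinj x (s (c x)) hx (hs (c x)).symm).symm
  · rw [ContinuousAt, tendsto_nhds]
    intro U hU hyU
    have hcl : IsClosed (c '' Uᶜ) := (hU.isClosed_compl.isCompact.image hc).isClosed
    have hy' : y ∈ (c '' Uᶜ)ᶜ := by
      rintro ⟨a, ha, hay⟩
      apply ha
      have h1 : c a ≠ y₀ := by rw [hay]; exact hy
      have h2 : a = s y := hinj a (s y) h1 (by rw [hay, hs y])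
      rw [h2]
      exact hyU
    filter_upwards [hcl.isOpen_compl.mem_nhds hy'] with z hz
    by_contra hzU
    exact hz ⟨s z, hzU, hs z⟩

theorem asMapH_bijective_of_collapse {P Y : Type} [TopologicalSpace P] [CompactSpace P]
    [TopologicalSpace Y] [T2Space Y] (c : P → Y) (hc : Continuous c) (y₀ : Y)
    (hsurj : Function.Surjective c) (hinj : ∀ a b, c a ≠ y₀ → c a = c b → a = b)
    (A : Set P) (hA : A = c ⁻¹' {y₀}) (hm : Set.MapsTo c A {y₀}) (q : ℕ) :
    Function.Bijective (asMapH k c hc A {y₀} hm q) := by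
  subst hA
  obtain ⟨s, hs⟩ := exists_asRelHomeo_of_collapse c hc y₀ hsurj hinj
  have : CompactSpace Y := hsurj.compactSpace hc
  exact as_exc_bij c s {y₀} hs q

/-- A based loop `c : Iⁿ → X` is a *collapse map* if it induces a bijection `Iⁿ / ∂Iⁿ → X`. -/
structure IsCollapse (c : Ω^ (Fin n) X x₀) : Prop where
  surj : Function.Surjective c
  inj : ∀ a b, c a ≠ x₀ → c a = c b → a = b
  bd : ∀ a, c a = x₀ → a ∈ asCubeBd n

theorem IsCollapse.degMap_bijective [T2Space X] {c : Ω^ (Fin n) X x₀} (h : IsCollapse c) :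
    Function.Bijective (degMap k c) := by
  refine asMapH_bijective_of_collapse c c.1.continuous x₀ h.surj h.inj _ ?_ _ n
  ext t
  exact ⟨fun ht => c.2 t ht, fun ht => h.bd t ht⟩

theorem IsCollapse.degMap_ne_zero [T2Space X] {c : Ω^ (Fin n) X x₀} (h : IsCollapse c) :
    degMap k c ≠ 0 := by
  intro h0
  have hb := h.degMap_bijective (k := k)
  have hsub : Subsingleton (AsH k (AsCube n) (asCubeBd n) n) := by
    refine ⟨fun a b => ?_⟩
    obtain ⟨a', rfl⟩ := hb.2 a
    obtain ⟨b', rfl⟩ := hb.2 b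
    rw [h0]
    rfl
  have h1 := as_cube_top (k := k) n
  rw [Module.finrank_zero_of_subsingleton] at h1
  exact zero_ne_one h1

/-! ## Homotopy invariance -/

theorem degMap_eq_of_homotopic {f g : Ω^ (Fin n) X x₀} (h : GenLoop.Homotopic f g) :
    degMap k f = degMap k g := by
  obtain ⟨H⟩ := h
  refine LinearMap.ext fun u => ?_
  obtain ⟨φ, rfl⟩ := as_cls_surj _ _ n u
  unfold degMap
  rw [as_mapH_cls, as_mapH_cls, as_cls_eq_iff]
  set G : AsCube n × unitInterval → X := fun y => H (y.2, y.1) with hG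
  have hGc : Continuous G := H.continuous.comp (continuous_snd.prodMk continuous_fst)
  have hf : (f : AsCube n → X) = G ∘ asSlice (AsCube n) 0 := by
    funext x
    exact (H.apply_zero x).symm
  have hg : (g : AsCube n → X) = G ∘ asSlice (AsCube n) 1 := by
    funext x
    exact (H.apply_one x).symm
  set m := asPull k G n φ.1 with hm
  have hms : Prod.fst '' asSupp m ⊆ (asCubeBd n)ᶜ := by
    rintro _ ⟨⟨y, s⟩, hy, rfl⟩ hbd
    have h1 := as_supp_pull _ hGc φ.1 hy
    have h2 : G (y, s) = x₀ := by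
      have h3 : H (s, y) = f y := H.eq_fst s hbd
      rw [hG]
      show H (s, y) = x₀
      rw [h3]
      exact f.2 y hbd
    exact Set.disjoint_left.1 φ.2.1 h1 h2
  have hmd : asSupp (asD k _ n m) = ∅ := by
    rw [hm, ← as_pull_d]
    exact as_supp_eq_empty_of_pull _ hGc _ φ.2.2
  show asPull k (f : AsCube n → X) n φ.1 - asPull k (g : AsCube n → X) n φ.1 ∈ _
  rw [hf, hg, as_pull_comp, as_pull_comp, ← hm]
  clear_value m
  clear hm hf hg hGc
  clear_value G
  clear hG H φ f g
  cases n with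
  | zero =>
    rw [as_htpy_zero (AsCube 0) 1 0 m hmd, sub_self]
    exact Submodule.zero_mem _
  | succ q =>
    obtain ⟨b, hb, hn⟩ := as_htpy (AsCube (q + 1)) 1 0 (asCubeBd (q + 1))ᶜ
      (as_cubeBd_closed (q + 1)).isOpen_compl q m hms hmd
    exact (as_mem_B_succ _ _ _ _).2 ⟨b, Set.subset_compl_iff_disjoint_right.1 hb, hn⟩

/-! ## Additivity -/

theorem transAt_apply (i : Fin n) (f g : Ω^ (Fin n) X x₀) (t : Fin n → I) :
    GenLoop.transAt i f g t = if (t i : ℝ) ≤ 1 / 2
      then f (Function.update t i <| Set.projIcc 0 1 zero_le_one (2 * t i))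
      else g (Function.update t i <| Set.projIcc 0 1 zero_le_one (2 * t i - 1)) := by
  simp only [GenLoop.transAt, GenLoop.coe_copy]

theorem transAt_half (i : Fin n) (f g : Ω^ (Fin n) X x₀) (t : Fin n → I) (h : (t i : ℝ) = 1 / 2) :
    GenLoop.transAt i f g t = x₀ := by
  rw [transAt_apply, if_pos h.le]
  refine GenLoop.boundary f _ ⟨i, Or.inr ?_⟩
  rw [Function.update_self, h]
  norm_num

/-- On cochains that vanish near the base point, `(f * g)^# - (f * const)^# - (const * g)^#` is locally zero. -/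
theorem asSupp_pull_transAt (i : Fin n) (f g : Ω^ (Fin n) X x₀) (q : ℕ) (φ : AsC k X q)
    (hφ : AsVan φ x₀) :
    asSupp (asPull k (GenLoop.transAt i f g) q φ - asPull k (GenLoop.transAt i f GenLoop.const) q φ
      - asPull k (GenLoop.transAt i GenLoop.const g) q φ) = ∅ := by
  rw [Set.eq_empty_iff_forall_notMem]
  intro t
  rw [as_not_mem_supp]
  obtain ⟨N', hN', hz⟩ := hφ
  have hx₀ : φ (fun _ => x₀) = 0 := hz _ fun _ => mem_of_mem_nhds hN'
  have hci : Continuous fun s : Fin n → I => ((s i : I) : ℝ) :=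
    continuous_subtype_val.comp (continuous_apply i)
  rcases lt_trichotomy ((t i : I) : ℝ) (1 / 2) with hlt | heq | hgt
  · refine ⟨{s | ((s i : I) : ℝ) < 1 / 2}, (isOpen_lt hci continuous_const).mem_nhds hlt, fun τ hτ => ?_⟩
    show φ (fun j => GenLoop.transAt i f g (τ j)) - φ (fun j => GenLoop.transAt i f GenLoop.const (τ j))
      - φ (fun j => GenLoop.transAt i GenLoop.const g (τ j)) = 0
    have e1 : (fun j => GenLoop.transAt i f g (τ j)) =
        fun j => GenLoop.transAt i f GenLoop.const (τ j) := by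
      funext j
      have hj : ((τ j i : I) : ℝ) ≤ 1 / 2 := le_of_lt (hτ j)
      rw [transAt_apply, transAt_apply, if_pos hj, if_pos hj]
    have e2 : (fun j => GenLoop.transAt i GenLoop.const g (τ j)) = fun _ => x₀ := by
      funext j
      have hj : ((τ j i : I) : ℝ) ≤ 1 / 2 := le_of_lt (hτ j)
      rw [transAt_apply, if_pos hj]
      rfl
    rw [e1, e2, hx₀, sub_self, sub_zero]
  · have hnb : ∀ F : Ω^ (Fin n) X x₀, F t = x₀ → (F : (Fin n → I) → X) ⁻¹' N' ∈ 𝓝 t := by
      intro F hF
      apply F.1.continuous.continuousAt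
      show N' ∈ 𝓝 (F t)
      rw [hF]
      exact hN'
    refine ⟨_, Filter.inter_mem (Filter.inter_mem (hnb _ (transAt_half i f g t heq))
      (hnb _ (transAt_half i f GenLoop.const t heq)))
      (hnb _ (transAt_half i GenLoop.const g t heq)), fun τ hτ => ?_⟩
    show φ (fun j => GenLoop.transAt i f g (τ j)) - φ (fun j => GenLoop.transAt i f GenLoop.const (τ j))
      - φ (fun j => GenLoop.transAt i GenLoop.const g (τ j)) = 0
    rw [hz _ fun j => (hτ j).1.1, hz _ fun j => (hτ j).1.2, hz _ fun j => (hτ j).2, sub_self, sub_zero]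
  · refine ⟨{s | 1 / 2 < ((s i : I) : ℝ)}, (isOpen_lt continuous_const hci).mem_nhds hgt, fun τ hτ => ?_⟩
    show φ (fun j => GenLoop.transAt i f g (τ j)) - φ (fun j => GenLoop.transAt i f GenLoop.const (τ j))
      - φ (fun j => GenLoop.transAt i GenLoop.const g (τ j)) = 0
    have e1 : (fun j => GenLoop.transAt i f g (τ j)) =
        fun j => GenLoop.transAt i GenLoop.const g (τ j) := by
      funext j
      have hj : ¬ ((τ j i : I) : ℝ) ≤ 1 / 2 := not_le.2 (hτ j)
      rw [transAt_apply, transAt_apply, if_neg hj, if_neg hj]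
    have e2 : (fun j => GenLoop.transAt i f GenLoop.const (τ j)) = fun _ => x₀ := by
      funext j
      have hj : ¬ ((τ j i : I) : ℝ) ≤ 1 / 2 := not_le.2 (hτ j)
      rw [transAt_apply, if_neg hj]
      rfl
    rw [e1, e2, hx₀, sub_zero, sub_self]

theorem degMap_transAt_aux (i : Fin n) (f g : Ω^ (Fin n) X x₀) :
    degMap k (GenLoop.transAt i f g) =
      degMap k (GenLoop.transAt i f GenLoop.const) + degMap k (GenLoop.transAt i GenLoop.const g) := by
  refine LinearMap.ext fun u => ?_
  obtain ⟨φ, rfl⟩ := as_cls_surj _ _ n u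
  rw [LinearMap.add_apply]
  unfold degMap
  rw [as_mapH_cls, as_mapH_cls, as_mapH_cls, ← map_add, as_cls_eq_iff]
  apply as_null_le_B
  have hφ : AsVan φ.1 x₀ := by
    rw [← as_not_mem_supp]
    exact fun h => Set.disjoint_left.1 φ.2.1 h rfl
  have := asSupp_pull_transAt i f g n φ.1 hφ
  rw [sub_sub] at this
  exact this

/-- the degree on the homotopy group -/
def degH (k : Type) [Field k] (a : HomotopyGroup (Fin n) X x₀) :
    AsH k X {x₀} n →ₗ[k] AsH k (AsCube n) (asCubeBd n) n :=
  Quotient.lift (degMap k) (fun _ _ h => degMap_eq_of_homotopic h) a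

/-- the class of a based loop -/
def hcls (f : Ω^ (Fin n) X x₀) : HomotopyGroup (Fin n) X x₀ := Quotient.mk _ f

theorem hcls_mul [Nonempty (Fin n)] (i : Fin n) (p q : Ω^ (Fin n) X x₀) :
    hcls p * hcls q = hcls (GenLoop.transAt i q p) :=
  HomotopyGroup.mul_spec

theorem hcls_const [Nonempty (Fin n)] : hcls (GenLoop.const : Ω^ (Fin n) X x₀) = 1 :=
  HomotopyGroup.one_def.symm

theorem degH_hcls (f : Ω^ (Fin n) X x₀) : degH k (hcls f) = degMap k f := rfl

theorem degH_mul [Nonempty (Fin n)] (a b : HomotopyGroup (Fin n) X x₀) :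
    degH k (a * b) = degH k a + degH k b := by
  induction a using Quotient.inductionOn with
  | h p =>
  induction b using Quotient.inductionOn with
  | h q =>
  have i : Fin n := Classical.arbitrary _
  show degH k (hcls p * hcls q) = degH k (hcls p) + degH k (hcls q)
  have h2 : hcls (GenLoop.transAt i q GenLoop.const) = hcls q := by
    rw [← hcls_mul, hcls_const, one_mul]
  have h3 : hcls (GenLoop.transAt i GenLoop.const p) = hcls p := by
    rw [← hcls_mul, hcls_const, mul_one]
  rw [hcls_mul i, degH_hcls, degMap_transAt_aux, ← degH_hcls, ← degH_hcls, h2, h3, add_comm]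

/-- the degree as a homomorphism -/
def degHom (k : Type) [Field k] [Nonempty (Fin n)] : HomotopyGroup (Fin n) X x₀ →*
    Multiplicative (AsH k X {x₀} n →ₗ[k] AsH k (AsCube n) (asCubeBd n) n) :=
  MonoidHom.mk' (fun a => Multiplicative.ofAdd (degH k a)) (fun a b => by
    rw [degH_mul]
    rfl)

theorem degH_pow [Nonempty (Fin n)] (a : HomotopyGroup (Fin n) X x₀) (m : ℕ) :
    degH k (a ^ m) = m • degH k a := by
  have := map_pow (degHom k (n := n) (X := X) (x₀ := x₀)) a m
  exact this

theorem degH_one [Nonempty (Fin n)] : degH k (1 : HomotopyGroup (Fin n) X x₀) = 0 :=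
  map_one (degHom k (n := n) (X := X) (x₀ := x₀))

/-! ## The two exports -/

/-- **The class of a collapse map is not an `ℓ`-th power** (`ℓ` prime). -/
theorem IsCollapse.ne_pow [T2Space X] [Nonempty (Fin n)] {c : Ω^ (Fin n) X x₀} (h : IsCollapse c)
    (ℓ : ℕ) [Fact ℓ.Prime] (y : HomotopyGroup (Fin n) X x₀) :
    hcls c ≠ y ^ ℓ := by
  intro he
  have h1 : degH (ZMod ℓ) (hcls c) = ℓ • degH (ZMod ℓ) y := by
    rw [he, degH_pow]
  have h2 : ℓ • degH (ZMod ℓ) y = 0 := by
    rw [← Nat.cast_smul_eq_nsmul (ZMod ℓ), ZMod.natCast_self, zero_smul]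
  rw [h2] at h1
  exact h.degMap_ne_zero (k := ZMod ℓ) h1

/-- **The class of a collapse map has infinite order.** -/
theorem IsCollapse.pow_ne_one [T2Space X] [Nonempty (Fin n)] {c : Ω^ (Fin n) X x₀}
    (h : IsCollapse c) (a : ℕ) (ha : a ≠ 0) : hcls c ^ a ≠ 1 := by
  intro he
  have h1 : a • degH ℚ (hcls c) = 0 := by
    rw [← degH_pow, he, degH_one]
  rw [← Nat.cast_smul_eq_nsmul ℚ] at h1
  rcases smul_eq_zero.1 h1 with h2 | h2
  · exact ha (by exact_mod_cast h2)
  · exact h.degMap_ne_zero (k := ℚ) h2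

end

end Claimed.Open.R314
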