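import Claimed.Open.R314.SanityNonTrivial
import Claimed.Open.R314.SanityDegCore

/-!
# Result 314: `IsPLocal`, `RationallyAcyclic` and `GeomAcyclic K 0` have teeth

`SanityNonTrivial.lean` shows that the unit of the sphere spectrum is not zero.  This file shows, with
the degree of `SanityDegCore.lean` (Alexander-Spanier cohomology, `Claimed/Agent/R304/As*.lean`), that
the unit is not divisible by any prime and that it has infinite order.  For every finite group `G`:

* `not_surjective_nsmul_stablePi_sphere`: no prime `q` acts surjectively on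
  `π_{2|G|}^{1}(sh² 𝕊) = π_0(𝕊)`;
* `not_isPLocal_sphere`, `not_isCompactPLocal_sphere`: the (integral) genuine `G`-sphere spectrum is
  not `p`-local, hence not a finite `p`-local spectrum, for any `p`: a non-example of the class of
  spectra over which `Statement` quantifies;
* `exists_not_torsion_stablePi_sphere`: `π_0(𝕊)` is not a torsion group;
* `not_rationallyAcyclic_geomFix_sphere`, `not_geomAcyclic_zero_sphere`: `Φ^H 𝕊` is not rationally
  acyclic, that is `K(0)_*(Φ^H 𝕊) ≠ 0`, for every subgroup `H`: a non-example of the premise and of the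
  conclusion of the implications in `Statement` at height `0`;
* `not_isPLocal_geomFix_sphere`: `Φ^H 𝕊` is not `p`-local either.

Method: a relation `q • y = 1` or `a • 1 = 0` in the colimit `stablePi` holds at a finite level `n`,
in `π_{k+2}(Map_*(S^{n·ℝ[N]}, X_n))`.  Uncurrying (`uncurryPi`) is a homomorphism from this group to
Mathlib's `π_m(X_n)`, `m = (n + 2)|N|`, which sends the unit to the class of the quotient map
`I^m → I^m/∂ = X_n`, a collapse map in the sense of `SanityDegCore.lean`; its class is not an `q`-th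
power and has infinite order (`IsCollapse.ne_pow`, `IsCollapse.pow_ne_one`).  As in
`SanityNonTrivial.lean` everything is done once, for the spectra with a structure `UnitData` whose
maps `cell n` are surjective.
-/

open CategoryTheory Topology unitInterval
open scoped Topology.Homotopy

namespace Claimed.Open.R314

noncomputable section

set_option linter.unusedSectionVars false

section Bump2

variable {ι : Type} [Fintype ι]

lemma norm_cubeVec_lt_of_not_boundary {x : ι → I} (hx : x ∉ Cube.boundary ι) :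
    ‖cubeVec x‖ < 1 / 2 := by
  rw [pi_norm_lt_iff (by norm_num)]
  intro i
  rw [Real.norm_eq_abs, abs_lt]
  have h0 := (x i).2.1
  have h1 := (x i).2.2
  have n0 : (x i : ℝ) ≠ 0 := fun h => hx ⟨i, Or.inl (Subtype.ext h)⟩
  have n1 : (x i : ℝ) ≠ 1 := fun h => hx ⟨i, Or.inr (Subtype.ext h)⟩
  have p0 : 0 < (x i : ℝ) := lt_of_le_of_ne h0 (Ne.symm n0)
  have p1 : (x i : ℝ) < 1 := lt_of_le_of_ne h1 n1
  constructor <;> simp only [cubeVec] <;> linarith

lemma boundary_of_cubeBump_eq {x : ι → I} (h : cubeBump x = (0, -(1 / 4))) :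
    x ∈ Cube.boundary ι := by
  by_contra hx
  have h1 := norm_cubeVec_lt_of_not_boundary hx
  have h2 : 1 / 2 - ‖cubeVec x‖ - 1 / 4 = -(1 / 4) := congrArg Prod.snd h
  linarith

lemma eq_of_cubeBump_eq {x y : ι → I} (hx : x ∉ Cube.boundary ι) (h : cubeBump x = cubeBump y) :
    x = y := by
  have h1 := norm_cubeVec_lt_of_not_boundary hx
  have h2 : 1 / 2 - ‖cubeVec x‖ - 1 / 4 = 1 / 2 - ‖cubeVec y‖ - 1 / 4 := congrArg Prod.snd h
  have h3 : ‖cubeVec y‖ = ‖cubeVec x‖ := by linarith
  have h4 : (1 / 2 - ‖cubeVec x‖) • cubeVec x = (1 / 2 - ‖cubeVec y‖) • cubeVec y :=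
    congrArg Prod.fst h
  rw [h3] at h4
  have h5 : cubeVec x = cubeVec y :=
    smul_right_injective _ (by linarith : (1 / 2 - ‖cubeVec x‖) ≠ 0) h4
  funext i
  have := congrFun h5 i
  simp only [cubeVec] at this
  exact Subtype.ext (by linarith)

end Bump2

/-! ## Uncurrying -/

/-- A decomposition of the coordinates `Fin m` into "loop coordinates" `A` and "inner
coordinates" `B`. -/
structure CoordSplit (A B : Type) (m : ℕ) where
  lp : A → Fin m
  inn : B → Fin m
  inj : Function.Injective lp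
  disj : ∀ a b, inn b ≠ lp a
  cov : ∀ j, (∃ a, lp a = j) ∨ ∃ b, inn b = j

section Uncurry

variable {G : Type} [Group G] {N : Type} [MulAction G N] [Fintype N] {X : GSpt G N} {k n m : ℕ}

/-- A `(k+2)`-fold loop in `Map_*(S^{n·ℝ[N]}, X_n)` as an `m`-fold loop in `X_n`. -/
def uncurryLoop (s : CoordSplit (Fin (k + 2)) (Fin n × N) m)
    (γ : Ω^ (Fin (k + 2)) (X.LoopFix ⊥ n) (X.loopFixBase ⊥ n)) :
    Ω^ (Fin m) (X.space n) (X.base n) :=
  ⟨⟨fun x => (γ (fun a => x (s.lp a))).1 (fun b => x (s.inn b)), by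
      have h1 : Continuous fun x : Fin m → I => (γ (fun a => x (s.lp a))).1.1 :=
        continuous_subtype_val.comp (continuous_subtype_val.comp
          (γ.1.continuous.comp (continuous_pi fun a => continuous_apply _)))
      exact continuous_eval.comp (h1.prodMk (continuous_pi fun b => continuous_apply _))⟩, by
    rintro x ⟨j, hj⟩
    rcases s.cov j with ⟨a, rfl⟩ | ⟨b, rfl⟩
    · have : γ (fun a => x (s.lp a)) = X.loopFixBase ⊥ n := γ.2 _ ⟨a, hj⟩
      show (γ (fun a => x (s.lp a))).1 _ = _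
      rw [this]
      rfl
    · exact (γ (fun a => x (s.lp a))).1.2 _ ⟨b, hj⟩⟩

lemma uncurryLoop_apply (s : CoordSplit (Fin (k + 2)) (Fin n × N) m)
    (γ : Ω^ (Fin (k + 2)) (X.LoopFix ⊥ n) (X.loopFixBase ⊥ n)) (x : Fin m → I) :
    uncurryLoop s γ x = (γ (fun a => x (s.lp a))).1 (fun b => x (s.inn b)) := rfl

lemma uncurryLoop_homotopic (s : CoordSplit (Fin (k + 2)) (Fin n × N) m)
    {γ γ' : Ω^ (Fin (k + 2)) (X.LoopFix ⊥ n) (X.loopFixBase ⊥ n)} (h : GenLoop.Homotopic γ γ') :
    GenLoop.Homotopic (uncurryLoop s γ) (uncurryLoop s γ') := by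
  obtain ⟨Hh⟩ := h
  refine ⟨⟨⟨⟨fun z => (Hh (z.1, fun a => z.2 (s.lp a))).1 (fun b => z.2 (s.inn b)), ?_⟩, ?_, ?_⟩, ?_⟩⟩
  · have h1 : Continuous fun z : I × (Fin m → I) => (Hh (z.1, fun a => z.2 (s.lp a))).1.1 :=
      continuous_subtype_val.comp (continuous_subtype_val.comp
        (Hh.continuous.comp (continuous_fst.prodMk
          (continuous_pi fun a => (continuous_apply _).comp continuous_snd))))
    exact continuous_eval.comp
      (h1.prodMk (continuous_pi fun b => (continuous_apply _).comp continuous_snd))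
  · intro x
    show (Hh (0, fun a => x (s.lp a))).1 (fun b => x (s.inn b)) = _
    rw [Hh.apply_zero]
    rfl
  · intro x
    show (Hh (1, fun a => x (s.lp a))).1 (fun b => x (s.inn b)) = _
    rw [Hh.apply_one]
    rfl
  · rintro t x ⟨j, hj⟩
    show (Hh (t, fun a => x (s.lp a))).1 (fun b => x (s.inn b)) = uncurryLoop s γ x
    rcases s.cov j with ⟨a, rfl⟩ | ⟨b, rfl⟩
    · rw [Hh.eq_fst t (⟨a, hj⟩ : (fun a => x (s.lp a)) ∈ Cube.boundary (Fin (k + 2)))]
      rfl
    · have h2 : uncurryLoop s γ x = X.base n := (uncurryLoop s γ).2 x ⟨s.inn b, hj⟩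
      exact ((Hh (t, fun a => x (s.lp a))).1.2 _ ⟨b, hj⟩).trans h2.symm

lemma uncurryLoop_transAt (s : CoordSplit (Fin (k + 2)) (Fin n × N) m) (a : Fin (k + 2))
    (γ γ' : Ω^ (Fin (k + 2)) (X.LoopFix ⊥ n) (X.loopFixBase ⊥ n)) :
    uncurryLoop s (GenLoop.transAt a γ γ') =
      GenLoop.transAt (s.lp a) (uncurryLoop s γ) (uncurryLoop s γ') := by
  ext x
  have e1 : ∀ r : I, (fun a' => Function.update x (s.lp a) r (s.lp a')) =
      Function.update (fun a' => x (s.lp a')) a r := by
    intro r
    funext a'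
    by_cases h : a' = a
    · subst h
      simp
    · rw [Function.update_of_ne h, Function.update_of_ne (fun h' => h (s.inj h'))]
  have e2 : ∀ r : I, (fun b => Function.update x (s.lp a) r (s.inn b)) = fun b => x (s.inn b) := by
    intro r
    funext b
    rw [Function.update_of_ne (s.disj a b)]
  rw [transAt_apply, uncurryLoop_apply, transAt_apply]
  split_ifs with h
  · rw [uncurryLoop_apply, e1, e2]
  · rw [uncurryLoop_apply, e1, e2]

/-- Uncurrying as a homomorphism
`π_{k+2}(Map_*(S^{n·ℝ[N]}, X_n)) → π_m(X_n)`. -/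
def uncurryPi [Nonempty (Fin m)] (s : CoordSplit (Fin (k + 2)) (Fin n × N) m) :
    HomotopyGroup (Fin (k + 2)) (X.LoopFix ⊥ n) (X.loopFixBase ⊥ n) →*
      HomotopyGroup (Fin m) (X.space n) (X.base n) :=
  MonoidHom.mk' (Quotient.map (uncurryLoop s) (fun _ _ h => uncurryLoop_homotopic s h)) (by
    rintro ⟨γ⟩ ⟨γ'⟩
    change Quotient.map (uncurryLoop s) _ (piMk γ * piMk γ') =
      piMk (uncurryLoop s γ) * piMk (uncurryLoop s γ')
    rw [piMk_mul 0, piMk_mul (s.lp 0), ← uncurryLoop_transAt]
    rfl)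

lemma uncurryPi_piMk [Nonempty (Fin m)] (s : CoordSplit (Fin (k + 2)) (Fin n × N) m)
    (γ : Ω^ (Fin (k + 2)) (X.LoopFix ⊥ n) (X.loopFixBase ⊥ n)) :
    uncurryPi s (piMk γ) = hcls (uncurryLoop s γ) := rfl

end Uncurry

/-! ## The criterion -/

section Criterion2

variable {G : Type} [Group G] {N : Type} [MulAction G N] [Fintype N]
variable {k : ℕ} (e : Fin 2 × N ≃ Fin (k + 2)) {X : GSpt G N} (D : UnitData X)

/-- The decomposition of the coordinates of `I^{(n+2)·N}`, numbered by `ε`, which corresponds to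
`comb e n`. -/
def unitSplit (n : ℕ) {m : ℕ} (ε : Fin (n + 1 + 1) × N ≃ Fin m) :
    CoordSplit (Fin (k + 2)) (Fin n × N) m where
  lp a := ε (Fin.natAdd n (e.symm a).1, (e.symm a).2)
  inn r := ε (Fin.castAdd 2 r.1, r.2)
  inj := by
    intro a a' h
    have h1 := ε.injective h
    simp only [Prod.mk.injEq] at h1
    have h2 : (e.symm a).1 = (e.symm a').1 := by
      have := congrArg Fin.val h1.1
      simp only [Fin.val_natAdd] at this
      exact Fin.ext (by omega)
    exact e.symm.injective (Prod.ext h2 h1.2)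
  disj := by
    intro a b h
    have h1 := ε.injective h
    simp only [Prod.mk.injEq] at h1
    have := congrArg Fin.val h1.1
    simp only [Fin.val_natAdd, Fin.val_castAdd] at this
    have := b.1.2
    omega
  cov := by
    intro j
    obtain ⟨⟨i, g⟩, rfl⟩ := ε.surjective j
    induction i using Fin.addCases (m := n) (n := 2) with
    | left a => exact Or.inr ⟨(a, g), rfl⟩
    | right b => exact Or.inl ⟨e (b, g), by simp⟩

lemma uncurryLoop_unitLoop (n : ℕ) {m : ℕ} (ε : Fin (n + 1 + 1) × N ≃ Fin m) (x : Fin m → I) :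
    uncurryLoop (unitSplit e n ε) (unitLoop e D n) x = D.cell n (fun q => x (ε q)) := by
  show D.cell n (comb e n (fun a => x ((unitSplit e n ε).lp a))
    (fun r => x ((unitSplit e n ε).inn r))) = _
  congr 1
  funext ⟨j, g⟩
  induction j using Fin.addCases (m := n) (n := 2) with
  | left a => rw [comb_left]; rfl
  | right b =>
    rw [comb_right]
    show x (ε (Fin.natAdd n (e.symm (e (b, g))).1, (e.symm (e (b, g))).2)) = _
    rw [Equiv.symm_apply_apply]

variable (hs : ∀ n, Function.Surjective (D.cell n))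

include hs in
lemma UnitData.bump_injective (n : ℕ) : Function.Injective (D.bump n) := by
  intro a b h
  obtain ⟨y, rfl⟩ := hs n a
  obtain ⟨y', rfl⟩ := hs n b
  rw [D.bump_cell, D.bump_cell] at h
  by_cases hy : y ∈ Cube.boundary (Fin (n + 1 + 1) × N)
  · have h1 : cubeBump y' = (0, -(1 / 4)) := by rw [← h, cubeBump_of_boundary hy]
    rw [D.cell_boundary n y hy, D.cell_boundary n y' (boundary_of_cubeBump_eq h1)]
  · rw [eq_of_cubeBump_eq hy h]

include hs in
lemma UnitData.t2Space (n : ℕ) : T2Space (X.space n) :=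
  T2Space.of_injective_continuous (D.bump_injective hs n) (D.continuous_bump n)

include hs in
/-- The unit, uncurried, is a collapse map `I^m → X_n`. -/
lemma isCollapse_unitLoop (n : ℕ) {m : ℕ} (ε : Fin (n + 1 + 1) × N ≃ Fin m) :
    IsCollapse (uncurryLoop (unitSplit e n ε) (unitLoop e D n)) where
  surj := by
    intro z
    obtain ⟨y, rfl⟩ := hs n z
    refine ⟨fun j => y (ε.symm j), ?_⟩
    rw [uncurryLoop_unitLoop]
    simp
  inj := by
    intro a b ha hab
    rw [uncurryLoop_unitLoop] at ha hab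
    rw [uncurryLoop_unitLoop] at hab
    have h1 : (fun q => a (ε q)) ∉ Cube.boundary (Fin (n + 1 + 1) × N) :=
      fun h => ha (D.cell_boundary n _ h)
    have h2 : cubeBump (fun q => a (ε q)) = cubeBump (fun q => b (ε q)) := by
      rw [← D.bump_cell, ← D.bump_cell, hab]
    have h3 := eq_of_cubeBump_eq h1 h2
    funext j
    have := congrFun h3 (ε.symm j)
    simpa using this
  bd := by
    intro a ha
    rw [uncurryLoop_unitLoop] at ha
    have h1 : cubeBump (fun q => a (ε q)) = (0, -(1 / 4)) := by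
      rw [← D.bump_cell, ha, D.bump_base]
    obtain ⟨q, hq⟩ := boundary_of_cubeBump_eq h1
    exact ⟨ε q, hq⟩

include hs in
/-- At every level, the unit is not divisible by a prime, -/
lemma unitAt_ne_nsmul (j ℓ : ℕ) (hℓ : ℓ.Prime) (z : (unitSeq X k).obj j) :
    ℓ • z ≠ unitAt e D j := by
  intro h
  let ε := Fintype.equivFin (Fin (j + 1 + 1) × N)
  have : Nonempty (Fin (Fintype.card (Fin (j + 1 + 1) × N))) := ⟨ε (0, (e.symm 0).2)⟩
  have : Fact ℓ.Prime := ⟨hℓ⟩
  have := D.t2Space hs j
  let z' : HomotopyGroup (Fin (k + 2)) (X.LoopFix ⊥ j) (X.loopFixBase ⊥ j) :=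
    Additive.toMul (z : Additive (HomotopyGroup (Fin (k + 2)) (X.LoopFix ⊥ j) (X.loopFixBase ⊥ j)))
  have h1 : z' ^ ℓ = piMk (unitLoop e D j) := h
  have h2 := congrArg (uncurryPi (unitSplit e j ε)) h1
  rw [map_pow, uncurryPi_piMk] at h2
  exact (isCollapse_unitLoop e D hs j ε).ne_pow ℓ _ h2.symm

include hs in
/-- and it has infinite order. -/
lemma nsmul_unitAt_ne_zero (j a : ℕ) (ha : a ≠ 0) : a • unitAt e D j ≠ 0 := by
  intro h
  let ε := Fintype.equivFin (Fin (j + 1 + 1) × N)
  have : Nonempty (Fin (Fintype.card (Fin (j + 1 + 1) × N))) := ⟨ε (0, (e.symm 0).2)⟩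
  have := D.t2Space hs j
  have h1 : piMk (unitLoop e D j) ^ a = 1 := h
  have h2 := congrArg (uncurryPi (unitSplit e j ε)) h1
  rw [map_pow, uncurryPi_piMk, map_one] at h2
  exact (isCollapse_unitLoop e D hs j ε).pow_ne_one a ha h2

include hs in
/-- **The unit is not divisible by any prime in the colimit** `π_{k+2}^{1}(X)`. -/
theorem colimit_unit_ne_nsmul (ℓ : ℕ) (hℓ : ℓ.Prime) (y : ↑(Limits.colimit (unitSeq X k))) :
    ℓ • y ≠ Limits.colimit.ι (unitSeq X k) 0 (unitAt e D 0) := by
  intro h
  obtain ⟨j, yj, rfl⟩ := Limits.Concrete.colimit_exists_rep (unitSeq X k) y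
  rw [← map_nsmul] at h
  obtain ⟨j', f, g, hfg⟩ := (Limits.Concrete.colimit_rep_eq_iff_exists (unitSeq X k) _ _).1 h
  rw [unitSeq_map, map_nsmul] at hfg
  exact unitAt_ne_nsmul e D hs j' ℓ hℓ _ hfg

include hs in
/-- **The unit has infinite order in the colimit** `π_{k+2}^{1}(X)`. -/
theorem colimit_nsmul_unit_ne_zero (a : ℕ) (ha : a ≠ 0) :
    a • Limits.colimit.ι (unitSeq X k) 0 (unitAt e D 0) ≠ 0 := by
  intro h
  have h0 : Limits.colimit.ι (unitSeq X k) 0 (a • unitAt e D 0) =
      Limits.colimit.ι (unitSeq X k) 0 0 := by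
    rw [map_nsmul, h, map_zero]
  obtain ⟨j, f, g, hfg⟩ := (Limits.Concrete.colimit_rep_eq_iff_exists (unitSeq X k) _ _).1 h0
  rw [map_nsmul, unitSeq_map] at hfg
  exact nsmul_unitAt_ne_zero e D hs j a ha (hfg.trans (map_zero _))

end Criterion2

/-! ## The sphere spectrum and its geometric fixed points -/

section Apply

variable (G : Type) [Group G] [Fintype G]

lemma sphereUnitData_surjective (n : ℕ) : Function.Surjective ((sphereUnitData G).cell n) := by
  intro (z : SuspSpace G Bool false (n + 1 + 1))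
  induction z using Quot.inductionOn with
  | h p =>
    obtain ⟨u, b⟩ := p
    cases b
    · refine ⟨fun _ => 0, ?_⟩
      refine ((sphereUnitData G).cell_boundary n _ ⟨(0, 1), Or.inl rfl⟩).trans ?_
      exact (suspMk_eq_base G Bool false _ _ (Or.inr rfl)).symm
    · exact ⟨u, rfl⟩

lemma geomUnitData_surjective (H : Subgroup G) (n : ℕ) :
    Function.Surjective ((geomUnitData G H).cell n) := by
  have hc : 0 < orbitCount H G := by
    have : Nonempty (MulAction.orbitRel.Quotient H G) := ⟨Quotient.mk _ 1⟩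
    have : Finite (MulAction.orbitRel.Quotient H G) := Quotient.finite _
    exact Nat.card_pos
  intro z
  rcases geomFix_sphere_cases G H (n + 1 + 1) z with rfl | ⟨y, rfl⟩
  · exact ⟨fun _ => 0, (geomUnitData G H).cell_boundary n _ ⟨(0, ⟨0, hc⟩), Or.inl rfl⟩⟩
  · exact ⟨y, rfl⟩

end Apply

section Main2

variable (G : Type) [Group G] [Finite G]

lemma exists_prime_ne (p : ℕ) : ∃ q : ℕ, q.Prime ∧ q ≠ p := by
  by_cases h2 : p = 2
  · exact ⟨3, Nat.prime_three, by omega⟩
  · exact ⟨2, Nat.prime_two, fun h => h2 h.symm⟩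

/-- **No prime is invertible on `π_0(𝕊)`**: multiplication by a prime `q` on the group
`π_{2|G|}^{1}(sh² 𝕊) = π_0(𝕊)` of the genuine `G`-sphere spectrum is not surjective. -/
theorem not_surjective_nsmul_stablePi_sphere (q : ℕ) (hq : q.Prime) :
    ¬ Function.Surjective fun x : (GSpt.stablePi (⊥ : Subgroup G) (2 * Nat.card G - 2)).obj
      ((GSpt.shIter 2).obj (GSpt.sphere G)) => q • x := by
  have := Fintype.ofFinite G
  intro h
  have hc : 0 < Nat.card G := Nat.card_pos
  have hcard : Nat.card (Fin 2 × G) = 2 * Nat.card G - 2 + 2 := by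
    rw [Nat.card_prod, Nat.card_fin]
    omega
  obtain ⟨y, hy⟩ := h (Limits.colimit.ι (unitSeq _ _) 0
    (unitAt (Finite.equivFinOfCardEq hcard) (sphereUnitData G) 0))
  exact colimit_unit_ne_nsmul _ (sphereUnitData G) (sphereUnitData_surjective G) q hq y hy

/-- **`IsPLocal p` has teeth**: the genuine `G`-sphere spectrum is not `p`-local, for any `p`. -/
theorem not_isPLocal_sphere (p : ℕ) : ¬ (GSpt.sphere G).IsPLocal p := by
  intro h
  obtain ⟨q, hq, hqp⟩ := exists_prime_ne p
  exact not_surjective_nsmul_stablePi_sphere G q hq (h ⊥ _ 2 q hq hqp).2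

/-- The (integral) sphere spectrum is not a finite `p`-local spectrum. -/
theorem not_isCompactPLocal_sphere (p : ℕ) : ¬ (GSpt.sphere G).IsCompactPLocal p :=
  fun h => not_isPLocal_sphere G p h.1

/-- **`π_0(𝕊)` is not a torsion group.** -/
theorem exists_not_torsion_stablePi_sphere :
    ∃ x : (GSpt.stablePi (⊥ : Subgroup G) (2 * Nat.card G - 2)).obj
      ((GSpt.shIter 2).obj (GSpt.sphere G)), ∀ a : ℕ, 0 < a → a • x ≠ 0 := by
  have := Fintype.ofFinite G
  have hc : 0 < Nat.card G := Nat.card_pos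
  have hcard : Nat.card (Fin 2 × G) = 2 * Nat.card G - 2 + 2 := by
    rw [Nat.card_prod, Nat.card_fin]
    omega
  exact ⟨Limits.colimit.ι (unitSeq _ _) 0
    (unitAt (Finite.equivFinOfCardEq hcard) (sphereUnitData G) 0), fun a ha =>
      colimit_nsmul_unit_ne_zero _ (sphereUnitData G) (sphereUnitData_surjective G) a ha.ne'⟩

variable {G} (H : Subgroup G)

/-- **`RationallyAcyclic` has teeth**: the geometric fixed points `Φ^H 𝕊` of the sphere spectrum are
not rationally acyclic, for any subgroup `H`. -/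
theorem not_rationallyAcyclic_geomFix_sphere :
    ¬ ((GSpt.sphere G).geomFix H).RationallyAcyclic := by
  have := Fintype.ofFinite G
  intro h
  have hc : 0 < orbitCount H G := by
    have : Nonempty (MulAction.orbitRel.Quotient H G) := ⟨Quotient.mk _ 1⟩
    have : Finite (MulAction.orbitRel.Quotient H G) := Quotient.finite _
    exact Nat.card_pos
  have hcard : Nat.card (Fin 2 × Fin (orbitCount H G)) = 2 * orbitCount H G - 2 + 2 := by
    rw [Nat.card_prod, Nat.card_fin, Nat.card_fin]
    omega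
  have h' := h (2 * orbitCount H G - 2) 2
  rw [Subsingleton.elim (⊤ : Subgroup PUnit.{1}) ⊥] at h'
  obtain ⟨a, ha, hax⟩ := h' (Limits.colimit.ι (unitSeq _ _) 0
    (unitAt (Finite.equivFinOfCardEq hcard) (geomUnitData G H) 0))
  exact colimit_nsmul_unit_ne_zero _ (geomUnitData G H) (geomUnitData_surjective G H) a ha.ne' hax

/-- **`K(0)`-acyclicity has teeth**: `K(0)_*(Φ^H 𝕊) ≠ 0` for every subgroup `H`. -/
theorem not_geomAcyclic_zero_sphere (K : ℕ → SymRing) : ¬ GeomAcyclic K 0 H (GSpt.sphere G) := by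
  simpa [GeomAcyclic] using not_rationallyAcyclic_geomFix_sphere H

/-- The geometric fixed points `Φ^H 𝕊` are not `p`-local either. -/
theorem not_isPLocal_geomFix_sphere (p : ℕ) : ¬ ((GSpt.sphere G).geomFix H).IsPLocal p := by
  have := Fintype.ofFinite G
  intro h
  obtain ⟨q, hq, hqp⟩ := exists_prime_ne p
  have hc : 0 < orbitCount H G := by
    have : Nonempty (MulAction.orbitRel.Quotient H G) := ⟨Quotient.mk _ 1⟩
    have : Finite (MulAction.orbitRel.Quotient H G) := Quotient.finite _
    exact Nat.card_pos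
  have hcard : Nat.card (Fin 2 × Fin (orbitCount H G)) = 2 * orbitCount H G - 2 + 2 := by
    rw [Nat.card_prod, Nat.card_fin, Nat.card_fin]
    omega
  obtain ⟨y, hy⟩ := (h ⊥ (2 * orbitCount H G - 2) 2 q hq hqp).2 (Limits.colimit.ι (unitSeq _ _) 0
    (unitAt (Finite.equivFinOfCardEq hcard) (geomUnitData G H) 0))
  exact colimit_unit_ne_nsmul _ (geomUnitData G H) (geomUnitData_surjective G H) q hq y hy

end Main2

end

end Claimed.Open.R314
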