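import Claimed.Open.R314.SanitySpectra

/-!
# Result 314: stable equivalences are stable; weak equivalences and `Ω`-spectra

1. A spectrum whose spaces are points from some level on (`IsEventuallyTrivial`) has vanishing equivariant stable homotopy
   groups; the map to the point spectrum is a stable equivalence; it is a zero object of the stable homotopy category,
   a finite `p`-local spectrum, and its geometric fixed points are `K(i)`-acyclic.
2. The example `GSpt.sky`: a pointed `G`-space in level `0`, points above.  For `S⁰` the map to the point spectrum is a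
   **stable equivalence which is not a weak equivalence in level `0`**: the class `stableEquiv` which is inverted in `GSH` is
   really larger than the level equivalences, and a point-set spectrum which meets the premises of `Statement` need not be
   the point spectrum.
3. Examples and non-examples for `IsWeakEquiv`, `Spt.IsOmega` and `Spt.HeightExactly`.
4. `orbitCount H G = [G : H] > 0`: the geometric fixed points never live in the degenerate category `Spt 0`.
-/

open CategoryTheory Topology unitInterval
open scoped Topology.Homotopy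

namespace Claimed.Open.R314

noncomputable section

/-! ## 1. Eventually trivial spectra -/

namespace GSpt

variable {G : Type} [Group G] {N : Type} [MulAction G N]

/-- All spaces of `T` are points from some level on. -/
def IsEventuallyTrivial (T : GSpt G N) : Prop := ∃ n₀ : ℕ, ∀ n, n₀ ≤ n → Subsingleton (T.space n)

theorem IsTrivial.isEventuallyTrivial {T : GSpt G N} (hT : T.IsTrivial) :
    T.IsEventuallyTrivial := ⟨0, fun n _ => hT n⟩

theorem IsEventuallyTrivial.sh {T : GSpt G N} (hT : T.IsEventuallyTrivial) :
    (sh.obj T).IsEventuallyTrivial := by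
  obtain ⟨n₀, h⟩ := hT
  exact ⟨n₀, fun n hn => h (n + 1) (by omega)⟩

theorem IsEventuallyTrivial.shIter {T : GSpt G N} (hT : T.IsEventuallyTrivial) (m : ℕ) :
    ((shIter m).obj T).IsEventuallyTrivial := by
  induction m generalizing T with
  | zero => exact hT
  | succ m ih => exact ih hT.sh

theorem subsingleton_homotopyGroup_of_subsingleton (T : GSpt G N) (H : Subgroup G) (M : Type)
    (n : ℕ) (h : Subsingleton (T.space n)) :
    Subsingleton (HomotopyGroup M (T.LoopFix H n) (T.loopFixBase H n)) := by
  refine ⟨fun x y => ?_⟩
  induction x using Quotient.inductionOn with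
  | h γ =>
    induction y using Quotient.inductionOn with
    | h γ' =>
      congr 1
      ext t
      apply Subtype.ext
      ext s
      exact h.elim _ _

/-- The equivariant stable homotopy groups of an eventually trivial spectrum vanish: every class dies in the
colimit. -/
theorem IsEventuallyTrivial.subsingleton_stablePi {T : GSpt G N} (hT : T.IsEventuallyTrivial)
    (H : Subgroup G) (k : ℕ) : Subsingleton ((stablePi H k).obj T) := by
  obtain ⟨n₀, h⟩ := hT
  refine ⟨fun x y => ?_⟩
  let F : ℕ ⥤ AddCommGrpCat.{0} := (piSeq H k).obj T ⋙ CommGrpCat.toAddCommGrp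
  have key : ∀ z : (Limits.colimit F : AddCommGrpCat.{0}), z = 0 := by
    intro z
    obtain ⟨j, w, rfl⟩ := Limits.Concrete.colimit_exists_rep F z
    have hs : Subsingleton (F.obj (max j n₀)) :=
      have := subsingleton_homotopyGroup_of_subsingleton T H (Fin (k + 2)) (max j n₀)
        (h _ (le_max_right _ _))
      inferInstanceAs (Subsingleton (Additive
        (HomotopyGroup (Fin (k + 2)) (T.LoopFix H (max j n₀)) (T.loopFixBase H (max j n₀)))))
    have hw : Limits.colimit.ι F j w =
        Limits.colimit.ι F (max j n₀) (F.map (homOfLE (le_max_left j n₀)) w) := by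
      rw [← ConcreteCategory.comp_apply, Limits.colimit.w]
    rw [hw, Subsingleton.elim (F.map (homOfLE (le_max_left j n₀)) w) 0, map_zero]
  exact (key x).trans (key y).symm

/-- Isomorphisms of spectra, in particular identities, are stable equivalences. -/
theorem stableEquiv_of_isIso {X Y : GSpt G N} (f : X ⟶ Y) [IsIso f] : stableEquiv f :=
  fun _ _ _ => inferInstance

/-- The map from an eventually trivial spectrum to a trivial spectrum is a stable equivalence. -/
theorem IsEventuallyTrivial.stableEquiv_toTrivial {X T : GSpt G N} (hX : X.IsEventuallyTrivial)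
    (hT : T.IsTrivial) : stableEquiv (toTrivial hT X) := by
  intro H k m
  have h1 := (hX.shIter m).subsingleton_stablePi H k
  have h2 := (hT.shIter m).subsingleton_stablePi H k
  have z1 : Limits.IsZero ((stablePi H k).obj ((GSpt.shIter m).obj X)) :=
    AddCommGrpCat.isZero_of_subsingleton _
  have z2 : Limits.IsZero ((stablePi H k).obj ((GSpt.shIter m).obj T)) :=
    AddCommGrpCat.isZero_of_subsingleton _
  exact ⟨z2.to_ _, z1.eq_of_src _ _, z2.eq_of_src _ _⟩

/-- An eventually trivial spectrum is isomorphic to the point spectrum in the stable homotopy category. -/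
def IsEventuallyTrivial.isoPt {X : GSpt G N} (hX : X.IsEventuallyTrivial) :
    GSH.Q.obj X ≅ GSH.Q.obj (pt G N) :=
  have := Localization.inverts GSH.Q (stableEquiv (G := G) (N := N)) _
    (hX.stableEquiv_toTrivial isTrivial_pt)
  asIso (GSH.Q.map (toTrivial isTrivial_pt X))

/-- It is a zero object of the stable homotopy category, -/
theorem IsEventuallyTrivial.isZero {X : GSpt G N} (hX : X.IsEventuallyTrivial) :
    Limits.IsZero (GSH.Q.obj X) :=
  (GSH.isZero_of_isTrivial isTrivial_pt).of_iso hX.isoPt

/-- and a finite `p`-local spectrum. -/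
theorem IsEventuallyTrivial.isCompactPLocal {X : GSpt G N} (hX : X.IsEventuallyTrivial) (p : ℕ) :
    X.IsCompactPLocal p :=
  (isCompactPLocal_pt p).of_iso hX.isoPt.symm

theorem IsEventuallyTrivial.geomFix [Finite N] {X : GSpt G N} (hX : X.IsEventuallyTrivial)
    (H : Subgroup G) : (X.geomFix H).IsEventuallyTrivial := by
  obtain ⟨n₀, h⟩ := hX
  exact ⟨n₀, fun n hn =>
    have := h n hn
    inferInstanceAs (Subsingleton ↥(MulAction.fixedPoints H (X.space n)))⟩

end GSpt

/-- The geometric fixed points of an eventually trivial genuine `G`-spectrum are `K(i)`-acyclic. -/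
theorem geomAcyclic_of_isEventuallyTrivial {G : Type} [Group G] [Finite G] {X : GSpt G G}
    (hX : X.IsEventuallyTrivial) (K : ℕ → SymRing) (i : ℕ) (H : Subgroup G) :
    GeomAcyclic K i H X := by
  unfold GeomAcyclic
  split_ifs
  · intro k m x
    have := ((hX.geomFix H).shIter m).subsingleton_stablePi ⊤ k
    exact ⟨1, one_pos, Subsingleton.elim _ _⟩
  · exact fun _ => ⟨fun _ _ => (hX.geomFix H).isZero.eq_of_src _ _⟩

/-! ## 2. A space in level `0`, points above -/

section Sky

variable {G : Type} [Group G] (N : Type) [MulAction G N]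
variable (A : Type) [TopologicalSpace A] [MulAction G A] [ContinuousConstSMul G A] (a₀ : A)
variable (h₀ : ∀ g : G, g • a₀ = a₀)

/-- The action of `G` on the spaces of `GSpt.sky`. -/
@[reducible] def skyAct (n : ℕ) : MulAction G {a : A // n = 0 ∨ a = a₀} where
  smul g a := ⟨g • a.1, a.2.imp id (fun h => by rw [h, h₀])⟩
  one_smul a := Subtype.ext (one_smul G a.1)
  mul_smul g g' a := Subtype.ext (mul_smul g g' a.1)

/-- The `G`-spectrum with the pointed `G`-space `(A, a₀)` in level `0` and points in all other levels. -/
def GSpt.sky : GSpt G N :=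
  letI : ∀ n, MulAction G {a : A // n = 0 ∨ a = a₀} := skyAct A a₀ h₀
  { space := fun n => {a : A // n = 0 ∨ a = a₀}
    cont := fun _ => ⟨fun g =>
      Continuous.subtype_mk ((continuous_const_smul g).comp continuous_subtype_val) _⟩
    base := fun _ => ⟨a₀, Or.inr rfl⟩
    smul_base := fun _ g => Subtype.ext (h₀ g)
    str := fun _ => ContinuousMap.const _ GenLoop.const
    str_base := fun _ _ => rfl
    str_smul := fun _ g _ _ => (Subtype.ext (h₀ g)).symm }

theorem GSpt.isEventuallyTrivial_sky : (GSpt.sky N A a₀ h₀).IsEventuallyTrivial :=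
  ⟨1, fun n hn => ⟨fun x y => Subtype.ext (by
    rcases x.2 with hx | hx
    · omega
    · rcases y.2 with hy | hy
      · omega
      · rw [hx, hy])⟩⟩

end Sky

/-! ## 3. Weak equivalences: examples and a non-example -/

section Weak

variable {A B : Type} [TopologicalSpace A] [TopologicalSpace B]

theorem subsingleton_homotopyGroup (M : Type) [Subsingleton B] (b : B) :
    Subsingleton (HomotopyGroup M B b) := by
  refine ⟨fun x y => ?_⟩
  induction x using Quotient.inductionOn with
  | h γ =>
    induction y using Quotient.inductionOn with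
    | h γ' =>
      congr 1
      ext t
      exact Subsingleton.elim _ _

/-- The identity is a weak equivalence. -/
theorem isWeakEquiv_id : IsWeakEquiv (ContinuousMap.id A) := by
  refine ⟨id, fun a j => ?_⟩
  have : mapPi (N := Fin j) (ContinuousMap.id A) (rfl : ContinuousMap.id A a = ContinuousMap.id A a)
      = id := by
    funext x
    induction x using Quotient.inductionOn with
    | h γ => rfl
  rw [this]
  exact Function.bijective_id

/-- A map between one-point spaces is a weak equivalence. -/
theorem isWeakEquiv_of_subsingleton [Subsingleton A] [Subsingleton B] [Nonempty A] (g : C(A, B)) :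
    IsWeakEquiv g := by
  refine ⟨fun _ => inferInstance, fun a j => ⟨fun x y _ => ?_, fun y => ⟨piMk GenLoop.const, ?_⟩⟩⟩
  · exact (subsingleton_homotopyGroup (Fin j) a).elim _ _
  · exact (subsingleton_homotopyGroup (Fin j) (g a)).elim _ _

/-- **Non-example.**  A map from a space with two points which are separated by a continuous map to `{false, true}` to a
one-point space is not a weak equivalence: it is not injective on `π_0`. -/
theorem not_isWeakEquiv_of_separated [Subsingleton B] (g : C(A, B)) (φ : C(A, Bool)) {a a' : A}
    (h : φ a ≠ φ a') : ¬ IsWeakEquiv g := by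
  rintro ⟨-, hb⟩
  have hs := subsingleton_homotopyGroup (Fin 0) (g a)
  have h1 : piMk (loopZero A a a) = piMk (loopZero A a a') := (hb a 0).1 (hs.elim _ _)
  obtain ⟨F⟩ : GenLoop.Homotopic (loopZero A a a) (loopZero A a a') := Quotient.exact h1
  have hf : Continuous fun t : I => φ (F (t, fun i => i.elim0)) :=
    φ.continuous.comp (F.continuous.comp (Continuous.prodMk continuous_id continuous_const))
  have h2 := PreconnectedSpace.constant inferInstance hf (x := 0) (y := 1)
  simp only [ContinuousMap.HomotopyWith.apply_zero, ContinuousMap.HomotopyWith.apply_one] at h2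
  exact h h2

end Weak

/-! ## 4. The example `S⁰` in level `0` -/

section SkyZero

variable (G : Type) [Group G]

/-- The genuine `G`-spectrum with `S⁰ = {false, true}` in level `0` and points above. -/
def GSpt.skyZero : GSpt G G :=
  letI := boolAct G
  haveI : ContinuousConstSMul G Bool := ⟨fun _ => continuous_id⟩
  GSpt.sky G Bool false (fun _ => rfl)

theorem GSpt.isEventuallyTrivial_skyZero : (GSpt.skyZero G).IsEventuallyTrivial :=
  letI := boolAct G
  haveI : ContinuousConstSMul G Bool := ⟨fun _ => continuous_id⟩
  GSpt.isEventuallyTrivial_sky G Bool false (fun _ => rfl)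

/-- It is not a trivial spectrum. -/
theorem GSpt.not_isTrivial_skyZero : ¬ (GSpt.skyZero G).IsTrivial := fun h => by
  have := (h 0).elim (⟨false, Or.inl rfl⟩ : {a : Bool // 0 = 0 ∨ a = false}) ⟨true, Or.inl rfl⟩
  exact Bool.false_ne_true (congrArg Subtype.val this)

/-- **The map from `skyZero` to the point spectrum is a stable equivalence** -/
theorem GSpt.stableEquiv_skyZero :
    GSpt.stableEquiv (GSpt.toTrivial GSpt.isTrivial_pt (GSpt.skyZero G) :
      GSpt.skyZero G ⟶ GSpt.pt G G) :=
  (GSpt.isEventuallyTrivial_skyZero G).stableEquiv_toTrivial _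

/-- **which is not a weak equivalence in level `0`.** -/
theorem GSpt.not_isWeakEquiv_skyZero :
    ¬ IsWeakEquiv ((GSpt.toTrivial GSpt.isTrivial_pt (GSpt.skyZero G) :
      GSpt.skyZero G ⟶ GSpt.pt G G).map 0) :=
  haveI : Subsingleton ((GSpt.pt G G).space 0) := GSpt.isTrivial_pt 0
  not_isWeakEquiv_of_separated _
    (⟨fun x : {a : Bool // 0 = 0 ∨ a = false} => x.1, continuous_subtype_val⟩ :
      C({a : Bool // 0 = 0 ∨ a = false}, Bool))
    (a := ⟨false, Or.inl rfl⟩) (a' := ⟨true, Or.inl rfl⟩) (by simp)

/-- All premises on `X` in `Statement` are met by `skyZero`, which is not the point spectrum. -/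
theorem GSpt.premises_skyZero [Finite G] (p : ℕ) (K : ℕ → SymRing) (i : ℕ) (H : Subgroup G) :
    (GSpt.skyZero G).IsCompactPLocal p ∧ GeomAcyclic K i H (GSpt.skyZero G) :=
  ⟨(GSpt.isEventuallyTrivial_skyZero G).isCompactPLocal p,
    geomAcyclic_of_isEventuallyTrivial (GSpt.isEventuallyTrivial_skyZero G) K i H⟩

end SkyZero

/-! ## 5. `Ω`-spectra and the height condition -/

section Omega

/-- The point spectrum is an `Ω`-spectrum. -/
theorem isOmega_pt : Spt.IsOmega (GSpt.pt PUnit.{1} (Fin 1)) := fun n =>
  haveI : Subsingleton ((GSpt.pt PUnit.{1} (Fin 1)).space n) := GSpt.isTrivial_pt n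
  haveI : Subsingleton ((GSpt.pt PUnit.{1} (Fin 1)).space (n + 1)) := GSpt.isTrivial_pt (n + 1)
  haveI : Nonempty ((GSpt.pt PUnit.{1} (Fin 1)).space n) := ⟨(GSpt.pt PUnit.{1} (Fin 1)).base n⟩
  haveI : Subsingleton (Ω^ (Fin 1) ((GSpt.pt PUnit.{1} (Fin 1)).space (n + 1))
      ((GSpt.pt PUnit.{1} (Fin 1)).base (n + 1))) :=
    ⟨fun x y => by ext t; exact Subsingleton.elim _ _⟩
  isWeakEquiv_of_subsingleton _

/-- The ordinary spectrum with `S⁰` in level `0` and points above. -/
def skyOne : Spt 1 := GSpt.sky (Fin 1) Bool false (fun _ => rfl)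

/-- **Non-example.**  It is not an `Ω`-spectrum, although it is stably trivial. -/
theorem not_isOmega_skyOne : ¬ Spt.IsOmega skyOne := fun h =>
  haveI : Subsingleton (skyOne.space 1) :=
    ⟨fun x y => Subtype.ext (by
      rcases x.2 with hx | hx
      · omega
      · rcases y.2 with hy | hy
        · omega
        · rw [hx, hy])⟩
  haveI : Subsingleton (Ω^ (Fin 1) (skyOne.space 1) (skyOne.base 1)) :=
    ⟨fun x y => by ext t; exact Subsingleton.elim _ _⟩
  not_isWeakEquiv_of_separated (skyOne.str 0)
    (⟨fun x : {a : Bool // 0 = 0 ∨ a = false} => x.1, continuous_subtype_val⟩ :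
      C({a : Bool // 0 = 0 ∨ a = false}, Bool))
    (a := ⟨false, Or.inl rfl⟩) (a' := ⟨true, Or.inl rfl⟩) (by simp) (h 0)

/-- **Non-example.**  The point spectrum has no height: the second clause of `HeightExactly` fails. -/
theorem not_heightExactly_pt (p n : ℕ) : ¬ Spt.HeightExactly p n (GSpt.pt PUnit.{1} (Fin 1)) := by
  rintro ⟨-, j, f, hf⟩
  refine hf ⟨PUnit.unit, ?_⟩
  have : f.comp (CP.powMap p _) = ContinuousMap.const _ PUnit.unit := by
    ext x
    exact (GSpt.isTrivial_pt (G := PUnit.{1}) (N := Fin 1) j).elim _ _
  rw [this]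
  exact ContinuousMap.Homotopic.refl _

end Omega

/-! ## 6. The dimension of `ℝ[G]^H` -/

section OrbitCount

/-- `Φ^H X` lives in `Spt d` with `d = dim ℝ[G]^H = [G : H]` (found by helper130), -/
theorem orbitCount_eq_index {G : Type} [Group G] (H : Subgroup G) : orbitCount H G = H.index := by
  unfold orbitCount Subgroup.index
  exact Nat.card_congr (QuotientGroup.quotientRightRelEquivQuotientLeftRel H)

/-- which is positive for a finite group: the degenerate category `Spt 0` (in which the shift does not change the
degree of the homotopy groups) never occurs in `Statement`. -/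
theorem orbitCount_pos {G : Type} [Group G] [Finite G] (H : Subgroup G) : 0 < orbitCount H G := by
  rw [orbitCount_eq_index]
  exact Nat.pos_of_ne_zero Subgroup.index_ne_zero_of_finite

end OrbitCount

end

end Claimed.Open.R314
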