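import Claimed.Open.R314.Statement

/-!
# Result 314.  A checked, non-degenerate example of `SymRing`: the sphere spectrum

`SanitySpectra.lean` has the zero ring as the only object of the structure `SymRing` of `Statement.lean`.  The zero ring does not
test the conventions of that structure: which way the symmetric groups act, the block sum in `mul_act`, the shuffle `χ_{n,1}`
(`finRotate`) in `central`, the casts in `mul_assoc`, `one_mul`.  Here the real object is built, with its real topology:

* `SphereRing.Sp n` is the `n`-sphere `S^n = I^n_+ / (∂I^n)_+`, the quotient of `I^n × {false, true}` in which all points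
  `(x, b)` with `x ∈ ∂I^n` or `b = false` are identified (for `n = 0` this is `S^0`, two points).  It carries the quotient
  topology; it is compact and Hausdorff (`SphereRing.t2`, `SphereRing.compact`);
* `Σ_n` permutes the coordinates, `(s · x)_j = x_{s⁻¹ j}`;
* the multiplication `S^m ∧ S^n → S^{m+n}` is the concatenation of coordinates; it is continuous on the product;
* `1 ∈ S^0` is the point which is not the base point, `ι : S^1 → S^1` is the identity, i.e. the loop `t ↦ [t]`.

`SymRing.sphere` is the **sphere spectrum** as a symmetric ring spectrum (Hovey–Shipley–Smith, Example 1.2.4;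
Schwede, *Symmetric spectra*, Example I.1.8), and all the axioms of `SymRing` hold for it.
It is not degenerate: `1 ≠ *` in `S^0`, the loop `ι` is injective on the interior of the interval, `S^n` has
a point for every interior point of the cube, and transposing the two coordinates of `S^2` is not the identity.
-/

set_option autoImplicit false

namespace Claimed.Open.R314

open Topology unitInterval

noncomputable section

namespace SphereRing

/-! ## The spaces -/

/-- Representatives of the points of `S^n`. -/
abbrev Rep (n : ℕ) : Type := (Fin n → I) × Bool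

/-- `p` represents the base point. -/
def IsB {n : ℕ} (p : Rep n) : Prop := (∃ i, p.1 i = 0 ∨ p.1 i = 1) ∨ p.2 = false

/-- All representatives of the base point are identified. -/
def Rel (n : ℕ) (p q : Rep n) : Prop := IsB p ∧ IsB q

/-- The sphere `S^n = I^n_+ / (∂I^n)_+`. -/
def Sp (n : ℕ) : Type := Quot (Rel n)

/-- The quotient topology. -/
instance topSp (n : ℕ) : TopologicalSpace (Sp n) := inferInstanceAs (TopologicalSpace (Quot (Rel n)))

/-- The class of a representative. -/
def mk {n : ℕ} (p : Rep n) : Sp n := Quot.mk _ p

/-- The base point. -/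
def bp (n : ℕ) : Sp n := mk (fun _ => 0, false)

lemma continuous_mk (n : ℕ) : Continuous (mk : Rep n → Sp n) := continuous_quot_mk

lemma mk_surjective (n : ℕ) : Function.Surjective (mk : Rep n → Sp n) := Quot.mk_surjective

lemma mk_eq_bp {n : ℕ} {p : Rep n} (h : IsB p) : mk p = bp n := Quot.sound ⟨h, Or.inr rfl⟩

/-- The weight of the second coordinate. -/
def wt (b : Bool) : ℝ := if b then 1 else 0

/-- A continuous function on the representatives which vanishes exactly on those of the base point. -/
def dist {n : ℕ} (p : Rep n) : ℝ := wt p.2 * ∏ i, ((p.1 i : ℝ) * (1 - (p.1 i : ℝ)))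

lemma dist_eq_zero_iff {n : ℕ} (p : Rep n) : dist p = 0 ↔ IsB p := by
  obtain ⟨x, b⟩ := p
  unfold dist IsB wt
  cases b
  · simp
  · simp only [if_true, one_mul, Finset.prod_eq_zero_iff, Finset.mem_univ, true_and, mul_eq_zero,
      Bool.true_eq_false, or_false]
    refine exists_congr fun i => or_congr ?_ ?_
    · exact ⟨fun h => Subtype.ext h, fun h => by rw [h]; rfl⟩
    · exact ⟨fun h => Subtype.ext (by simpa using (sub_eq_zero.mp h).symm), fun h => by rw [h]; simp⟩

/-- An embedding of `S^n` in a Euclidean space, on representatives. -/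
def emb {n : ℕ} (p : Rep n) : ℝ × (Fin n → ℝ) := (dist p, fun i => dist p * (p.1 i : ℝ))

lemma continuous_dist (n : ℕ) : Continuous (dist : Rep n → ℝ) := by
  unfold dist
  have h : Continuous wt := continuous_of_discreteTopology
  fun_prop

lemma continuous_emb (n : ℕ) : Continuous (emb : Rep n → ℝ × (Fin n → ℝ)) := by
  unfold emb
  have h := continuous_dist n
  fun_prop

lemma emb_eq_of_rel {n : ℕ} (p q : Rep n) (h : Rel n p q) : emb p = emb q := by
  have hp := (dist_eq_zero_iff p).2 h.1
  have hq := (dist_eq_zero_iff q).2 h.2
  unfold emb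
  rw [hp, hq]
  simp

lemma mk_eq_of_emb_eq {n : ℕ} {p q : Rep n} (h : emb p = emb q) : mk p = mk q := by
  have h1 : dist p = dist q := congrArg Prod.fst h
  have h2 : ∀ i, dist p * (p.1 i : ℝ) = dist q * (q.1 i : ℝ) := fun i => congrFun (congrArg Prod.snd h) i
  by_cases hp : dist p = 0
  · exact Quot.sound ⟨(dist_eq_zero_iff p).1 hp, (dist_eq_zero_iff q).1 (h1 ▸ hp)⟩
  · have hq : dist q ≠ 0 := h1 ▸ hp
    have e1 : p.1 = q.1 := by
      funext i
      have := h2 i
      rw [← h1] at this
      exact Subtype.ext (mul_left_cancel₀ hp this)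
    have b1 : ∀ r : Rep n, dist r ≠ 0 → r.2 = true := by
      rintro ⟨x, b⟩ hr
      cases b
      · exact absurd (by simp [dist, wt]) hr
      · rfl
    have e2 : p.2 = q.2 := by rw [b1 p hp, b1 q hq]
    rw [Prod.ext e1 e2]

/-- `mk p = mk q` if and only if `p = q` or both represent the base point. -/
lemma mk_eq_mk_iff {n : ℕ} (p q : Rep n) : mk p = mk q ↔ p = q ∨ (IsB p ∧ IsB q) := by
  constructor
  · intro h
    have he : emb p = emb q :=
      congrArg (Quot.lift emb emb_eq_of_rel) h
    have h1 : dist p = dist q := congrArg Prod.fst he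
    by_cases hp : dist p = 0
    · exact Or.inr ⟨(dist_eq_zero_iff p).1 hp, (dist_eq_zero_iff q).1 (h1 ▸ hp)⟩
    · left
      have hq : dist q ≠ 0 := h1 ▸ hp
      have h2 : ∀ i, dist p * (p.1 i : ℝ) = dist q * (q.1 i : ℝ) :=
        fun i => congrFun (congrArg Prod.snd he) i
      have e1 : p.1 = q.1 := by
        funext i
        have := h2 i
        rw [← h1] at this
        exact Subtype.ext (mul_left_cancel₀ hp this)
      have b1 : ∀ r : Rep n, dist r ≠ 0 → r.2 = true := by
        rintro ⟨x, b⟩ hr
        cases b
        · exact absurd (by simp [dist, wt]) hr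
        · rfl
      exact Prod.ext e1 (by rw [b1 p hp, b1 q hq])
  · rintro (rfl | h)
    · rfl
    · exact Quot.sound h

/-- `S^n` is Hausdorff. -/
instance t2 (n : ℕ) : T2Space (Sp n) := by
  refine T2Space.of_injective_continuous (f := Quot.lift emb emb_eq_of_rel) ?_
    (continuous_quot_lift _ (continuous_emb n))
  rintro ⟨p⟩ ⟨q⟩ h
  exact mk_eq_of_emb_eq h

/-- `S^n` is compact. -/
instance compact (n : ℕ) : CompactSpace (Sp n) :=
  inferInstanceAs (CompactSpace (Quot (Rel n)))

/-- The product of two of the quotient maps is a quotient map. -/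
lemma isQuotientMap_prod (m n : ℕ) :
    IsQuotientMap (Prod.map (mk : Rep m → Sp m) (mk : Rep n → Sp n)) := by
  have hc : Continuous (Prod.map (mk : Rep m → Sp m) (mk : Rep n → Sp n)) :=
    (continuous_mk m).prodMap (continuous_mk n)
  exact hc.isClosedMap.isQuotientMap hc ((mk_surjective m).prodMap (mk_surjective n))

/-! ## The action of the symmetric groups -/

/-- `(s · x)_j = x_{s⁻¹ j}`. -/
def actRep {n : ℕ} (s : Equiv.Perm (Fin n)) (p : Rep n) : Rep n := (p.1 ∘ s.symm, p.2)

lemma isB_actRep {n : ℕ} (s : Equiv.Perm (Fin n)) {p : Rep n} (h : IsB p) : IsB (actRep s p) := by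
  rcases h with ⟨i, hi⟩ | h
  · exact Or.inl ⟨s i, by simpa [actRep] using hi⟩
  · exact Or.inr h

/-- The action of `Σ_n` on `S^n`. -/
def act (n : ℕ) (s : Equiv.Perm (Fin n)) : Sp n → Sp n :=
  Quot.map (actRep s) fun _ _ h => ⟨isB_actRep s h.1, isB_actRep s h.2⟩

lemma act_mk {n : ℕ} (s : Equiv.Perm (Fin n)) (p : Rep n) : act n s (mk p) = mk (actRep s p) := rfl

lemma continuous_act (n : ℕ) (s : Equiv.Perm (Fin n)) : Continuous (act n s) := by
  refine continuous_quot_lift _ ?_
  refine (continuous_mk n).comp ?_
  unfold actRep
  fun_prop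

/-! ## The multiplication -/

/-- Concatenation of coordinates. -/
def mulRep {m n : ℕ} (p : Rep m) (q : Rep n) : Rep (m + n) := (Fin.append p.1 q.1, p.2 && q.2)

lemma isB_mulRep_left {m n : ℕ} {p : Rep m} (h : IsB p) (q : Rep n) : IsB (mulRep p q) := by
  rcases h with ⟨i, hi⟩ | h
  · exact Or.inl ⟨Fin.castAdd n i, by simpa [mulRep] using hi⟩
  · exact Or.inr (by simp [mulRep, h])

lemma isB_mulRep_right {m n : ℕ} (p : Rep m) {q : Rep n} (h : IsB q) : IsB (mulRep p q) := by
  rcases h with ⟨i, hi⟩ | h
  · exact Or.inl ⟨Fin.natAdd m i, by simpa [mulRep] using hi⟩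
  · exact Or.inr (by simp [mulRep, h])

/-- The multiplication `S^m ∧ S^n → S^{m+n}`. -/
def mul (m n : ℕ) : Sp m → Sp n → Sp (m + n) :=
  Quot.map₂ mulRep
    (fun p _ _ h => ⟨isB_mulRep_right p h.1, isB_mulRep_right p h.2⟩)
    (fun _ _ q h => ⟨isB_mulRep_left h.1 q, isB_mulRep_left h.2 q⟩)

lemma mul_mk {m n : ℕ} (p : Rep m) (q : Rep n) : mul m n (mk p) (mk q) = mk (mulRep p q) := rfl

lemma continuous_append (m n : ℕ) :
    Continuous fun z : (Fin m → I) × (Fin n → I) => Fin.append z.1 z.2 := by
  refine continuous_pi fun i => ?_
  induction i using Fin.addCases with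
  | left i => simp only [Fin.append_left]; fun_prop
  | right i => simp only [Fin.append_right]; fun_prop

lemma continuous_mulRep (m n : ℕ) : Continuous fun z : Rep m × Rep n => mulRep z.1 z.2 := by
  unfold mulRep
  refine Continuous.prodMk ?_ ?_
  · exact (continuous_append m n).comp
      ((continuous_fst.comp continuous_fst).prodMk (continuous_fst.comp continuous_snd))
  · have h : Continuous fun b : Bool × Bool => b.1 && b.2 := continuous_of_discreteTopology
    exact h.comp ((continuous_snd.comp continuous_fst).prodMk (continuous_snd.comp continuous_snd))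

/-- The multiplication is continuous on the product (both spheres are compact Hausdorff). -/
lemma continuous_mul (m n : ℕ) : Continuous fun z : Sp m × Sp n => mul m n z.1 z.2 := by
  rw [(isQuotientMap_prod m n).continuous_iff]
  exact (continuous_mk (m + n)).comp (continuous_mulRep m n)

/-! ## The units -/

/-- `1 ∈ S^0`. -/
def one : Sp 0 := mk (Fin.elim0, true)

/-- `ι : S^1 → S^1`, the identity, as a loop. -/
def iota : LoopSpace (Sp 1) (bp 1) where
  toFun t := mk (fun _ => t, true)
  continuous_toFun := by
    refine (continuous_mk 1).comp ?_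
    fun_prop
  source' := mk_eq_bp (Or.inl ⟨0, Or.inl rfl⟩)
  target' := mk_eq_bp (Or.inl ⟨0, Or.inr rfl⟩)

lemma iota_apply (t : I) : iota t = mk (fun _ => t, true) := rfl

/-- Equality of classes in spheres of (propositionally) equal dimensions. -/
lemma mk_heq {a b : ℕ} (h : a = b) {x : Fin a → I} {y : Fin b → I} {c d : Bool}
    (hxy : x = y ∘ Fin.cast h) (hcd : c = d) : HEq (mk (x, c) : Sp a) (mk (y, d) : Sp b) := by
  subst h
  subst hcd
  have : x = y := by simpa using hxy
  rw [this]

end SphereRing

open SphereRing in
/-- **The sphere spectrum as a symmetric ring spectrum.** -/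
def SymRing.sphere : SymRing where
  space := Sp
  base := bp
  act := SphereRing.act
  act_cont := continuous_act
  act_one n x := by
    induction x using Quot.ind with
    | mk p => rfl
  act_mul n s s' x := by
    induction x using Quot.ind with
    | mk p => rfl
  act_base n s := rfl
  mul := SphereRing.mul
  mul_kcont m n := fun K _ _ _ g => (continuous_mul m n).comp g.continuous
  mul_cont_left m n y := (continuous_mul m n).comp (continuous_id.prodMk continuous_const)
  mul_cont_right m n x := (continuous_mul m n).comp (continuous_const.prodMk continuous_id)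
  mul_base_left m n y := by
    induction y using Quot.ind with
    | mk q => exact mk_eq_bp (isB_mulRep_left (p := (fun _ => 0, false)) (Or.inr rfl) q)
  mul_base_right m n x := by
    induction x using Quot.ind with
    | mk p => exact mk_eq_bp (isB_mulRep_right p (q := (fun _ => 0, false)) (Or.inr rfl))
  one := SphereRing.one
  ι := iota
  str_cont n := (continuous_mul n 1).comp
    (continuous_fst.prodMk (iota.continuous.comp continuous_snd))
  mul_assoc l m n x y z := by
    induction x using Quot.ind with
    | mk p =>
    induction y using Quot.ind with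
    | mk q =>
    induction z using Quot.ind with
    | mk r =>
      exact mk_heq (Nat.add_assoc l m n) (Fin.append_assoc p.1 q.1 r.1) (Bool.and_assoc _ _ _)
  mul_one n x := by
    induction x using Quot.ind with
    | mk p =>
      refine congrArg SphereRing.mk (Prod.ext ?_ (Bool.and_true p.2))
      show Fin.append p.1 Fin.elim0 = p.1
      rw [Fin.append_right_nil _ _ rfl]
      rfl
  one_mul n x := by
    induction x using Quot.ind with
    | mk p =>
      exact mk_heq (Nat.zero_add n) (Fin.append_left_nil _ _ rfl) (Bool.true_and _)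
  mul_act m n s s' x y := by
    induction x using Quot.ind with
    | mk p =>
    induction y using Quot.ind with
    | mk q =>
      refine congrArg SphereRing.mk (Prod.ext ?_ rfl)
      funext i
      show Fin.append (p.1 ∘ s.symm) (q.1 ∘ s'.symm) i =
        Fin.append p.1 q.1 ((finSumFinEquiv.permCongr (Equiv.Perm.sumCongr s s')).symm i)
      have hs : (finSumFinEquiv.permCongr (Equiv.Perm.sumCongr s s')).symm =
          (finSumFinEquiv (m := m) (n := n)).permCongr (Equiv.Perm.sumCongr s.symm s'.symm) := by
        ext j
        rfl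
      rw [hs, Equiv.permCongr_apply]
      induction i using Fin.addCases with
      | left i => simp
      | right i => simp
  central n x t := by
    induction x using Quot.ind with
    | mk p =>
      refine mk_heq (Nat.add_comm n 1) ?_ (Bool.and_comm _ _)
      show Fin.append p.1 (fun _ : Fin 1 => t) ∘ (finRotate (n + 1)).symm =
        Fin.append (fun _ : Fin 1 => t) p.1 ∘ Fin.cast (Nat.add_comm n 1)
      rw [Fin.append_right_eq_snoc, Fin.append_left_eq_cons, Fin.snoc_eq_cons_rotate]
      funext j
      simp

/-! ## The example is not degenerate -/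

namespace SphereRing

/-- `S^0` has exactly the two points `1` and `*`, -/
theorem eq_one_or_eq_bp (z : Sp 0) : z = one ∨ z = bp 0 := by
  induction z using Quot.ind with
  | mk p =>
    obtain ⟨x, b⟩ := p
    cases b
    · exact Or.inr (mk_eq_bp (Or.inr rfl))
    · left
      have : x = Fin.elim0 := Subsingleton.elim _ _
      rw [this]
      rfl

/-- and they are different. -/
theorem one_ne_bp : one ≠ bp 0 := by
  intro h
  rcases (mk_eq_mk_iff _ _).1 h with h | ⟨h, -⟩
  · exact absurd (congrArg Prod.snd h) (by simp)
  · rcases h with ⟨i, -⟩ | h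
    · exact i.elim0
    · exact absurd h (by simp)

/-- The loop `ι` is the quotient map `I → I/∂I = S^1`: it only identifies the two end points. -/
theorem iota_eq_iota_iff (s t : I) :
    iota s = iota t ↔ s = t ∨ ((s = 0 ∨ s = 1) ∧ (t = 0 ∨ t = 1)) := by
  rw [iota_apply, iota_apply, mk_eq_mk_iff]
  refine or_congr ?_ (and_congr ?_ ?_)
  · constructor
    · intro h
      exact congrFun (congrArg Prod.fst h) 0
    · rintro rfl
      rfl
  · constructor
    · rintro (⟨_, h⟩ | h)
      · exact h
      · exact absurd h (by simp)
    · exact fun h => Or.inl ⟨0, h⟩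
  · constructor
    · rintro (⟨_, h⟩ | h)
      · exact h
      · exact absurd h (by simp)
    · exact fun h => Or.inl ⟨0, h⟩

/-- Two interior points of the interval. -/
def quarter : I := ⟨1 / 4, by constructor <;> norm_num⟩

/-- Two interior points of the interval. -/
def half : I := ⟨1 / 2, by constructor <;> norm_num⟩

/-- The transposition acts on `S^2` by exchanging the two coordinates, -/
theorem act_swap (a b : I) (c : Bool) :
    act 2 (Equiv.swap 0 1) (mk (![a, b], c)) = mk (![b, a], c) := by
  rw [act_mk]
  refine congrArg mk (Prod.ext ?_ rfl)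
  funext i
  fin_cases i <;> simp [actRep]

/-- and this is not the identity. -/
theorem act_swap_ne : act 2 (Equiv.swap 0 1) (mk (![quarter, half], true)) ≠ mk (![quarter, half], true) := by
  rw [act_swap]
  intro h
  rcases (mk_eq_mk_iff _ _).1 h with h | ⟨-, h⟩
  · have h0 : half = quarter := congrFun (congrArg Prod.fst h) 0
    have : (1 / 2 : ℝ) = 1 / 4 := congrArg Subtype.val h0
    norm_num at this
  · rcases h with ⟨i, hi⟩ | h
    · fin_cases i
      · rcases hi with hi | hi
        · have : (1 / 4 : ℝ) = 0 := congrArg Subtype.val hi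
          norm_num at this
        · have : (1 / 4 : ℝ) = 1 := congrArg Subtype.val hi
          norm_num at this
      · rcases hi with hi | hi
        · have : (1 / 2 : ℝ) = 0 := congrArg Subtype.val hi
          norm_num at this
        · have : (1 / 2 : ℝ) = 1 := congrArg Subtype.val hi
          norm_num at this
    · exact absurd h (by simp)

/-- The function `dist` on the sphere. -/
def distQ {n : ℕ} : Sp n → ℝ :=
  Quot.lift dist fun p q h => by rw [(dist_eq_zero_iff p).2 h.1, (dist_eq_zero_iff q).2 h.2]

lemma continuous_distQ (n : ℕ) : Continuous (distQ : Sp n → ℝ) :=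
  continuous_quot_lift _ (continuous_dist n)

/-- `S^0` is not path connected. -/
theorem not_joined_one_bp : ¬ Joined one (bp 0) := by
  rintro ⟨γ⟩
  have hf : Continuous fun t : I => distQ (γ t) := (continuous_distQ 0).comp γ.continuous
  have h0 : distQ (γ 0) = 1 := by
    rw [γ.source]
    simp [distQ, one, mk, dist, wt]
  have h1 : distQ (γ 1) = 0 := by
    rw [γ.target]
    simp [distQ, bp, mk, dist, wt]
  have hr := intermediate_value_univ (1 : I) 0 hf
  obtain ⟨t, ht⟩ := hr (show (1 / 2 : ℝ) ∈ Set.Icc (distQ (γ 1)) (distQ (γ 0)) by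
    rw [h0, h1]; constructor <;> norm_num)
  rcases eq_one_or_eq_bp (γ t) with h | h
  · simp only [h] at ht
    simp [distQ, one, mk, dist, wt] at ht
  · simp only [h] at ht
    simp [distQ, bp, mk, dist, wt] at ht

/-- `S^k` is path connected for `k ≥ 1`: contract the cube to the corner `0`. -/
theorem joined_bp {k : ℕ} (hk : 0 < k) (z : Sp k) : Joined z (bp k) := by
  induction z using Quot.ind with
  | mk p =>
    refine ⟨{ toFun := fun t => mk (fun i => σ t * p.1 i, p.2)
              continuous_toFun := ?_
              source' := ?_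
              target' := ?_ }⟩
    · refine (continuous_mk k).comp ?_
      fun_prop
    · simp
      rfl
    · exact mk_eq_bp (Or.inl ⟨⟨0, hk⟩, Or.inl (by simp)⟩)

end SphereRing

/-- A weak equivalence is injective on path components. -/
theorem not_isWeakEquiv_of_joined {A B : Type} [TopologicalSpace A] [TopologicalSpace B] (g : C(A, B))
    (a a' : A) (h : ¬ Joined a a') (hB : ∀ b b' : B, Joined b b') : ¬ IsWeakEquiv g := by
  intro hg
  have inj := (hg.2 a 0).1
  let e := HomotopyGroup.pi0EquivZerothHomotopy (X := A) (x := a)
  let e' := HomotopyGroup.pi0EquivZerothHomotopy (X := B) (x := g a)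
  have hsub : Subsingleton (ZerothHomotopy B) := by
    refine ⟨fun x y => ?_⟩
    induction x using Quotient.inductionOn with
    | h b =>
    induction y using Quotient.inductionOn with
    | h b' => exact Quotient.sound (hB b b')
  have hsub' : Subsingleton (HomotopyGroup (Fin 0) B (g a)) := e'.subsingleton
  have h1 : e.symm (Quotient.mk _ a) = e.symm (Quotient.mk _ a') := inj (Subsingleton.elim _ _)
  exact h (Quotient.exact (e.symm.injective h1))

/-- **A second non-example of `IsMoravaK`, by a real ring spectrum**: the sphere spectrum is not a Morava `K`-theory.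
(No point `w ∈ S^q`, `q = 2(p^n-1) ≥ 2`, multiplies `S^0` by a weak equivalence onto the connected space `S^q`:
the sphere spectrum has no unit in degree `-q`.) -/
theorem SymRing.not_isMoravaK_sphere {p : ℕ} (hp : p.Prime) {n : ℕ} (hn : 1 ≤ n) :
    ¬ SymRing.sphere.IsMoravaK p n := by
  rintro ⟨-, -, -, ⟨w, hw⟩, -⟩
  have h2 : 2 ≤ p ^ n := le_trans hp.two_le (Nat.le_self_pow (by omega) p)
  have hq : 0 < 2 * (p ^ n - 1) + 0 := by omega
  exact not_isWeakEquiv_of_joined _ SphereRing.one (SphereRing.bp 0) SphereRing.not_joined_one_bp
    (fun b b' => (SphereRing.joined_bp hq b).trans (SphereRing.joined_bp hq b').symm) (hw 0)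

/-- The underlying sequential spectrum of `SymRing.sphere`: the sphere spectrum `S^0, S^1, S^2, …` with the structure maps
`S^n → ΩS^{n+1}`, `x ↦ (t ↦ (x, t))`. -/
example : Spt 1 := SymRing.sphere.toSpt

example (n : ℕ) (x : Fin n → I) (t : Fin 1 → I) :
    SymRing.sphere.toSpt.str n (SphereRing.mk (x, true)) t = SphereRing.mk (Fin.append x (fun _ => t 0), true) :=
  rfl

end

end Claimed.Open.R314
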