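import Claimed.Open.R314.SanityDegree2
import Claimed.Open.R314.SanitySymRing
import Claimed.Open.R314.SanityStable

/-!
# Result 314: `Spt.every`, `SymRing.toSpt` and `Spt.CohomologyVanishes` evaluated in an example

`GeomAcyclic K i H X`, `i ≥ 1`, compares the spectrum `Φ^H X` of `Spt d`, `d = [G : H]`, with the
ordinary spectrum `(K i).toSpt` of `Spt 1`, which is transported to `Spt d` by `Spt.every d` (iterated
structure maps `Spt.strIter`, `loopStep`).  This file evaluates all these definitions for the sphere:

* `everySphereIso`: for every finite group `G` and every subgroup `H` there is an **isomorphism of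
  point-set spectra** `every [G:H] 𝕊 ≅ Φ^H 𝕊_G` in `Spt [G:H]`, where `𝕊 = SymRing.sphere.toSpt` is the
  underlying spectrum of the symmetric sphere ring spectrum (`SanitySymRing.lean`) and `𝕊_G` is the genuine
  sphere spectrum (`SanitySpectra.lean`).  In level `n` it is the homeomorphism
  `I^{dn}/∂ → (I^{Fin n × G}/∂)^H` of the bijection `tau d n : Fin n × Fin d ≃ Fin (d n)`,
  `(a, c) ↦ dn - 1 - (d a + c)`, which is forced by the order in which `strIter` and `geomFix` insert the
  new coordinates;
* `not_isZero_every_sphere`: `every d 𝕊` is not a zero object of `GSH PUnit (Fin d)`, for every `d ≥ 1`: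
  the comparison `Spt.every d` does not lose the sphere;
* `not_rationallyAcyclic_every_sphere`, `not_isPLocal_every_sphere`: it is not rationally acyclic and not
  `p`-local either;
* `not_cohomologyVanishes_geomFix_sphere`: `𝕊^*(Φ^H 𝕊_G) ≠ 0`: the **first non-example of
  `Spt.CohomologyVanishes`**;
* `not_geomAcyclic_sphere`: `GeomAcyclic K i H 𝕊_G` fails for **every** `i` if `K i = 𝕊` for `i ≥ 1` (for
  `i = 0` this is `not_geomAcyclic_zero_sphere`): the predicate in the premise and in the conclusion of
  `Statement` is not automatically true at positive heights.  (`𝕊` is not a Morava `K`-theory,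
  `SymRing.not_isMoravaK_sphere`; no model of `IsMoravaK` is available in Lean.)
-/

open CategoryTheory Topology unitInterval

namespace Claimed.Open.R314

noncomputable section

set_option linter.unusedSectionVars false

open SphereRing

/-! ## The iterated structure maps of the sphere spectrum -/

/-- The coordinates of `strIter 𝕊 m j [z] t`: `z`, followed by `t (j-1), …, t 1, t 0`. -/
def appIter {m : ℕ} (z : Fin m → I) : ∀ j : ℕ, (Fin j → I) → (Fin (m + j) → I)
  | 0, _ => z
  | j + 1, t => Fin.append (m := m + j) (n := 1) (appIter z j (Fin.tail t)) (fun _ : Fin 1 => t 0)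

lemma strIter_sphere_mk (m j : ℕ) (z : Fin m → I) (b : Bool) (t : Fin j → I) :
    Spt.strIter SymRing.sphere.toSpt m j (SphereRing.mk (z, b)) t =
      SphereRing.mk (appIter z j t, b) := by
  induction j with
  | zero => rfl
  | succ j ih =>
    show SymRing.sphere.toSpt.str (m + j)
      (Spt.strIter SymRing.sphere.toSpt m j (SphereRing.mk (z, b)) (Fin.tail t)) (fun _ => t 0) = _
    rw [ih]
    exact congrArg SphereRing.mk (Prod.ext rfl (Bool.and_true b))

lemma appIter_castAdd {m : ℕ} (z : Fin m → I) (j : ℕ) (t : Fin j → I) (i : Fin m) :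
    appIter z j t (Fin.castAdd j i) = z i := by
  induction j with
  | zero => rfl
  | succ j ih =>
    have h : (Fin.castAdd (j + 1) i : Fin (m + (j + 1))) = Fin.castAdd 1 (Fin.castAdd j i) := rfl
    rw [h]
    show Fin.append (m := m + j) (n := 1) (appIter z j (Fin.tail t)) (fun _ : Fin 1 => t 0) _ = _
    rw [Fin.append_left, ih]

lemma appIter_natAdd {m : ℕ} (z : Fin m → I) (j : ℕ) (t : Fin j → I) (c : Fin j) :
    appIter z j t (Fin.natAdd m c) = t (Fin.rev c) := by
  induction j with
  | zero => exact c.elim0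
  | succ j ih =>
    show Fin.append (m := m + j) (n := 1) (appIter z j (Fin.tail t)) (fun _ : Fin 1 => t 0) _ = _
    induction c using Fin.lastCases with
    | last =>
      have h : (Fin.natAdd m (Fin.last j) : Fin (m + (j + 1))) = Fin.natAdd (m + j) (0 : Fin 1) :=
        Fin.ext (by simp)
      rw [h, Fin.append_right, Fin.rev_last]
    | cast c =>
      have h : (Fin.natAdd m c.castSucc : Fin (m + (j + 1))) = Fin.castAdd 1 (Fin.natAdd m c) := rfl
      rw [h, Fin.append_left, ih, Fin.rev_castSucc]
      rfl

/-! ## The bijection of the coordinates -/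

/-- The bijection `Fin n × Fin d ≃ Fin (d n)`, `(a, c) ↦ dn - 1 - (d a + c)`. -/
def tau (d : ℕ) : ∀ n : ℕ, Fin n × Fin d → Fin (d * n)
  | 0, q => q.1.elim0
  | n + 1, q => Fin.cases (motive := fun _ => Fin (d * n + d)) (Fin.natAdd (d * n) (Fin.rev q.2))
      (fun j => Fin.castAdd d (tau d n (j, q.2))) q.1

lemma tau_zero (d n : ℕ) (c : Fin d) :
    tau d (n + 1) (0, c) = Fin.natAdd (d * n) (Fin.rev c) := rfl

lemma tau_succ (d n : ℕ) (j : Fin n) (c : Fin d) :
    tau d (n + 1) (j.succ, c) = Fin.castAdd d (tau d n (j, c)) := rfl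

lemma tau_surjective (d n : ℕ) : Function.Surjective (tau d n) := by
  induction n with
  | zero => exact fun i => i.elim0
  | succ n ih =>
    intro i
    induction i using Fin.addCases (m := d * n) (n := d) with
    | left i =>
      obtain ⟨⟨j, c⟩, rfl⟩ := ih i
      exact ⟨(j.succ, c), rfl⟩
    | right c => exact ⟨(0, Fin.rev c), by rw [tau_zero, Fin.rev_rev]⟩

lemma tau_bijective (d n : ℕ) : Function.Bijective (tau d n) :=
  (Fintype.bijective_iff_surjective_and_card _).2 ⟨tau_surjective d n, by simp [mul_comm]⟩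

/-- The value of `tau`. -/
lemma tau_val (d n : ℕ) (q : Fin n × Fin d) :
    (tau d n q : ℕ) + (d * q.1 + q.2) + 1 = d * n := by
  induction n with
  | zero => exact q.1.elim0
  | succ n ih =>
    obtain ⟨a, c⟩ := q
    induction a using Fin.cases with
    | zero =>
      rw [tau_zero]
      simp only [Fin.val_natAdd, Fin.val_rev, Fin.val_zero, mul_zero, zero_add]
      have := c.2
      rw [Nat.mul_succ]
      omega
    | succ j =>
      rw [tau_succ]
      have := ih (j, c)
      simp only [Fin.val_castAdd, Fin.val_succ] at this ⊢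
      rw [Nat.mul_succ, Nat.mul_succ]
      omega

/-- `tau` as an equivalence. -/
def tauEquiv (d n : ℕ) : Fin n × Fin d ≃ Fin (d * n) := Equiv.ofBijective _ (tau_bijective d n)

lemma tauEquiv_apply (d n : ℕ) (q : Fin n × Fin d) : tauEquiv d n q = tau d n q := rfl

/-- The order of the coordinates in `strIter` matches the one in the suspension spectra. -/
lemma appIter_tau (d n : ℕ) (z : Fin (d * n) → I) (t : Fin d → I) (a : Fin (n + 1)) (c : Fin d) :
    appIter z d t (tau d (n + 1) (a, c)) =
      Fin.cases (motive := fun _ => I) (t c) (fun j => z (tau d n (j, c))) a := by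
  induction a using Fin.cases with
  | zero => rw [tau_zero, appIter_natAdd, Fin.rev_rev]; rfl
  | succ j => rw [tau_succ, appIter_castAdd]; rfl

/-! ## The isomorphism `every [G:H] 𝕊 ≅ Φ^H 𝕊_G` -/

section Iso

variable (G : Type) [Group G] [Fintype G] (H : Subgroup G)

/-- On representatives: a point of `I^{dn}` gives a function on `Fin n × G` which is constant on the
`H`-orbits. -/
def everyRep (n : ℕ) (p : Rep (orbitCount H G * n)) : (Fin n × G → I) × Bool :=
  (fun q => p.1 (tau _ n (q.1, orbIdx G H q.2)), p.2)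

lemma continuous_everyRep (n : ℕ) : Continuous (everyRep G H n) :=
  (continuous_pi fun _ => (continuous_apply _).comp continuous_fst).prodMk continuous_snd

lemma everyRep_isB_iff (n : ℕ) (p : Rep (orbitCount H G * n)) :
    ((everyRep G H n p).1 ∈ Cube.boundary (Fin n × G) ∨ (everyRep G H n p).2 = false) ↔ IsB p := by
  constructor
  · rintro (⟨q, hq⟩ | h)
    · exact Or.inl ⟨_, hq⟩
    · exact Or.inr h
  · rintro (⟨i, hi⟩ | h)
    · obtain ⟨⟨a, c⟩, rfl⟩ := tau_surjective _ n i
      refine Or.inl ⟨(a, orbRep G H c), ?_⟩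
      show p.1 (tau _ n (a, orbIdx G H (orbRep G H c))) = 0 ∨
        p.1 (tau _ n (a, orbIdx G H (orbRep G H c))) = 1
      rw [orbIdx_orbRep]
      exact hi
    · exact Or.inr h

/-- The map on representatives, with values in the fixed points. -/
def everyFix (n : ℕ) (p : Rep (orbitCount H G * n)) : ((GSpt.sphere G).geomFix H).space n :=
  ⟨(Quot.mk _ (everyRep G H n p) : SuspSpace G Bool false n), by
    rintro ⟨h, hh⟩
    refine congrArg (Quot.mk _) (Prod.ext ?_ rfl)
    funext q
    show p.1 (tau _ n (q.1, orbIdx G H (h⁻¹ • q.2))) = p.1 (tau _ n (q.1, orbIdx G H q.2))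
    rw [orbIdx_smul G H _ (H.inv_mem hh)]⟩

/-- The map `𝕊_{dn} = I^{dn}/∂ → (S^{nρ})^H`. -/
def everyMap (n : ℕ) : C((Spt.every (orbitCount H G) SymRing.sphere.toSpt).space n,
    ((GSpt.sphere G).geomFix H).space n) where
  toFun := Quot.lift (everyFix G H n) (fun p q h => Subtype.ext (Quot.sound
    ⟨(everyRep_isB_iff G H n p).2 h.1, (everyRep_isB_iff G H n q).2 h.2⟩))
  continuous_toFun := continuous_quot_lift _
    (Continuous.subtype_mk (continuous_quot_mk.comp (continuous_everyRep G H n)) _)

lemma everyMap_mk (n : ℕ) (p : Rep (orbitCount H G * n)) :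
    everyMap G H n (SphereRing.mk p) = everyFix G H n p := rfl

lemma everyMap_injective (n : ℕ) : Function.Injective (everyMap G H n) := by
  intro x y
  induction x using Quot.ind with
  | mk p =>
  induction y using Quot.ind with
  | mk q =>
    intro h
    have h1 : (Quot.mk _ (everyRep G H n p) : SuspSpace G Bool false n) =
        Quot.mk _ (everyRep G H n q) := congrArg Subtype.val h
    rcases (suspMk_eq_iff G Bool false n _ _).1 h1 with h2 | h2
    · refine congrArg SphereRing.mk (Prod.ext ?_ (congrArg Prod.snd h2 :))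
      funext i
      obtain ⟨⟨a, c⟩, rfl⟩ := tau_surjective _ n i
      have h3 := congrFun (congrArg Prod.fst h2) (a, orbRep G H c)
      simp only [everyRep, orbIdx_orbRep] at h3
      exact h3
    · exact (mk_eq_bp ((everyRep_isB_iff G H n p).1 h2.1)).trans
        (mk_eq_bp ((everyRep_isB_iff G H n q).1 h2.2)).symm

lemma everyMap_surjective (n : ℕ) : Function.Surjective (everyMap G H n) := by
  intro x
  rcases geomFix_sphere_cases G H n x with rfl | ⟨y, rfl⟩
  · exact ⟨SphereRing.bp _, rfl⟩
  · refine ⟨SphereRing.mk (fun i => y ((tauEquiv _ n).symm i), true), ?_⟩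
    refine Subtype.ext (congrArg (Quot.mk _) (Prod.ext ?_ rfl))
    funext q
    show y ((tauEquiv _ n).symm (tauEquiv _ n (q.1, orbIdx G H q.2))) = _
    rw [Equiv.symm_apply_apply]

lemma geomCell_boundary (n : ℕ) {y : Fin n × Fin (orbitCount H G) → I}
    (hy : y ∈ Cube.boundary (Fin n × Fin (orbitCount H G))) :
    geomCell G H n y = ((GSpt.sphere G).geomFix H).base n := by
  obtain ⟨⟨a, j⟩, h⟩ := hy
  refine Subtype.ext (suspMk_eq_base G Bool false _ _ (Or.inl ⟨(a, orbRep G H j), ?_⟩))
  show y (a, orbIdx G H (orbRep G H j)) = 0 ∨ y (a, orbIdx G H (orbRep G H j)) = 1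
  rw [orbIdx_orbRep]
  exact h

lemma geomBump_injective (n : ℕ) : Function.Injective (geomBump G H n) := by
  intro a b h
  rcases geomFix_sphere_cases G H n a with rfl | ⟨y, rfl⟩ <;>
    rcases geomFix_sphere_cases G H n b with rfl | ⟨y', rfl⟩
  · rfl
  · rw [geomBump_base, geomBump_cell] at h
    rw [geomCell_boundary G H n (boundary_of_cubeBump_eq h.symm)]
  · rw [geomBump_base, geomBump_cell] at h
    rw [geomCell_boundary G H n (boundary_of_cubeBump_eq h)]
  · rw [geomBump_cell, geomBump_cell] at h
    by_cases hy : y ∈ Cube.boundary (Fin n × Fin (orbitCount H G))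
    · have h1 : cubeBump y' = (0, -(1 / 4)) := by rw [← h, cubeBump_of_boundary hy]
      rw [geomCell_boundary G H n hy, geomCell_boundary G H n (boundary_of_cubeBump_eq h1)]
    · rw [eq_of_cubeBump_eq hy h]

/-- All spaces `(S^{nρ})^H` of `Φ^H 𝕊_G` are Hausdorff. -/
lemma t2Space_geomFix_sphere (n : ℕ) : T2Space (((GSpt.sphere G).geomFix H).space n) :=
  T2Space.of_injective_continuous (geomBump_injective G H n) (continuous_geomBump G H n)

/-- `everyMap` is a homeomorphism. -/
def everyHomeo (n : ℕ) : (Spt.every (orbitCount H G) SymRing.sphere.toSpt).space n ≃ₜ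
    ((GSpt.sphere G).geomFix H).space n :=
  haveI : CompactSpace ((Spt.every (orbitCount H G) SymRing.sphere.toSpt).space n) :=
    SphereRing.compact (orbitCount H G * n)
  haveI := t2Space_geomFix_sphere G H n
  Continuous.homeoOfEquivCompactToT2
    (f := Equiv.ofBijective _ ⟨everyMap_injective G H n, everyMap_surjective G H n⟩)
    (everyMap G H n).continuous

lemma everyHomeo_apply (n : ℕ) (x : (Spt.every (orbitCount H G) SymRing.sphere.toSpt).space n) :
    everyHomeo G H n x = everyMap G H n x := rfl

/-- The map of spectra `every [G:H] 𝕊 → Φ^H 𝕊_G`. -/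
def everyHom : Spt.every (orbitCount H G) SymRing.sphere.toSpt ⟶ (GSpt.sphere G).geomFix H where
  map := everyMap G H
  map_base _ := rfl
  map_smul _ _ _ := rfl
  comm n x t := by
    induction x using Quot.ind with
    | mk p =>
      obtain ⟨z, b⟩ := p
      show everyMap G H (n + 1) (Spt.strIter SymRing.sphere.toSpt (orbitCount H G * n)
        (orbitCount H G) (SphereRing.mk (z, b)) t) = _
      rw [strIter_sphere_mk]
      apply Subtype.ext
      refine congrArg (Quot.mk _) (Prod.ext ?_ rfl)
      funext ⟨a, g⟩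
      exact appIter_tau _ n z t a (orbIdx G H g)

/-- Its inverse. -/
def everyInv : (GSpt.sphere G).geomFix H ⟶ Spt.every (orbitCount H G) SymRing.sphere.toSpt where
  map n := ⟨(everyHomeo G H n).symm, (everyHomeo G H n).symm.continuous⟩
  map_base n := (everyHomeo G H n).symm_apply_eq.2 ((everyHom G H).map_base n).symm
  map_smul _ _ _ := rfl
  comm n x t := by
    obtain ⟨w, rfl⟩ := (everyHomeo G H n).surjective x
    show (everyHomeo G H (n + 1)).symm _ = (Spt.every (orbitCount H G) SymRing.sphere.toSpt).str n
      ((everyHomeo G H n).symm (everyHomeo G H n w)) t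
    rw [Homeomorph.symm_apply_apply, Homeomorph.symm_apply_eq]
    exact ((everyHom G H).comm n w t).symm

/-- **`every [G:H] 𝕊 ≅ Φ^H 𝕊_G`**, an isomorphism of point-set spectra in `Spt [G:H]`. -/
def everySphereIso : Spt.every (orbitCount H G) SymRing.sphere.toSpt ≅ (GSpt.sphere G).geomFix H where
  hom := everyHom G H
  inv := everyInv G H
  hom_inv_id := GSpt.Hom.ext (funext fun n => ContinuousMap.ext fun x =>
    (everyHomeo G H n).symm_apply_apply x)
  inv_hom_id := GSpt.Hom.ext (funext fun n => ContinuousMap.ext fun x =>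
    (everyHomeo G H n).apply_symm_apply x)

end Iso

/-! ## Consequences -/

/-- If `A ≅ B` and there is only one map `A ⟶ B`, then `A` is a zero object (in a category with a zero
object). -/
lemma isZero_of_subsingleton_hom {C : Type*} [Category C] {A B Z : C} (hZ : Limits.IsZero Z)
    (i : A ≅ B) (h : Subsingleton (A ⟶ B)) : Limits.IsZero A :=
  hZ.of_iso ⟨hZ.from_ A, hZ.to_ B ≫ i.inv, by
    rw [← Category.assoc, h.elim (hZ.from_ A ≫ hZ.to_ B) i.hom, i.hom_inv_id],
    hZ.eq_of_src _ _⟩

section Main

variable {G : Type} [Group G] [Finite G] (H : Subgroup G)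

/-- **`Spt.CohomologyVanishes` has teeth**: the stable cohomotopy `𝕊^*(Φ^H 𝕊_G)` of the geometric fixed
points of the genuine sphere spectrum is not zero. -/
theorem not_cohomologyVanishes_geomFix_sphere :
    ¬ ((GSpt.sphere G).geomFix H).CohomologyVanishes SymRing.sphere.toSpt := by
  have := Fintype.ofFinite G
  intro h
  exact not_isZero_geomFix_sphere H (isZero_of_subsingleton_hom
    (GSH.isZero_of_isTrivial (GSpt.isTrivial_pt (G := PUnit.{1}) (N := Fin (orbitCount H G))))
    (GSH.Q.mapIso (everySphereIso G H).symm) (h 0))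

/-- **`GeomAcyclic K i H` has teeth at every height `i`**: it fails for the genuine sphere spectrum if
`K i` is the sphere ring spectrum. -/
theorem not_geomAcyclic_sphere (K : ℕ → SymRing) (i : ℕ) (hK : i ≠ 0 → K i = SymRing.sphere) :
    ¬ GeomAcyclic K i H (GSpt.sphere G) := by
  by_cases hi : i = 0
  · subst hi
    exact not_geomAcyclic_zero_sphere H K
  · unfold GeomAcyclic
    rw [if_neg hi, hK hi]
    exact not_cohomologyVanishes_geomFix_sphere H

end Main

/-! ## Invariance, dependence on `K`, and all `d ≥ 1` -/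

section Invariance

variable {d : ℕ}

/-- `K^*(A) = 0` only depends on the isomorphism class of `A` in the stable homotopy category. -/
theorem Spt.CohomologyVanishes.of_iso {A B : Spt d} {K : Spt 1} (hA : A.CohomologyVanishes K)
    (e : GSH.Q.obj A ≅ GSH.Q.obj B) : B.CohomologyVanishes K := fun b =>
  ⟨fun f g => by
    have h := (hA b).elim (e.hom ≫ f) (e.hom ≫ g)
    simpa using congrArg (fun φ => e.inv ≫ φ) h⟩

lemma torsion_of_iso {M M' : AddCommGrpCat.{0}} (E : M ≅ M')
    (h : ∀ y : M, ∃ a : ℕ, 0 < a ∧ a • y = 0) (x : M') : ∃ a : ℕ, 0 < a ∧ a • x = 0 := by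
  obtain ⟨a, ha, hax⟩ := h (E.inv.hom x)
  refine ⟨a, ha, ?_⟩
  have h1 : E.hom.hom (a • E.inv.hom x) = a • E.hom.hom (E.inv.hom x) :=
    map_nsmul E.hom.hom a (E.inv.hom x)
  have h2 : E.hom.hom (E.inv.hom x) = x := by simp
  rw [h2, hax, map_zero] at h1
  exact h1.symm

/-- `π_*(A) ⊗ ℚ = 0` only depends on the isomorphism class of `A` in the stable homotopy category. -/
theorem Spt.RationallyAcyclic.of_iso {A B : Spt d} (hA : A.RationallyAcyclic)
    (e : GSH.Q.obj A ≅ GSH.Q.obj B) : B.RationallyAcyclic := fun k m x =>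
  torsion_of_iso ((GSH.pi (⊤ : Subgroup PUnit.{1}) k m).mapIso e) (hA k m) x

theorem GSpt.IsTrivial.every {T : Spt 1} (hT : T.IsTrivial) (d : ℕ) : (Spt.every d T).IsTrivial :=
  fun n => hT (d * n)

/-- Every spectrum is acyclic for a spectrum of points, -/
theorem Spt.cohomologyVanishes_of_isTrivial_right (A : Spt d) {K : Spt 1} (hK : K.IsTrivial) :
    A.CohomologyVanishes K :=
  fun b => ⟨fun _ _ => (GSH.isZero_of_isTrivial ((hK.shIter b).every d)).eq_of_tgt _ _⟩

theorem SymRing.isTrivial_zero : SymRing.zero.toSpt.IsTrivial :=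
  fun _ => inferInstanceAs (Subsingleton PUnit)

end Invariance

section Dependence

variable {G : Type} [Group G] [Finite G] (H : Subgroup G)

/-- so **`GeomAcyclic K i H X` depends on `K i`**, `i ≥ 1`: for the zero ring spectrum it holds for all
`X`, in particular for the genuine sphere spectrum, for which it fails if `K i = 𝕊`. -/
theorem geomAcyclic_zero_ring (K : ℕ → SymRing) (i : ℕ) (hi : i ≠ 0) (hK : K i = SymRing.zero)
    (X : GSpt G G) : GeomAcyclic K i H X := by
  unfold GeomAcyclic
  rw [if_neg hi, hK]
  exact Spt.cohomologyVanishes_of_isTrivial_right _ SymRing.isTrivial_zero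

end Dependence

section AllD

/-- Every `d ≥ 1` is the index of a subgroup of a finite group. -/
lemma exists_orbitCount_eq (d : ℕ) (hd : 0 < d) :
    ∃ (G : Type) (_ : Group G) (_ : Finite G) (H : Subgroup G), orbitCount H G = d := by
  have : NeZero d := ⟨hd.ne'⟩
  refine ⟨Multiplicative (ZMod d), inferInstance, inferInstance, ⊥, ?_⟩
  rw [orbitCount_eq_index, Subgroup.index_bot, Nat.card_congr Multiplicative.toAdd, Nat.card_zmod]

variable (d : ℕ) (hd : 0 < d)

include hd

/-- **`Spt.every d` does not lose the sphere**: `every d 𝕊` is not a zero object of the stable homotopy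
category `GSH PUnit (Fin d)` of `Spt d`, for every `d ≥ 1`; -/
theorem not_isZero_every_sphere :
    ¬ Limits.IsZero (GSH.Q.obj (Spt.every d SymRing.sphere.toSpt)) := by
  obtain ⟨G, _, _, H, rfl⟩ := exists_orbitCount_eq d hd
  have := Fintype.ofFinite G
  exact fun h => not_isZero_geomFix_sphere H (h.of_iso (GSH.Q.mapIso (everySphereIso G H).symm))

/-- it is not rationally acyclic, -/
theorem not_rationallyAcyclic_every_sphere :
    ¬ (Spt.every d SymRing.sphere.toSpt).RationallyAcyclic := by
  obtain ⟨G, _, _, H, rfl⟩ := exists_orbitCount_eq d hd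
  have := Fintype.ofFinite G
  exact fun h => not_rationallyAcyclic_geomFix_sphere H (h.of_iso (GSH.Q.mapIso (everySphereIso G H)))

/-- not `p`-local for any `p`, -/
theorem not_isPLocal_every_sphere (p : ℕ) : ¬ (Spt.every d SymRing.sphere.toSpt).IsPLocal p := by
  obtain ⟨G, _, _, H, rfl⟩ := exists_orbitCount_eq d hd
  have := Fintype.ofFinite G
  exact fun h => not_isPLocal_geomFix_sphere H p (h.of_iso (GSH.Q.mapIso (everySphereIso G H)))

/-- and its stable cohomotopy is not zero. -/
theorem not_cohomologyVanishes_every_sphere :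
    ¬ (Spt.every d SymRing.sphere.toSpt).CohomologyVanishes SymRing.sphere.toSpt := by
  obtain ⟨G, _, _, H, rfl⟩ := exists_orbitCount_eq d hd
  have := Fintype.ofFinite G
  exact fun h => not_cohomologyVanishes_geomFix_sphere H
    (h.of_iso (GSH.Q.mapIso (everySphereIso G H)))

end AllD

end

end Claimed.Open.R314
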