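import Claimed.Open.R314.SanityCyclicLength2

/-!
# Result 314: checks for the third part of `Statement` (Corollary 7.5 of the paper)

1. `O^p(J)` (`pResidual`): for finite `J` it is the least normal subgroup of `p`-power index; it
   contains all elements of order prime to `p`; it is trivial for `p`-groups and everything for
   groups of order prime to `p`; `O^2(S_3) = A_3`, `O^3(S_3) = S_3`.
2. `ℓ(G, H) = ℓ(G/N, H/N)` for a normal subgroup `N ≤ H` (invariance under isomorphisms and
   conjugation is in `SanityCyclicLength2.lean`).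
3. For a finite `p`-group `G` and `B = G` the test of Corollary 7.5 is `n + ℓ(G, A) ≤ m`, so that the
   third part of `Statement` contains the second part (Theorem 1.1).
-/

namespace Claimed.Open.R314

/-! ## 1. `O^p` -/

section PResidual

variable {J : Type} [Group J]

theorem pResidual_le (p : ℕ) {N : Subgroup J} (hN : N.Normal) {k : ℕ} (hk : N.index = p ^ k) :
    pResidual p J ≤ N :=
  sInf_le ⟨hN, k, hk⟩

/-- Elements of order prime to `p` lie in `O^p(J)`. -/
theorem mem_pResidual_of_coprime {p : ℕ} {x : J} (hx : (orderOf x).Coprime p) :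
    x ∈ pResidual p J := by
  refine (Subgroup.mem_sInf).mpr ?_
  rintro N ⟨hN, k, hk⟩
  have h1 : (QuotientGroup.mk x : J ⧸ N) ^ (p ^ k) = 1 := by
    have := pow_card_eq_one' (G := J ⧸ N) (x := QuotientGroup.mk x)
    rwa [← Subgroup.index_eq_card, hk] at this
  have h2 : (QuotientGroup.mk x : J ⧸ N) ^ orderOf x = 1 := by
    rw [← QuotientGroup.mk_pow, pow_orderOf_eq_one]; rfl
  have h3 : orderOf (QuotientGroup.mk x : J ⧸ N) ∣ Nat.gcd (orderOf x) (p ^ k) :=
    Nat.dvd_gcd (orderOf_dvd_of_pow_eq_one h2) (orderOf_dvd_of_pow_eq_one h1)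
  rw [Nat.Coprime.pow_right k hx, Nat.dvd_one, orderOf_eq_one_iff] at h3
  exact (QuotientGroup.eq_one_iff x).mp h3

/-- `J / O^p(J)` is a `p`-group. -/
theorem isPGroup_quotient_pResidual [Finite J] {p : ℕ} (hp : p.Prime) :
    IsPGroup p (J ⧸ pResidual p J) := by
  intro q
  obtain ⟨x, rfl⟩ := QuotientGroup.mk_surjective q
  obtain ⟨a, b, hb, hab⟩ := Nat.exists_eq_pow_mul_and_not_dvd (orderOf_pos x).ne' p hp.ne_one
  refine ⟨a, ?_⟩
  rw [← QuotientGroup.mk_pow, QuotientGroup.eq_one_iff]
  refine mem_pResidual_of_coprime ?_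
  have : orderOf (x ^ p ^ a) = b := by
    rw [orderOf_pow_of_dvd (pow_ne_zero _ hp.ne_zero) (hab ▸ Dvd.intro _ rfl), hab,
      Nat.mul_div_cancel_left _ (pow_pos hp.pos _)]
  rw [this]
  exact ((Nat.Prime.coprime_iff_not_dvd hp).mpr hb).symm

/-- For finite `J`, `O^p(J)` is the least normal subgroup of `p`-power index. -/
theorem isLeast_pResidual [Finite J] {p : ℕ} (hp : p.Prime) :
    IsLeast {N : Subgroup J | N.Normal ∧ ∃ k : ℕ, N.index = p ^ k} (pResidual p J) := by
  refine ⟨⟨inferInstance, ?_⟩, fun N hN => sInf_le hN⟩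
  have : Fact p.Prime := ⟨hp⟩
  obtain ⟨k, hk⟩ := (IsPGroup.iff_card).mp (isPGroup_quotient_pResidual (J := J) hp)
  exact ⟨k, by rw [Subgroup.index_eq_card, hk]⟩

/-- `O^p(J) = 1` for a finite `p`-group `J`. -/
theorem pResidual_eq_bot [Finite J] {p : ℕ} (hp : p.Prime) (hJ : IsPGroup p J) :
    pResidual p J = ⊥ := by
  have : Fact p.Prime := ⟨hp⟩
  obtain ⟨k, hk⟩ := (IsPGroup.iff_card).mp hJ
  exact le_bot_iff.mp (pResidual_le p inferInstance (k := k) (by rw [Subgroup.index_bot, hk]))

/-- `O^p(J) = J` for a finite group `J` of order prime to `p`. -/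
theorem pResidual_eq_top [Finite J] {p : ℕ} (hJ : (Nat.card J).Coprime p) :
    pResidual p J = ⊤ :=
  top_le_iff.mp fun x _ =>
    mem_pResidual_of_coprime (Nat.Coprime.coprime_dvd_left (orderOf_dvd_natCard x) hJ)

/-- Example: `O^2(S_3) = A_3`. -/
theorem pResidual_two_perm_three :
    pResidual 2 (Equiv.Perm (Fin 3)) = alternatingGroup (Fin 3) := by
  refine le_antisymm (pResidual_le 2 inferInstance (k := 1) (by
    rw [alternatingGroup.index_eq_two, pow_one])) fun x hx => mem_pResidual_of_coprime ?_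
  have h3 : Nat.card (alternatingGroup (Fin 3)) = 3 := by
    rw [nat_card_alternatingGroup]; simp [Nat.factorial]
  have h := orderOf_dvd_natCard (⟨x, hx⟩ : alternatingGroup (Fin 3))
  rw [h3, Subgroup.orderOf_mk] at h
  exact Nat.Coprime.coprime_dvd_left h (by norm_num)

/-- Example: `O^3(S_3) = S_3`: the transpositions generate `S_3`. -/
theorem pResidual_three_perm_three : pResidual 3 (Equiv.Perm (Fin 3)) = ⊤ := by
  rw [eq_top_iff, ← Equiv.Perm.closure_isSwap, Subgroup.closure_le]
  intro x hx
  refine mem_pResidual_of_coprime ?_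
  rw [hx.orderOf]
  norm_num

end PResidual

/-! ## 2. The cyclic length of a quotient -/

section Transport

variable {G G' : Type} [Group G] [Group G']

/-- `ℓ(G, H) = ℓ(φ G, φ H)` for a surjective homomorphism `φ` whose kernel lies in `H`. -/
theorem cyclicLength_map {φ : G →* G'} (hφ : Function.Surjective φ) (H : Subgroup G)
    (hH : φ.ker ≤ H) : cyclicLength (H.map φ) = cyclicLength H := by
  rw [← cyclicLength_comap hφ, Subgroup.comap_map_eq_self hH]

/-- `ℓ(G/N, H/N) = ℓ(G, H)` for a normal subgroup `N ≤ H`. -/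
theorem cyclicLength_map_mk' (N : Subgroup G) [N.Normal] (H : Subgroup G) (hH : N ≤ H) :
    cyclicLength (H.map (QuotientGroup.mk' N)) = cyclicLength H :=
  cyclicLength_map (QuotientGroup.mk'_surjective N) H (by rwa [QuotientGroup.ker_mk'])

/-- `ℓ(⊤, H) = ℓ(G, H)`, where `⊤` is `G` seen as a subgroup of itself. -/
theorem cyclicLength_subgroupOf_top (H : Subgroup G) :
    cyclicLength (H.subgroupOf ⊤) = cyclicLength H :=
  cyclicLength_comap (φ := (⊤ : Subgroup G).subtype) (fun g => ⟨⟨g, trivial⟩, rfl⟩) H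

end Transport

/-! ## 3. The third part of `Statement` contains the second part -/

section Specialise

variable {G : Type} [Group G]

/-- For a finite `p`-group `G` and `B = G` the test of Corollary 7.5 reads `n + ℓ(G, A) ≤ m`. -/
theorem generalGroupTest_top_iff [Finite G] {p : ℕ} (hp : p.Prime) (hG : IsPGroup p G)
    (A : Subgroup G) (m n : ℕ) :
    GeneralGroupTest p A m ⊤ n ↔ n + cyclicLength A ≤ m := by
  have key : ∀ A' : Subgroup G,
      cyclicLength ((A'.subgroupOf ⊤).map (QuotientGroup.mk' (pResidual p (⊤ : Subgroup G)))) =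
        cyclicLength A' := fun A' => by
    rw [cyclicLength_map_mk' _ _ (by
      rw [pResidual_eq_bot hp (hG.to_subgroup ⊤)]; exact bot_le), cyclicLength_subgroupOf_top]
  constructor
  · rintro ⟨A', ⟨g, rfl⟩, -, -, h⟩
    rwa [key, cyclicLength_conj] at h
  · intro h
    refine ⟨A.map (MulAut.conj 1).toMonoidHom, ⟨1, rfl⟩, le_top, ?_, ?_⟩
    · rw [pResidual_eq_bot hp (hG.to_subgroup _), pResidual_eq_bot hp (hG.to_subgroup _),
        Subgroup.map_bot, Subgroup.map_bot]
    · rwa [key, cyclicLength_conj]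

/-- If a family of propositions `P m` is described by the test of Corollary 7.5 for `B = G`, then the
least `r` with `P (n + r)` is `ℓ(G, H)`. -/
theorem isLeast_of_forall_iff_generalGroupTest [Finite G] {p : ℕ} (hp : p.Prime)
    (hG : IsPGroup p G) (H : Subgroup G) (n : ℕ) (P : ℕ → Prop)
    (h : ∀ m : ℕ, P m ↔ GeneralGroupTest p H m ⊤ n) :
    IsLeast {r : ℕ | P (n + r)} (cyclicLength H) := by
  have h' : ∀ r : ℕ, P (n + r) ↔ cyclicLength H ≤ r := fun r => by
    rw [h, generalGroupTest_top_iff hp hG]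
    omega
  exact ⟨(h' _).mpr le_rfl, fun r hr => (h' r).mp hr⟩

/-- The third part of `Statement` (Corollary 7.5) contains the second part (Theorem 1.1). -/
theorem isLeast_of_generalGroupTest [Finite G] {p : ℕ} (hp : p.Prime) (hG : IsPGroup p G)
    (K : ℕ → SymRing) (H : Subgroup G) (n : ℕ)
    (h : ∀ m : ℕ, AcyclicityImplication p K H m ⊤ n ↔ GeneralGroupTest p H m ⊤ n) :
    IsLeast {r : ℕ | FixedPointImplication p K H n r} (cyclicLength H) :=
  isLeast_of_forall_iff_generalGroupTest hp hG H n (fun m => AcyclicityImplication p K H m ⊤ n) h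

/-- The test of Corollary 7.5 is satisfied for `B = g A g⁻¹` and `m = n`. -/
theorem generalGroupTest_conj (p : ℕ) (A : Subgroup G) (g : G) (n : ℕ) :
    GeneralGroupTest p A n (A.map (MulAut.conj g).toMonoidHom) n := by
  refine ⟨_, ⟨g, rfl⟩, le_rfl, rfl, ?_⟩
  rw [Subgroup.subgroupOf_self, Subgroup.map_top_of_surjective _ (QuotientGroup.mk'_surjective _),
    cyclicLength_top]
  exact le_rfl

end Specialise

end Claimed.Open.R314
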