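import Claimed.Open.R314.Statement

/-!
# Result 314: `SymRing.IsMoravaK p n` determines `p` and `n`

`Statement` speaks about all ring spectra `K i` with `(K i).IsMoravaK p i`.  This file checks that the
predicate separates the primes and the heights: one ring spectrum cannot be a Morava `K`-theory for two
different pairs `(p, n)`.

* `SymRing.IsMoravaK.not_subsingleton_pi`: `π_{-q}(R) = π_0(R_q) ≠ 0` for `q = 2(p^n - 1)` (multiplication by the
  unit `w` is an equivalence `R_0 → R_q`, and `π_0(R_0)` has `p ≥ 2` elements);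
* `SymRing.IsMoravaK.unique`: `R.IsMoravaK p n` and `R.IsMoravaK p' n'` with `p` prime and `n, n' ≥ 1` imply
  `p = p'` and `n = n'`  (`p = |π_0 R|`; if `n < n'`, then `π_{-q}(R) = 0` by the sparseness clause for `n'`, as
  `0 < q < 2(p^{n'} - 1)`);
* `SymRing.IsMoravaK.injective_family`: hence the theories `K 1, K 2, …` of `Statement` are pairwise different.
-/

open Topology unitInterval

namespace Claimed.Open.R314

noncomputable section

namespace SymRing.IsMoravaK

variable {R : SymRing} {p n : ℕ}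

/-- `π_{-q}(R) = π_0(R_q)` is not zero, `q = 2(p^n - 1)`. -/
theorem not_subsingleton_pi (h : R.IsMoravaK p n) (hp : 2 ≤ p) :
    ¬ Subsingleton (HomotopyGroup (Fin 0) (R.space (2 * (p ^ n - 1) + 0))
      (R.base (2 * (p ^ n - 1) + 0))) := by
  obtain ⟨-, hcard, -, ⟨w, hw⟩, -⟩ := h
  intro hs
  have hb : R.mul (2 * (p ^ n - 1)) 0 w (R.base 0) = R.base (2 * (p ^ n - 1) + 0) :=
    R.mul_base_right _ _ w
  have hbij := (hw 0).2 (R.base 0) 0
  have hs' : Subsingleton (HomotopyGroup (Fin 0) (R.space (2 * (p ^ n - 1) + 0))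
      ((⟨R.mul _ 0 w, R.mul_cont_right _ 0 w⟩ : C(R.space 0, R.space (2 * (p ^ n - 1) + 0)))
        (R.base 0))) := by
    show Subsingleton (HomotopyGroup (Fin 0) (R.space (2 * (p ^ n - 1) + 0))
      (R.mul (2 * (p ^ n - 1)) 0 w (R.base 0)))
    rw [hb]
    exact hs
  have h0 : Subsingleton (HomotopyGroup (Fin 0) (R.space 0) (R.base 0)) :=
    hbij.1.subsingleton
  have := Finite.card_le_one_iff_subsingleton.mpr h0
  omega

/-- A ring spectrum is a Morava `K`-theory for at most one height at the prime `p`. -/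
theorem height_le {n' : ℕ} (h : R.IsMoravaK p n) (h' : R.IsMoravaK p n') (hp : 2 ≤ p)
    (hn : 1 ≤ n) : n' ≤ n := by
  by_contra hlt'
  have hlt : n < n' := Nat.lt_of_not_le hlt'
  refine h.not_subsingleton_pi hp (h'.2.2.1 _ 0 ?_)
  have ha : 2 ≤ p ^ n := le_trans hp (Nat.le_self_pow (by omega) p)
  have hab : p ^ n < p ^ n' := Nat.pow_lt_pow_right (by omega) hlt
  intro hdvd
  have hcast : ((2 * (p ^ n - 1) + 0 : ℕ) : ℤ) = 2 * ((p : ℤ) ^ n - 1) := by
    rw [Nat.add_zero]
    push_cast [Nat.cast_sub (by omega : 1 ≤ p ^ n)]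
    ring
  have ha' : (2 : ℤ) ≤ (p : ℤ) ^ n := by exact_mod_cast ha
  have hab' : (p : ℤ) ^ n < (p : ℤ) ^ n' := by exact_mod_cast hab
  have hz := Int.eq_zero_of_abs_lt_dvd hdvd (by
    rw [hcast, Nat.cast_zero, zero_sub, abs_neg, abs_of_nonneg (by linarith)]
    linarith)
  rw [hcast] at hz
  simp only [Nat.cast_zero, zero_sub] at hz
  linarith

/-- **`IsMoravaK` determines the prime and the height.** -/
theorem unique {p' n' : ℕ} (h : R.IsMoravaK p n) (h' : R.IsMoravaK p' n') (hp : p.Prime)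
    (hn : 1 ≤ n) (hn' : 1 ≤ n') : p = p' ∧ n = n' := by
  have hpp : p = p' := h.2.1.symm.trans h'.2.1
  subst hpp
  exact ⟨rfl, le_antisymm (h'.height_le h hp.two_le hn') (h.height_le h' hp.two_le hn)⟩

/-- The theories `K 1, K 2, …` in `Statement` are pairwise different. -/
theorem injective_family {K : ℕ → SymRing} (hp : p.Prime) (hK : ∀ i, 1 ≤ i → (K i).IsMoravaK p i)
    {i j : ℕ} (hi : 1 ≤ i) (hj : 1 ≤ j) (hij : K i = K j) : i = j :=
  ((hK i hi).unique (hij ▸ hK j hj) hp hi hj).2

end SymRing.IsMoravaK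

end

end Claimed.Open.R314
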