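import Claimed.Open.R314.SanityRfl

/-!
# Result 314: checks for the spectrum-level definitions of `Statement.lean`

1. Spectra all of whose spaces are points: their equivariant homotopy groups vanish, they are
   `p`-local, they are zero objects of the stable homotopy category, they are compact.
2. The point spectrum is a finite `p`-local genuine `G`-spectrum, and its geometric fixed points are
   `K(i)`-acyclic for all `i` and all subgroups: the premises of the implications in `Statement` can
   be met.  The second part of `Statement` holds for `H = G`.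
3. Suspension spectra `Σ^∞ A` of pointed `G`-spaces; the sphere spectrum, the orbit spectra
   `Σ^∞ (G/K)₊`.
4. `Φ^H Σ^∞ A = Σ^∞ A^H`: the canonical map of spectra is bijective in every level.
5. The zero ring spectrum is a symmetric ring spectrum and is not a Morava `K`-theory.
6. The homotopy groups descend to the stable homotopy category; "`p`-local" and "finite `p`-local"
   only depend on the isomorphism class in the stable homotopy category.
-/

open CategoryTheory Topology unitInterval
open scoped Topology.Homotopy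

namespace Claimed.Open.R314

noncomputable section

/-! ## 1. Trivial spectra -/

namespace GSpt

variable {G : Type} [Group G] {N : Type} [MulAction G N]

/-- The point spectrum. -/
def pt (G : Type) [Group G] (N : Type) [MulAction G N] : GSpt G N where
  space _ := PUnit
  act _ := { smul := fun _ x => x, one_smul := fun _ => rfl, mul_smul := fun _ _ _ => rfl }
  cont _ := ⟨fun _ => continuous_id⟩
  base _ := PUnit.unit
  smul_base _ _ := rfl
  str _ := ContinuousMap.const _ GenLoop.const
  str_base _ _ := rfl
  str_smul _ _ _ _ := rfl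

/-- `T` is a trivial spectrum: all its spaces are points. -/
def IsTrivial (T : GSpt G N) : Prop := ∀ n, Subsingleton (T.space n)

theorem isTrivial_pt : (pt G N).IsTrivial := fun _ => inferInstanceAs (Subsingleton PUnit)

theorem IsTrivial.sh {T : GSpt G N} (hT : T.IsTrivial) : (sh.obj T).IsTrivial :=
  fun n => hT (n + 1)

theorem IsTrivial.shIter {T : GSpt G N} (hT : T.IsTrivial) (m : ℕ) :
    ((shIter m).obj T).IsTrivial := by
  induction m generalizing T with
  | zero => exact hT
  | succ m ih => exact ih hT.sh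

/-- The map to a trivial spectrum. -/
def toTrivial {T : GSpt G N} (hT : T.IsTrivial) (X : GSpt G N) : X ⟶ T where
  map n := ContinuousMap.const _ (T.base n)
  map_base _ := rfl
  map_smul n g _ := (T.smul_base n g).symm
  comm n _ _ := (hT (n + 1)).elim _ _

/-- The map from a trivial spectrum. -/
def fromTrivial {T : GSpt G N} (_hT : T.IsTrivial) (X : GSpt G N) : T ⟶ X where
  map n := ContinuousMap.const _ (X.base n)
  map_base _ := rfl
  map_smul n g _ := (X.smul_base n g).symm
  comm n _ t := (X.str_base n t).symm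

theorem eq_toTrivial {T : GSpt G N} (hT : T.IsTrivial) {X : GSpt G N} (f : X ⟶ T) :
    f = toTrivial hT X := by
  apply Hom.ext; funext n; ext x
  exact (hT n).elim _ _

theorem eq_fromTrivial {T : GSpt G N} (hT : T.IsTrivial) {X : GSpt G N} (f : T ⟶ X) :
    f = fromTrivial hT X := by
  apply Hom.ext; funext n; ext x
  rw [(hT n).elim x (T.base n)]
  exact f.map_base n

theorem IsTrivial.subsingleton_homotopyGroup {T : GSpt G N} (hT : T.IsTrivial) (H : Subgroup G)
    (M : Type) (n : ℕ) : Subsingleton (HomotopyGroup M (T.LoopFix H n) (T.loopFixBase H n)) := by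
  refine ⟨fun x y => ?_⟩
  induction x using Quotient.inductionOn with
  | h γ =>
    induction y using Quotient.inductionOn with
    | h γ' =>
      congr 1
      ext t
      apply Subtype.ext
      ext s
      exact (hT n).elim _ _

/-- The equivariant stable homotopy groups of a trivial spectrum vanish. -/
theorem IsTrivial.subsingleton_stablePi {T : GSpt G N} (hT : T.IsTrivial) (H : Subgroup G)
    (k : ℕ) : Subsingleton ((stablePi H k).obj T) := by
  refine ⟨fun x y => ?_⟩
  let F : ℕ ⥤ AddCommGrpCat.{0} := (piSeq H k).obj T ⋙ CommGrpCat.toAddCommGrp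
  have key : ∀ z : (Limits.colimit F : AddCommGrpCat.{0}), z = 0 := by
    intro z
    obtain ⟨j, w, rfl⟩ := Limits.Concrete.colimit_exists_rep F z
    have hs : Subsingleton (F.obj j) :=
      have := hT.subsingleton_homotopyGroup H (Fin (k + 2)) j
      inferInstanceAs (Subsingleton
        (Additive (HomotopyGroup (Fin (k + 2)) (T.LoopFix H j) (T.loopFixBase H j))))
    rw [Subsingleton.elim w 0, map_zero]
  exact (key x).trans (key y).symm

/-- A trivial spectrum is `p`-local. -/
theorem IsTrivial.isPLocal {T : GSpt G N} (hT : T.IsTrivial) (p : ℕ) : T.IsPLocal p := by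
  intro H k m q _ _
  have := (hT.shIter m).subsingleton_stablePi H k
  exact ⟨fun _ _ _ => Subsingleton.elim _ _, fun y => ⟨y, Subsingleton.elim _ _⟩⟩

end GSpt

namespace GSH

variable {G : Type} [Group G] {N : Type} [MulAction G N]

section Zero

variable {T : GSpt G N} (hT : T.IsTrivial)

/-- The canonical map to a trivial spectrum in the stable homotopy category. -/
def toZero (X : GSH G N) : X ⟶ Q.obj T := Q.map (GSpt.toTrivial hT X.as.obj)

/-- The canonical map from a trivial spectrum in the stable homotopy category. -/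
def fromZero (X : GSH G N) : Q.obj T ⟶ X := Q.map (GSpt.fromTrivial hT X.as.obj)

theorem comp_toZero {X Y : GSH G N} (φ : X ⟶ Y) : φ ≫ toZero hT Y = toZero hT X := by
  let P : MorphismProperty (GSH G N) := fun X Y φ => φ ≫ toZero hT Y = toZero hT X
  have hP : P.IsStableUnderComposition := ⟨fun {X Y Z} f g hf hg => by
    show (f ≫ g) ≫ toZero hT Z = toZero hT X
    rw [Category.assoc, show g ≫ toZero hT Z = toZero hT Y from hg]; exact hf⟩
  have : P = ⊤ := Localization.Construction.morphismProperty_eq_top' P
    (fun X Y f => by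
      show Q.map f ≫ Q.map (GSpt.toTrivial hT Y) = Q.map (GSpt.toTrivial hT X)
      rw [← Q.map_comp, GSpt.eq_toTrivial hT (f ≫ GSpt.toTrivial hT Y)])
    (fun {X Y} e he => by
      show e.inv ≫ toZero hT X = toZero hT Y
      rw [← show e.hom ≫ toZero hT Y = toZero hT X from he, e.inv_hom_id_assoc])
  have h : P φ := by rw [this]; trivial
  exact h

theorem fromZero_comp {X Y : GSH G N} (φ : X ⟶ Y) : fromZero hT X ≫ φ = fromZero hT Y := by
  let P : MorphismProperty (GSH G N) := fun X Y φ => fromZero hT X ≫ φ = fromZero hT Y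
  have hP : P.IsStableUnderComposition := ⟨fun {X Y Z} f g hf hg => by
    show fromZero hT X ≫ f ≫ g = fromZero hT Z
    rw [← Category.assoc, show fromZero hT X ≫ f = fromZero hT Y from hf]; exact hg⟩
  have : P = ⊤ := Localization.Construction.morphismProperty_eq_top' P
    (fun X Y f => by
      show Q.map (GSpt.fromTrivial hT X) ≫ Q.map f = Q.map (GSpt.fromTrivial hT Y)
      rw [← Q.map_comp, GSpt.eq_fromTrivial hT (GSpt.fromTrivial hT X ≫ f)])
    (fun {X Y} e he => by
      show fromZero hT Y ≫ e.inv = fromZero hT X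
      rw [← show fromZero hT X ≫ e.hom = fromZero hT Y from he, Category.assoc, e.hom_inv_id,
        Category.comp_id])
  have h : P φ := by rw [this]; trivial
  exact h

theorem toZero_self : toZero hT (Q.obj T) = 𝟙 (Q.obj T) := by
  show Q.map (GSpt.toTrivial hT T) = 𝟙 _
  rw [← GSpt.eq_toTrivial hT (𝟙 T), Q.map_id]

theorem fromZero_self : fromZero hT (Q.obj T) = 𝟙 (Q.obj T) := by
  show Q.map (GSpt.fromTrivial hT T) = 𝟙 _
  rw [← GSpt.eq_fromTrivial hT (𝟙 T), Q.map_id]

include hT in
/-- **A trivial spectrum is a zero object of the stable homotopy category.** -/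
theorem isZero_of_isTrivial : Limits.IsZero (Q.obj T) where
  unique_to Y := ⟨⟨⟨fromZero hT Y⟩, fun φ => by
    show φ = fromZero hT Y
    rw [← fromZero_comp hT φ, fromZero_self, Category.id_comp]⟩⟩
  unique_from X := ⟨⟨⟨toZero hT X⟩, fun φ => by
    show φ = toZero hT X
    rw [← comp_toZero hT φ, toZero_self, Category.comp_id]⟩⟩

end Zero

end GSH

section Compact

variable {G : Type} [Group G] {N : Type} [MulAction G N]

open Limits in
/-- A trivial spectrum is a compact object of the `p`-local stable homotopy category. -/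
theorem GSpt.IsTrivial.isCompactPLocal {T : GSpt G N} (hT : T.IsTrivial) (p : ℕ) :
    T.IsCompactPLocal p := by
  refine ⟨hT.isPLocal p, fun ι Y _ c _ f => ?_⟩
  have hz := GSH.isZero_of_isTrivial hT
  let c' : Cofan fun i : (∅ : Finset ι) => GSH.Q.obj (Y i) :=
    Cofan.mk (GSH.Q.obj T) (fun i => absurd i.2 (Finset.notMem_empty _))
  have hc' : IsColimit c' := Cofan.IsColimit.mk c' (fun s => hz.to_ _)
    (fun s i => absurd i.2 (Finset.notMem_empty _)) (fun s m _ => hz.eq_of_src _ _)
  exact ⟨∅, c', hc', 𝟙 _, hz.eq_of_src _ _⟩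

/-- The point spectrum is a finite `p`-local genuine `G`-spectrum. -/
theorem GSpt.isCompactPLocal_pt (p : ℕ) : (GSpt.pt G N).IsCompactPLocal p :=
  GSpt.isTrivial_pt.isCompactPLocal p

theorem GSpt.IsTrivial.geomFix [Finite N] {T : GSpt G N} (hT : T.IsTrivial) (H : Subgroup G) :
    (T.geomFix H).IsTrivial := fun n =>
  have := hT n
  inferInstanceAs (Subsingleton ↥(MulAction.fixedPoints H (T.space n)))

theorem Spt.cohomologyVanishes_of_isTrivial {d : ℕ} {A : Spt d} (hA : A.IsTrivial) (K : Spt 1) :
    A.CohomologyVanishes K :=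
  fun _ => ⟨fun _ _ => (GSH.isZero_of_isTrivial hA).eq_of_src _ _⟩

theorem Spt.rationallyAcyclic_of_isTrivial {d : ℕ} {A : Spt d} (hA : A.IsTrivial) :
    A.RationallyAcyclic := fun k m _ =>
  have := (hA.shIter m).subsingleton_stablePi ⊤ k
  ⟨1, one_pos, Subsingleton.elim _ _⟩

end Compact

/-! ## 2. The premises can be met -/

section Main

variable {G : Type} [Group G] [Finite G]

/-- The geometric fixed points of the point spectrum are `K(i)`-acyclic: the premise of the
implications in `Statement` can be met. -/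
theorem geomAcyclic_pt (K : ℕ → SymRing) (i : ℕ) (H : Subgroup G) :
    GeomAcyclic K i H (GSpt.pt G G) := by
  unfold GeomAcyclic
  split_ifs
  · exact Spt.rationallyAcyclic_of_isTrivial (GSpt.isTrivial_pt.geomFix H)
  · exact Spt.cohomologyVanishes_of_isTrivial (GSpt.isTrivial_pt.geomFix H) _

/-- For `H = G` the second part of `Statement` holds: both numbers are `0`. -/
theorem isLeast_top' (p : ℕ) (K : ℕ → SymRing) (n : ℕ) :
    IsLeast {r : ℕ | FixedPointImplication p K (⊤ : Subgroup G) n r} 0 :=
  ⟨fun _ _ h => h, fun _ _ => Nat.zero_le _⟩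

end Main

/-! ## 3. Suspension spectra -/

section Susp

variable {G : Type} [Group G] (N : Type) [MulAction G N]
variable (A : Type) [TopologicalSpace A] [MulAction G A] [ContinuousConstSMul G A] (a₀ : A)

/-- The relation on `I^{Fin n × N} × A` collapsing `∂I^{Fin n × N} × A ∪ I^{Fin n × N} × {a₀}` to a
point. -/
def SuspRel (n : ℕ) (p q : (Fin n × N → I) × A) : Prop :=
  (p.1 ∈ Cube.boundary (Fin n × N) ∨ p.2 = a₀) ∧ (q.1 ∈ Cube.boundary (Fin n × N) ∨ q.2 = a₀)

/-- `S^{n·ℝ[N]} ∧ A`. -/
def SuspSpace (n : ℕ) : Type := Quot (SuspRel N A a₀ n)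

instance suspTop (n : ℕ) : TopologicalSpace (SuspSpace N A a₀ n) :=
  inferInstanceAs (TopologicalSpace (Quot (SuspRel N A a₀ n)))

/-- The base point. -/
def suspBase (n : ℕ) : SuspSpace N A a₀ n := Quot.mk _ (fun _ => 0, a₀)

omit [TopologicalSpace A] [MulAction G A] [ContinuousConstSMul G A] [MulAction G N] [Group G] in
lemma suspMk_eq_base (n : ℕ) (p : (Fin n × N → I) × A)
    (hp : p.1 ∈ Cube.boundary (Fin n × N) ∨ p.2 = a₀) :
    (Quot.mk _ p : SuspSpace N A a₀ n) = suspBase N A a₀ n :=
  Quot.sound ⟨hp, Or.inr rfl⟩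

variable (h₀ : ∀ g : G, g • a₀ = a₀)

/-- The diagonal action on `I^{Fin n × N} × A`. -/
def suspAct (n : ℕ) (g : G) (p : (Fin n × N → I) × A) : (Fin n × N → I) × A :=
  (fun q => p.1 (q.1, g⁻¹ • q.2), g • p.2)

include h₀ in
omit [TopologicalSpace A] [ContinuousConstSMul G A] in
lemma suspAct_rel (n : ℕ) (g : G) (p : (Fin n × N → I) × A)
    (hp : p.1 ∈ Cube.boundary (Fin n × N) ∨ p.2 = a₀) :
    (suspAct N A n g p).1 ∈ Cube.boundary (Fin n × N) ∨ (suspAct N A n g p).2 = a₀ := by
  rcases hp with ⟨⟨j, i⟩, hji⟩ | hp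
  · refine Or.inl ⟨(j, g • i), ?_⟩
    simpa [suspAct] using hji
  · refine Or.inr ?_
    simp [suspAct, hp, h₀]

/-- The action of `G` on `S^{n·ℝ[N]} ∧ A`. -/
@[reducible] def suspMulAction (n : ℕ) : MulAction G (SuspSpace N A a₀ n) where
  smul g := Quot.map (suspAct N A n g) (fun p q h =>
    ⟨suspAct_rel N A a₀ h₀ n g p h.1, suspAct_rel N A a₀ h₀ n g q h.2⟩)
  one_smul x := by
    induction x using Quot.inductionOn with
    | h p => exact congrArg (Quot.mk _) (by simp [suspAct])
  mul_smul g h x := by
    induction x using Quot.inductionOn with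
    | h p => exact congrArg (Quot.mk _) (by simp [suspAct, mul_smul])

/-- The loop `s ↦ [s, t, a]` in `S^{(n+1)·ℝ[N]} ∧ A` attached to `(t, a)`. -/
def suspStrAux (n : ℕ) (p : (Fin n × N → I) × A) :
    Ω^ N (SuspSpace N A a₀ (n + 1)) (suspBase N A a₀ (n + 1)) :=
  ⟨⟨fun s => Quot.mk _ (fun q => Fin.cases (s q.2) (fun j => p.1 (j, q.2)) q.1, p.2),
    continuous_quot_mk.comp (by
      refine Continuous.prodMk (continuous_pi ?_) continuous_const
      rintro ⟨j, i⟩
      induction j using Fin.cases with
      | zero => exact continuous_apply i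
      | succ j => exact continuous_const)⟩, by
    rintro s ⟨i, hi⟩
    exact suspMk_eq_base N A a₀ _ _ (Or.inl ⟨(0, i), hi⟩)⟩

omit [MulAction G A] [ContinuousConstSMul G A] [MulAction G N] [Group G] in
lemma suspStrAux_eq_const (n : ℕ) (p : (Fin n × N → I) × A)
    (hp : p.1 ∈ Cube.boundary (Fin n × N) ∨ p.2 = a₀) (s : N → I) :
    suspStrAux N A a₀ n p s = suspBase N A a₀ (n + 1) := by
  refine suspMk_eq_base N A a₀ _ _ ?_
  rcases hp with ⟨⟨j, i⟩, hji⟩ | hp
  · exact Or.inl ⟨(j.succ, i), hji⟩
  · exact Or.inr hp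

/-- The suspension `G`-spectrum `Σ^∞ A` of a pointed `G`-space `(A, a₀)`:
`(Σ^∞ A)_n = S^{n·ℝ[N]} ∧ A`. -/
def GSpt.suspSpec : GSpt G N :=
  letI : ∀ n, MulAction G (SuspSpace N A a₀ n) := suspMulAction N A a₀ h₀
  { space := SuspSpace N A a₀
    cont := fun n => ⟨fun g => by
      refine continuous_quot_lift _ (continuous_quot_mk.comp ?_)
      unfold suspAct
      exact Continuous.prodMk (continuous_pi fun q => (continuous_apply _).comp continuous_fst)
        ((continuous_const_smul g).comp continuous_snd)⟩
    base := suspBase N A a₀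
    smul_base := fun n g => by
      refine suspMk_eq_base N A a₀ _ _ (Or.inr ?_)
      exact h₀ g
    str := fun n =>
      { toFun := Quot.lift (suspStrAux N A a₀ n) (fun p q h => by
          ext s
          rw [suspStrAux_eq_const N A a₀ n p h.1, suspStrAux_eq_const N A a₀ n q h.2])
        continuous_toFun := by
          refine continuous_quot_lift _ ?_
          refine Continuous.subtype_mk ?_ _
          refine ContinuousMap.continuous_of_continuous_uncurry _ ?_
          refine continuous_quot_mk.comp ?_
          refine Continuous.prodMk (continuous_pi ?_) (continuous_snd.comp continuous_fst)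
          rintro ⟨j, i⟩
          induction j using Fin.cases with
          | zero => exact (continuous_apply i).comp continuous_snd
          | succ j => exact (continuous_apply (j, i)).comp (continuous_fst.comp continuous_fst) }
    str_base := fun n s => suspStrAux_eq_const N A a₀ n _ (Or.inr rfl) s
    str_smul := fun n g x s => by
      induction x using Quot.inductionOn with
      | h p =>
        refine congrArg (Quot.mk _) ?_
        refine Prod.ext ?_ rfl
        funext ⟨j, i⟩
        induction j using Fin.cases with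
        | zero => simp [suspAct]
        | succ j => simp [suspAct] }

end Susp

section Examples

variable (G : Type) [Group G]

/-- The trivial action of `G` on `S⁰ = {false, true}`. -/
@[reducible] def boolAct : MulAction G Bool where
  smul _ b := b
  one_smul _ := rfl
  mul_smul _ _ _ := rfl

/-- The genuine `G`-sphere spectrum `𝕊 = Σ^∞ S⁰`, with `𝕊_n = S^{nρ}`. -/
def GSpt.sphere : GSpt G G :=
  letI := boolAct G
  haveI : ContinuousConstSMul G Bool := ⟨fun _ => continuous_id⟩
  GSpt.suspSpec G Bool false (fun _ => rfl)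

/-- The action of `G` on `(G/K)₊`. -/
@[reducible] def orbitAct (K : Subgroup G) : MulAction G (Option (G ⧸ K)) where
  smul g := Option.map (g • ·)
  one_smul x := by
    cases x with
    | none => rfl
    | some y => exact congrArg some (one_smul G y)
  mul_smul g h x := by
    cases x with
    | none => rfl
    | some y => exact congrArg some (mul_smul g h y)

/-- The orbit spectrum `Σ^∞ (G/K)₊`; these spectra generate the finite genuine `G`-spectra. -/
def GSpt.orbit (K : Subgroup G) : GSpt G G :=
  letI := orbitAct G K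
  letI : TopologicalSpace (Option (G ⧸ K)) := ⊥
  haveI : DiscreteTopology (Option (G ⧸ K)) := ⟨rfl⟩
  haveI : ContinuousConstSMul G (Option (G ⧸ K)) := ⟨fun _ => continuous_of_discreteTopology⟩
  GSpt.suspSpec G (Option (G ⧸ K)) none (fun _ => rfl)

end Examples

/-! ## 4. `Φ^H Σ^∞ A = Σ^∞ A^H` -/

section GeomFixSusp

variable {G : Type} [Group G] (N : Type) [MulAction G N]
variable (A : Type) [TopologicalSpace A] [MulAction G A] [ContinuousConstSMul G A] (a₀ : A)

omit [TopologicalSpace A] [MulAction G A] [ContinuousConstSMul G A] [MulAction G N] [Group G] in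
/-- Two points of `I^{Fin n × N} × A` have the same image in `S^{n·ℝ[N]} ∧ A` iff they are equal or
both are collapsed. -/
lemma suspMk_eq_iff (n : ℕ) (p q : (Fin n × N → I) × A) :
    (Quot.mk _ p : SuspSpace N A a₀ n) = Quot.mk _ q ↔ p = q ∨ SuspRel N A a₀ n p q := by
  constructor
  · intro h
    have key : ∀ x y, Relation.EqvGen (SuspRel N A a₀ n) x y → x = y ∨ SuspRel N A a₀ n x y := by
      intro x y hxy
      induction hxy with
      | rel x y h => exact Or.inr h
      | refl x => exact Or.inl rfl
      | symm x y _ ih =>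
        rcases ih with rfl | h'
        · exact Or.inl rfl
        · exact Or.inr ⟨h'.2, h'.1⟩
      | trans x y z _ _ ih₁ ih₂ =>
        rcases ih₁ with rfl | h₁
        · exact ih₂
        · rcases ih₂ with rfl | h₂
          · exact Or.inr h₁
          · exact Or.inr ⟨h₁.1, h₂.2⟩
    exact key p q (Quot.eqvGen_exact h)
  · rintro (rfl | h)
    · rfl
    · exact Quot.sound h

variable (h₀ : ∀ g : G, g • a₀ = a₀) [Finite N] (H : Subgroup G)

/-- The base point of `A^H`. -/
def fixBase : MulAction.fixedPoints H A := ⟨a₀, fun h => h₀ h⟩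

/-- `(t, a) ↦ (t ∘ orbit, a)`, from `I^{Fin n × Fin d} × A^H` to `I^{Fin n × N} × A`. -/
def geomFixSuspAux (n : ℕ)
    (p : (Fin n × Fin (orbitCount H N) → I) × MulAction.fixedPoints H A) : (Fin n × N → I) × A :=
  (fun q => p.1 (q.1, orbitEnum H N (Quotient.mk _ q.2)), p.2.1)

omit [TopologicalSpace A] [ContinuousConstSMul G A] in
lemma geomFixSuspAux_rel (n : ℕ)
    (p : (Fin n × Fin (orbitCount H N) → I) × MulAction.fixedPoints H A) :
    ((geomFixSuspAux N A H n p).1 ∈ Cube.boundary (Fin n × N) ∨ (geomFixSuspAux N A H n p).2 = a₀) ↔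
      (p.1 ∈ Cube.boundary (Fin n × Fin (orbitCount H N)) ∨ p.2 = fixBase A a₀ h₀ H) := by
  refine or_congr ⟨?_, ?_⟩ ⟨fun h => Subtype.ext h, fun h => congrArg Subtype.val h⟩
  · rintro ⟨⟨j, i⟩, hji⟩
    exact ⟨(j, _), hji⟩
  · rintro ⟨⟨j, c⟩, hjc⟩
    obtain ⟨i, hi⟩ := Quotient.exists_rep ((orbitEnum H N).symm c)
    refine ⟨(j, i), ?_⟩
    show p.1 (j, orbitEnum H N (Quotient.mk _ i)) = 0 ∨ p.1 (j, orbitEnum H N (Quotient.mk _ i)) = 1
    rw [hi, Equiv.apply_symm_apply]
    exact hjc

/-- The canonical map `S^{n·ℝ^d} ∧ A^H → (S^{n·ℝ[N]} ∧ A)^H`. -/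
def geomFixSuspMap (n : ℕ) :
    C(SuspSpace (Fin (orbitCount H N)) (MulAction.fixedPoints H A) (fixBase A a₀ h₀ H) n,
      ((GSpt.suspSpec N A a₀ h₀).geomFix H).space n) where
  toFun := Quot.lift (fun p => ⟨Quot.mk _ (geomFixSuspAux N A H n p), by
      rintro ⟨h, hh⟩
      refine congrArg (Quot.mk _) (Prod.ext ?_ (p.2.2 ⟨h, hh⟩))
      funext q
      show p.1 (q.1, orbitEnum H N (Quotient.mk _ (h⁻¹ • q.2))) = _
      have : (Quotient.mk (MulAction.orbitRel H N) (h⁻¹ • q.2)) = Quotient.mk _ q.2 :=
        Quotient.sound ⟨⟨h⁻¹, H.inv_mem hh⟩, rfl⟩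
      rw [this]; rfl⟩) (by
    intro p q hpq
    apply Subtype.ext
    exact Quot.sound ⟨(geomFixSuspAux_rel N A a₀ h₀ H n p).mpr hpq.1,
      (geomFixSuspAux_rel N A a₀ h₀ H n q).mpr hpq.2⟩)
  continuous_toFun := by
    refine continuous_quot_lift _ ?_
    refine Continuous.subtype_mk (continuous_quot_mk.comp ?_) _
    unfold geomFixSuspAux
    fun_prop

/-- The canonical map of spectra `Σ^∞ A^H → Φ^H Σ^∞ A`. -/
def geomFixSusp :
    GSpt.suspSpec (G := PUnit.{1}) (Fin (orbitCount H N)) (MulAction.fixedPoints H A)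
      (fixBase A a₀ h₀ H) (fun _ => rfl) ⟶ (GSpt.suspSpec N A a₀ h₀).geomFix H where
  map := geomFixSuspMap N A a₀ h₀ H
  map_base _ := rfl
  map_smul n g x := by
    induction x using Quot.inductionOn with
    | h p => rfl
  comm n x s := by
    induction x using Quot.inductionOn with
    | h p =>
      apply Subtype.ext
      refine congrArg (Quot.mk _) (Prod.ext ?_ rfl)
      funext ⟨j, i⟩
      induction j using Fin.cases with
      | zero => rfl
      | succ j => rfl

/-- `Φ^H Σ^∞ A = Σ^∞ A^H`: the canonical map is bijective in every level. -/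
theorem geomFixSusp_bijective (n : ℕ) :
    Function.Bijective ((geomFixSusp N A a₀ h₀ H).map n) := by
  constructor
  · intro x y hxy
    induction x using Quot.inductionOn with
    | h p =>
      induction y using Quot.inductionOn with
      | h q =>
        have h1 : (Quot.mk _ (geomFixSuspAux N A H n p) : SuspSpace N A a₀ n) =
            Quot.mk _ (geomFixSuspAux N A H n q) := congrArg Subtype.val hxy
        rcases (suspMk_eq_iff N A a₀ n _ _).mp h1 with h2 | h2
        · refine congrArg (Quot.mk _) (Prod.ext ?_ (Subtype.ext (congrArg Prod.snd h2)))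
          funext ⟨j, c⟩
          obtain ⟨i, hi⟩ := Quotient.exists_rep ((orbitEnum H N).symm c)
          have h3 := congrFun (congrArg Prod.fst h2) (j, i)
          change p.1 (j, orbitEnum H N (Quotient.mk _ i)) =
            q.1 (j, orbitEnum H N (Quotient.mk _ i)) at h3
          rwa [hi, Equiv.apply_symm_apply] at h3
        · exact Quot.sound ⟨(geomFixSuspAux_rel N A a₀ h₀ H n p).mp h2.1,
            (geomFixSuspAux_rel N A a₀ h₀ H n q).mp h2.2⟩
  · rintro ⟨y, hy⟩
    induction y using Quot.inductionOn with
    | h q =>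
      by_cases hq : q.1 ∈ Cube.boundary (Fin n × N) ∨ q.2 = a₀
      · refine ⟨suspBase _ _ _ n, Subtype.ext ?_⟩
        exact (suspMk_eq_base N A a₀ n _ (Or.inr rfl)).trans (suspMk_eq_base N A a₀ n q hq).symm
      · -- `q` is not collapsed, so it is fixed by `H` in `I^{Fin n × N} × A`
        have hfix : ∀ h ∈ H, suspAct N A n h q = q := by
          intro h hh
          have h1 : (Quot.mk _ (suspAct N A n h q) : SuspSpace N A a₀ n) = Quot.mk _ q :=
            hy ⟨h, hh⟩
          rcases (suspMk_eq_iff N A a₀ n _ _).mp h1 with h2 | h2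
          · exact h2
          · exact absurd h2.2 hq
        refine ⟨Quot.mk _ (fun r => q.1 (r.1, ((orbitEnum H N).symm r.2).out),
          ⟨q.2, fun h => congrArg Prod.snd (hfix h.1 h.2)⟩), Subtype.ext ?_⟩
        refine congrArg (Quot.mk _) (Prod.ext ?_ rfl)
        funext ⟨j, i⟩
        show q.1 (j, ((orbitEnum H N).symm (orbitEnum H N (Quotient.mk _ i))).out) = q.1 (j, i)
        rw [Equiv.symm_apply_apply]
        obtain ⟨⟨h, hh⟩, hi⟩ : (Quotient.mk (MulAction.orbitRel H N) i).out ∈
            MulAction.orbit H i :=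
          Quotient.exact (s := MulAction.orbitRel H N) (Quotient.out_eq _)
        have h3 := congrFun (congrArg Prod.fst (hfix h hh)) (j, h • i)
        change q.1 (j, h⁻¹ • h • i) = q.1 (j, h • i) at h3
        rw [inv_smul_smul] at h3
        rw [← hi]
        exact h3.symm

end GeomFixSusp

/-! ## 5. The zero ring spectrum -/

/-- The zero ring spectrum: all spaces are points. -/
def SymRing.zero : SymRing where
  space _ := PUnit
  base _ := PUnit.unit
  act _ _ x := x
  act_cont _ _ := continuous_id
  act_one _ _ := rfl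
  act_mul _ _ _ _ := rfl
  act_base _ _ := rfl
  mul _ _ _ _ := PUnit.unit
  mul_kcont _ _ _ _ _ _ _ := continuous_const
  mul_cont_left _ _ _ := continuous_const
  mul_cont_right _ _ _ := continuous_const
  mul_base_left _ _ _ := rfl
  mul_base_right _ _ _ := rfl
  one := PUnit.unit
  ι := Path.refl _
  str_cont _ := continuous_const
  mul_assoc _ _ _ _ _ _ := HEq.rfl
  mul_one _ _ := rfl
  one_mul _ _ := HEq.rfl
  mul_act _ _ _ _ _ _ := rfl
  central _ _ _ := HEq.rfl

/-- The zero ring spectrum is not a Morava `K`-theory. -/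
theorem SymRing.not_isMoravaK_zero {p : ℕ} (hp : p.Prime) (n : ℕ) :
    ¬ SymRing.zero.IsMoravaK p n := by
  rintro ⟨-, hcard, -⟩
  have hs : Subsingleton (HomotopyGroup (Fin 0) (SymRing.zero.space 0) (SymRing.zero.base 0)) := by
    refine ⟨fun x y => ?_⟩
    induction x using Quotient.inductionOn with
    | h γ =>
      induction y using Quotient.inductionOn with
      | h γ' =>
        congr 1
        ext t
        exact Subsingleton.elim (α := PUnit) _ _
  have := Finite.card_le_one_iff_subsingleton.mpr hs
  have := hp.two_le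
  omega

/-! ## 6. Homotopy invariance of the notions defined on point-set spectra -/

section Invariance

variable {G : Type} [Group G] {N : Type} [MulAction G N]

/-- The groups `π_{k+2}^H(sh^m X)` as functors on the stable homotopy category. -/
def GSH.pi (H : Subgroup G) (k m : ℕ) : GSH G N ⥤ AddCommGrpCat.{0} :=
  Localization.Construction.lift (GSpt.shIter m ⋙ GSpt.stablePi H k) (fun _ _ _ hf => hf H k m)

theorem GSH.pi_obj (H : Subgroup G) (k m : ℕ) (X : GSpt G N) :
    (GSH.pi H k m).obj (GSH.Q.obj X) = (GSpt.stablePi H k).obj ((GSpt.shIter m).obj X) := rfl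

/-- Being `p`-local only depends on the isomorphism class in the stable homotopy category. -/
theorem GSpt.IsPLocal.of_iso {p : ℕ} {X Y : GSpt G N} (hX : X.IsPLocal p)
    (e : GSH.Q.obj X ≅ GSH.Q.obj Y) : Y.IsPLocal p := by
  intro H k m q hq hqp
  let E := (GSH.pi H k m).mapIso e
  have hcomm : ∀ x : (GSpt.stablePi H k).obj ((GSpt.shIter m).obj X),
      E.hom.hom (q • x) = q • E.hom.hom x := fun x => map_nsmul E.hom.hom q x
  have hbij : Function.Bijective E.hom.hom := by
    refine ⟨fun a b hab => ?_, fun y => ⟨E.inv.hom y, ?_⟩⟩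
    · have := congrArg E.inv.hom hab
      simpa using this
    · simp
  have h := hX H k m q hq hqp
  constructor
  · intro a b hab
    obtain ⟨a', rfl⟩ := hbij.2 a
    obtain ⟨b', rfl⟩ := hbij.2 b
    have : E.hom.hom (q • a') = E.hom.hom (q • b') := (hcomm a').trans (hab.trans (hcomm b').symm)
    exact congrArg _ (h.1 (hbij.1 this))
  · intro y
    obtain ⟨y', rfl⟩ := hbij.2 y
    obtain ⟨x, hx⟩ := h.2 y'
    exact ⟨E.hom.hom x, (hcomm x).symm.trans (congrArg _ hx)⟩

/-- Being a finite `p`-local spectrum only depends on the isomorphism class in the stable homotopy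
category. -/
theorem GSpt.IsCompactPLocal.of_iso {p : ℕ} {X Y : GSpt G N} (hX : X.IsCompactPLocal p)
    (e : GSH.Q.obj X ≅ GSH.Q.obj Y) : Y.IsCompactPLocal p := by
  refine ⟨hX.1.of_iso e, fun ι Z hZ c hc f => ?_⟩
  obtain ⟨S, c', hc', g, hg⟩ := hX.2 ι Z hZ c hc (e.hom ≫ f)
  refine ⟨S, c', hc', e.inv ≫ g, ?_⟩
  rw [Category.assoc, ← hg, e.inv_hom_id_assoc]

end Invariance

end

end Claimed.Open.R314
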