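import Claimed.Open.R314.SanityGeneral
import Claimed.Open.R314.SanitySpectra

/-!
# Result 314: the hypotheses of `Statement`, taken together

Parts 2 and 3 of `Statement` have one hypothesis for which no model can be built in Lean today: the
sequence `K 1, K 2, …` of Morava `K`-theories (`SymRing.IsMoravaK`, see D1 of `CLAIM.md`).  All other
hypotheses have checked examples.  This file records, as checked theorems, what protects `Statement` from
being empty:

1. `hypotheses_can_be_met_of_statement`: **if `Statement` holds, then all hypotheses of its parts 2 and 3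
   are met at once**, by the group `C_{p²} × C_p` of the paper's introduction, its subgroups `H₁`, `H₂`, and a
   sequence of Morava `K`-theories, which part 1 provides.  So `Statement` cannot hold vacuously: if there
   were no Morava `K`-theories in the sense of `IsMoravaK`, it would be false.
2. `exists_sharp_witness₁_of_statement`, `exists_sharp_witness₂_of_statement`, `loss_exH₁_of_statement`,
   `loss_exH₂_of_statement`: what part 2 says for this example, the one of the paper's introduction
   (`r_n(G, H₁) = 2`, `r_n(G, H₂) = 1` at every height `n`).  In particular `Statement` produces finite `p`-local genuine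
   `G`-spectra whose geometric `H₁`-fixed points are `K(n+1)`-acyclic and whose geometric `G`-fixed points are
   not `K(n)`-acyclic: it is not made true by the definitions (it fails in any model in which, say, all finite
   spectra are acyclic), and premise and negated conclusion of the implication occur together.
3. Examples and non-examples of the test of Corollary 7.5 (`GeneralGroupTest`) for a group which is not a `p`-group:
   for `A_3 ≤ S_3` it reads `n + 1 ≤ m` at `p = 2` (`generalGroupTest_two_alternating`) and fails at all heights at `p = 3`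
   (`not_generalGroupTest_three_alternating`); for `1 ≤ S_3` it fails at `p = 2` (`not_generalGroupTest_two_bot`); for
   `A = B` it reads `n ≤ m` (`generalGroupTest_self_iff`); in general `ℓ(B/N, A'/N) = ℓ(B, A')`
   (`cyclicLength_quotient_pResidual`).
4. `nesting_of_statement`, `exists_conj_le_of_statement`, `perm_three_two_of_statement`, `perm_three_three_of_statement`: what part 3
   says in these cases.  For `A = B` it is the classical fact that for finite `p`-local spectra
   `K(m)_* X = 0 ⟹ K(n)_* X = 0` holds exactly for `n ≤ m` (Ravenel; Mitchell's theorem on the existence of finite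
   spectra of every type).
-/

namespace Claimed.Open.R314

/-- `C_{p²} × C_p` is finite. -/
instance finite_exG (p : ℕ) [Fact p.Prime] : Finite (ExG p) := by
  have h1 : NeZero (p ^ 2) := ⟨pow_ne_zero 2 (Fact.out : p.Prime).ne_zero⟩
  have h2 : NeZero p := ⟨(Fact.out : p.Prime).ne_zero⟩
  exact inferInstanceAs (Finite (Multiplicative (ZMod (p ^ 2) × ZMod p)))

/-- Part 1 of `Statement` provides, at each prime, a sequence of Morava `K`-theories as it is
hypothesised in parts 2 and 3. -/
theorem exists_moravaK_sequence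
    (h : ∀ p : ℕ, p.Prime → ∀ n : ℕ, 1 ≤ n → ∃ R : SymRing, R.IsMoravaK p n)
    {p : ℕ} (hp : p.Prime) : ∃ K : ℕ → SymRing, ∀ i, 1 ≤ i → (K i).IsMoravaK p i := by
  classical
  refine ⟨fun i => if hi : 1 ≤ i then (h p hp i hi).choose else SymRing.zero, fun i hi => ?_⟩
  simp only [hi, dif_pos]
  exact (h p hp i hi).choose_spec

/-- **If `Statement` holds, all hypotheses of its parts 2 and 3 are met at once**: a prime `p`, the finite
`p`-group `G = C_{p²} × C_p` with its subgroups `H₁`, `H₂` (of cyclic length `2` and `1`), and Morava `K`-theories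
`K 1, K 2, …` at `p`.  Hence `Statement` is not vacuous. -/
theorem hypotheses_can_be_met_of_statement (h : Statement) (p : ℕ) [Fact p.Prime] :
    ∃ K : ℕ → SymRing, p.Prime ∧ Finite (ExG p) ∧ IsPGroup p (ExG p) ∧
      cyclicLength (exH₁ p) = 2 ∧ cyclicLength (exH₂ p) = 1 ∧
      ∀ i, 1 ≤ i → (K i).IsMoravaK p i := by
  obtain ⟨K, hK⟩ := exists_moravaK_sequence h.1 (Fact.out : p.Prime)
  exact ⟨K, Fact.out, inferInstance, isPGroup_exG p, cyclicLength_exH₁ p, cyclicLength_exH₂ p, hK⟩

/-- Part 2 of `Statement` for the first example of the paper's introduction: `r_n(G, H₁) = 2`. -/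
theorem loss_exH₁_of_statement (h : Statement) (p : ℕ) [Fact p.Prime] (n : ℕ) (K : ℕ → SymRing)
    (hK : ∀ i, 1 ≤ i → (K i).IsMoravaK p i) :
    IsLeast {r : ℕ | FixedPointImplication p K (exH₁ p) n r} 2 := by
  have := h.2.1 p Fact.out (ExG p) (isPGroup_exG p) (exH₁ p) n K hK
  rwa [cyclicLength_exH₁] at this

/-- Part 2 of `Statement` for the second example of the paper's introduction: `r_n(G, H₂) = 1`. -/
theorem loss_exH₂_of_statement (h : Statement) (p : ℕ) [Fact p.Prime] (n : ℕ) (K : ℕ → SymRing)
    (hK : ∀ i, 1 ≤ i → (K i).IsMoravaK p i) :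
    IsLeast {r : ℕ | FixedPointImplication p K (exH₂ p) n r} 1 := by
  have := h.2.1 p Fact.out (ExG p) (isPGroup_exG p) (exH₂ p) n K hK
  rwa [cyclicLength_exH₂] at this

/-- The failure of a fixed point implication is witnessed by a finite `p`-local genuine `G`-spectrum. -/
theorem exists_witness_of_not_fixedPointImplication {G : Type} [Group G] [Finite G] {p : ℕ}
    {K : ℕ → SymRing} {H : Subgroup G} {n r : ℕ} (h : ¬ FixedPointImplication p K H n r) :
    ∃ X : GSpt G G, X.IsCompactPLocal p ∧ GeomAcyclic K (n + r) H X ∧ ¬ GeomAcyclic K n ⊤ X := by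
  unfold FixedPointImplication AcyclicityImplication at h
  by_contra hX
  exact h fun X h1 h2 => by_contra fun h3 => hX ⟨X, h1, h2, h3⟩

/-- `Statement` produces a sharpness witness for `H₁ = p C_{p²} × 0 ≤ C_{p²} × C_p`: a finite `p`-local genuine
`G`-spectrum `X` with `K(n+1)_*(Φ^{H₁} X) = 0` and `K(n)_*(Φ^G X) ≠ 0` ("for every integer `0 ≤ r < ℓ(G,H)` there is a
finite genuine `G`-spectrum …", paper §1).  So all hypotheses, the premise of the implication and the
negation of its conclusion occur together, and `Statement` is not true by construction. -/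
theorem exists_sharp_witness₁_of_statement (h : Statement) (p : ℕ) [Fact p.Prime] (n : ℕ) :
    ∃ (K : ℕ → SymRing) (X : GSpt (ExG p) (ExG p)), (∀ i, 1 ≤ i → (K i).IsMoravaK p i) ∧
      X.IsCompactPLocal p ∧ GeomAcyclic K (n + 1) (exH₁ p) X ∧ ¬ GeomAcyclic K n ⊤ X := by
  obtain ⟨K, hK⟩ := exists_moravaK_sequence h.1 (Fact.out : p.Prime)
  have h2 := loss_exH₁_of_statement h p n K hK
  have h1 : ¬ FixedPointImplication p K (exH₁ p) n 1 := fun h1 => by
    have := h2.2 h1
    omega
  obtain ⟨X, hX⟩ := exists_witness_of_not_fixedPointImplication h1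
  exact ⟨K, X, hK, hX⟩

/-- The same for `H₂ = 0 × C_p`, where the loss is `1`: a finite `p`-local genuine `G`-spectrum `X` with
`K(n)_*(Φ^{H₂} X) = 0` and `K(n)_*(Φ^G X) ≠ 0`, while `K(n+1)_*(Φ^{H₂} Y) = 0` implies `K(n)_*(Φ^G Y) = 0` for all `Y`. -/
theorem exists_sharp_witness₂_of_statement (h : Statement) (p : ℕ) [Fact p.Prime] (n : ℕ) :
    ∃ K : ℕ → SymRing, (∀ i, 1 ≤ i → (K i).IsMoravaK p i) ∧
      (∃ X : GSpt (ExG p) (ExG p),
        X.IsCompactPLocal p ∧ GeomAcyclic K n (exH₂ p) X ∧ ¬ GeomAcyclic K n ⊤ X) ∧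
      ∀ Y : GSpt (ExG p) (ExG p),
        Y.IsCompactPLocal p → GeomAcyclic K (n + 1) (exH₂ p) Y → GeomAcyclic K n ⊤ Y := by
  obtain ⟨K, hK⟩ := exists_moravaK_sequence h.1 (Fact.out : p.Prime)
  have h2 := loss_exH₂_of_statement h p n K hK
  have h0 : ¬ FixedPointImplication p K (exH₂ p) n 0 := fun h0 => by
    have := h2.2 h0
    omega
  exact ⟨K, hK, exists_witness_of_not_fixedPointImplication h0, h2.1⟩

/-- Such a witness is not the point spectrum: `Statement` forces the model to contain finite spectra
which are not acyclic. -/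
theorem exists_not_geomAcyclic_of_statement (h : Statement) (p : ℕ) [Fact p.Prime] (n : ℕ) :
    ∃ (K : ℕ → SymRing) (X : GSpt (ExG p) (ExG p)), (∀ i, 1 ≤ i → (K i).IsMoravaK p i) ∧
      X.IsCompactPLocal p ∧ ¬ GeomAcyclic K n ⊤ X := by
  obtain ⟨K, X, hK, hX, -, hn⟩ := exists_sharp_witness₁_of_statement h p n
  exact ⟨K, X, hK, hX, hn⟩

/-! ## Part 3: the test of Corollary 7.5, examples and non-examples outside the `p`-groups -/

section Test

variable {G : Type} [Group G]

/-- The test of Corollary 7.5 forces `n ≤ m`, -/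
theorem GeneralGroupTest.le {p : ℕ} {A B : Subgroup G} {m n : ℕ}
    (h : GeneralGroupTest p A m B n) : n ≤ m := by
  obtain ⟨A', -, -, -, h⟩ := h
  omega

/-- and that `A` is subconjugate to `B`. -/
theorem GeneralGroupTest.exists_conj_le {p : ℕ} {A B : Subgroup G} {m n : ℕ}
    (h : GeneralGroupTest p A m B n) : ∃ g : G, A.map (MulAut.conj g).toMonoidHom ≤ B := by
  obtain ⟨A', ⟨g, rfl⟩, h, -, -⟩ := h
  exact ⟨g, h⟩

/-- For `A = B` the test reads `n ≤ m`. -/
theorem generalGroupTest_self_iff (p : ℕ) (B : Subgroup G) (m n : ℕ) :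
    GeneralGroupTest p B m B n ↔ n ≤ m := by
  refine ⟨fun h => h.le, fun h => ?_⟩
  refine ⟨B, ⟨1, ?_⟩, le_rfl, rfl, ?_⟩
  · ext x; simp
  · rw [Subgroup.subgroupOf_self,
      Subgroup.map_top_of_surjective _ (QuotientGroup.mk'_surjective _), cyclicLength_top]
    exact h

/-- `O^p` is invariant under isomorphisms. -/
theorem pResidual_map_equiv {J J' : Type} [Group J] [Group J'] (p : ℕ) (e : J ≃* J') :
    (pResidual p J).map e.toMonoidHom = pResidual p J' := by
  ext x
  rw [Subgroup.mem_map_equiv]
  unfold pResidual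
  simp only [Subgroup.mem_sInf, Set.mem_ofPred_eq]
  constructor
  · rintro h N ⟨hN, k, hk⟩
    have := h (N.comap e.toMonoidHom) ⟨hN.comap _, k, by
      rw [Subgroup.index_comap_of_surjective _ e.surjective]; exact hk⟩
    simpa using this
  · rintro h N ⟨hN, k, hk⟩
    have := h (N.comap e.symm.toMonoidHom) ⟨hN.comap _, k, by
      rw [Subgroup.index_comap_of_surjective _ e.symm.surjective]; exact hk⟩
    simpa using this

/-- `O^p(⊤) = O^p(G)`, where `⊤` is `G` seen as a subgroup of itself. -/
theorem pResidual_map_subtype_top (p : ℕ) :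
    (pResidual p (⊤ : Subgroup G)).map (⊤ : Subgroup G).subtype = pResidual p G :=
  pResidual_map_equiv p Subgroup.topEquiv

/-- `O^p(A)`, seen in `G`, lies in `A`. -/
theorem pResidual_map_subtype_le (p : ℕ) (A : Subgroup G) :
    (pResidual p A).map A.subtype ≤ A := by
  rintro _ ⟨a, -, rfl⟩
  exact a.2

/-- In the test of Corollary 7.5 one has `N = O^p(B) ≤ A'`, so that `ℓ(B/N, A'/N) = ℓ(B, A')`. -/
theorem cyclicLength_quotient_pResidual {p : ℕ} {A' B : Subgroup G}
    (h : (pResidual p B).map B.subtype = (pResidual p A').map A'.subtype) :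
    cyclicLength ((A'.subgroupOf B).map (QuotientGroup.mk' (pResidual p B))) =
      cyclicLength (A'.subgroupOf B) := by
  refine cyclicLength_map_mk' _ _ fun x hx => ?_
  rw [Subgroup.mem_subgroupOf]
  exact pResidual_map_subtype_le p A' (h ▸ Subgroup.mem_map_of_mem B.subtype hx)

/-- A normal subgroup equals its conjugates. -/
theorem map_conj_of_normal (A : Subgroup G) [hA : A.Normal] (g : G) :
    A.map (MulAut.conj g).toMonoidHom = A := by
  ext x
  constructor
  · rintro ⟨a, ha, rfl⟩
    exact hA.conj_mem a ha g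
  · intro hx
    refine ⟨g⁻¹ * x * g, ?_, ?_⟩
    · have := hA.conj_mem x hx g⁻¹
      simpa using this
    · simp [MulAut.conj_apply, mul_assoc]

/-- The test of Corollary 7.5 for a normal subgroup `A` of an arbitrary group `G` and `B = G`:
`O^p(G) = O^p(A)` and `n + ℓ(G, A) ≤ m`. -/
theorem generalGroupTest_top_iff_of_normal (p : ℕ) (A : Subgroup G) [A.Normal] (m n : ℕ) :
    GeneralGroupTest p A m ⊤ n ↔
      pResidual p G = (pResidual p A).map A.subtype ∧ n + cyclicLength A ≤ m := by
  constructor
  · rintro ⟨A', ⟨g, hg⟩, -, heq, h⟩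
    have hA' : A' = A := hg.trans (map_conj_of_normal A g)
    subst hA'
    rw [cyclicLength_quotient_pResidual heq, cyclicLength_subgroupOf_top] at h
    rw [pResidual_map_subtype_top] at heq
    exact ⟨heq, h⟩
  · rintro ⟨heq, h⟩
    have heq' : (pResidual p (⊤ : Subgroup G)).map (⊤ : Subgroup G).subtype =
        (pResidual p A).map A.subtype := by rw [pResidual_map_subtype_top]; exact heq
    refine ⟨A, ⟨1, (map_conj_of_normal A 1).symm⟩, le_top, heq', ?_⟩
    rw [cyclicLength_quotient_pResidual heq', cyclicLength_subgroupOf_top]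
    exact h

/-- A normal subgroup with cyclic quotient is one cyclic step below `G`. -/
theorem cyclicStep_top_of_isCyclic_quotient (A : Subgroup G) [hA : A.Normal]
    (hc : IsCyclic (G ⧸ A)) : CyclicStep A ⊤ := by
  rw [cyclicStep_iff]
  refine ⟨le_top, fun b _ a ha => hA.conj_mem a ha b, ?_⟩
  obtain ⟨q, hq⟩ := hc.exists_generator
  obtain ⟨g, rfl⟩ := QuotientGroup.mk_surjective q
  refine ⟨g, trivial, fun b _ => ?_⟩
  obtain ⟨k, hk⟩ := Subgroup.mem_zpowers_iff.mp (hq (QuotientGroup.mk b))
  refine ⟨k, ?_⟩
  rw [← QuotientGroup.mk_zpow, QuotientGroup.eq] at hk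
  exact hk

/-- `ℓ(G, A) = 1` for a proper subgroup one cyclic step below `G`. -/
theorem cyclicLength_eq_one {A : Subgroup G} (h : CyclicStep A ⊤) (hne : A ≠ ⊤) :
    cyclicLength A = 1 := by
  have h1 : HasCyclicChain A 1 := (hasCyclicChain_one_iff A).mpr h
  have hle : cyclicLength A ≤ 1 := Nat.sInf_le h1
  have hmem : HasCyclicChain A (cyclicLength A) :=
    Nat.sInf_mem (⟨1, h1⟩ : {s | HasCyclicChain A s}.Nonempty)
  rcases Nat.le_one_iff_eq_zero_or_eq_one.mp hle with h0 | h0
  · rw [h0, hasCyclicChain_zero_iff] at hmem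
    exact absurd hmem hne
  · exact h0

end Test

/-! ### The symmetric group `S_3` -/

section PermThree

theorem alternatingGroup_three_ne_top : alternatingGroup (Fin 3) ≠ ⊤ := fun h => by
  have := alternatingGroup.index_eq_two (α := Fin 3)
  rw [h, Subgroup.index_top] at this
  omega

/-- `ℓ(S_3, A_3) = 1`. -/
theorem cyclicLength_alternatingGroup_three : cyclicLength (alternatingGroup (Fin 3)) = 1 := by
  refine cyclicLength_eq_one (cyclicStep_top_of_isCyclic_quotient _ ?_)
    alternatingGroup_three_ne_top
  have : Fact (Nat.Prime 2) := ⟨Nat.prime_two⟩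
  refine isCyclic_of_prime_card (p := 2) ?_
  rw [← Subgroup.index_eq_card, alternatingGroup.index_eq_two]

theorem card_alternatingGroup_three : Nat.card (alternatingGroup (Fin 3)) = 3 := by
  rw [nat_card_alternatingGroup]; simp [Nat.factorial]

/-- **Example** (`p = 2`, `G = S_3`, which is not a `2`-group): `O^2(S_3) = A_3 = O^2(A_3)` and `S_3/A_3 = C_2`, so the test
of Corollary 7.5 for `A_3 ≤ S_3` reads `n + 1 ≤ m`. -/
theorem generalGroupTest_two_alternating (m n : ℕ) :
    GeneralGroupTest 2 (alternatingGroup (Fin 3)) m ⊤ n ↔ n + 1 ≤ m := by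
  rw [generalGroupTest_top_iff_of_normal, cyclicLength_alternatingGroup_three,
    pResidual_two_perm_three,
    pResidual_eq_top (J := alternatingGroup (Fin 3)) (p := 2)
      (by rw [card_alternatingGroup_three]; norm_num),
    ← MonoidHom.range_eq_map, Subgroup.range_subtype]
  simp

/-- **Non-example** (`p = 3`): `O^3(S_3) = S_3 ≠ O^3(A_3) = 1`; the test fails for all heights. -/
theorem not_generalGroupTest_three_alternating (m n : ℕ) :
    ¬ GeneralGroupTest 3 (alternatingGroup (Fin 3)) m ⊤ n := by
  rw [generalGroupTest_top_iff_of_normal, pResidual_three_perm_three]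
  rintro ⟨h, -⟩
  exact alternatingGroup_three_ne_top (top_le_iff.mp (h ▸ pResidual_map_subtype_le 3 _))

/-- **Non-example** (`p = 2`): `O^2(S_3) = A_3 ≠ O^2(1) = 1`; the test fails for the trivial subgroup of `S_3` at all
heights, although it is subconjugate to `S_3`. -/
theorem not_generalGroupTest_two_bot (m n : ℕ) :
    ¬ GeneralGroupTest 2 (⊥ : Subgroup (Equiv.Perm (Fin 3))) m ⊤ n := by
  rw [generalGroupTest_top_iff_of_normal, pResidual_two_perm_three]
  rintro ⟨h, -⟩
  have h1 : alternatingGroup (Fin 3) ≤ ⊥ := h ▸ pResidual_map_subtype_le 2 _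
  have h2 := card_alternatingGroup_three
  rw [le_bot_iff.mp h1, Subgroup.card_bot] at h2
  omega

end PermThree

/-! ## What part 3 of `Statement` says in these cases -/

/-- Part 3 of `Statement` for `A = B`: for finite `p`-local genuine `G`-spectra `X`,
`K(m)_*(Φ^B X) = 0 ⟹ K(n)_*(Φ^B X) = 0` holds exactly for `n ≤ m`.  For the trivial group this is the classical
nesting of the Morava-acyclic finite spectra (Ravenel) together with the existence of finite spectra of every
type (Mitchell). -/
theorem nesting_of_statement (h : Statement) {p : ℕ} (hp : p.Prime) {G : Type} [Group G] [Finite G]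
    (B : Subgroup G) (m n : ℕ) (K : ℕ → SymRing) (hK : ∀ i, 1 ≤ i → (K i).IsMoravaK p i) :
    AcyclicityImplication p K B m B n ↔ n ≤ m :=
  (h.2.2 p hp G B B m n K hK).trans (generalGroupTest_self_iff p B m n)

/-- Part 3 of `Statement`: an inclusion `𝒫_m(A) ⊆ 𝒫_n(B)` forces `A` to be subconjugate to `B`
(Balmer–Sanders). -/
theorem exists_conj_le_of_statement (h : Statement) {p : ℕ} (hp : p.Prime) {G : Type} [Group G]
    [Finite G] (A B : Subgroup G) (m n : ℕ) (K : ℕ → SymRing)
    (hK : ∀ i, 1 ≤ i → (K i).IsMoravaK p i) (hAB : AcyclicityImplication p K A m B n) :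
    ∃ g : G, A.map (MulAut.conj g).toMonoidHom ≤ B :=
  ((h.2.2 p hp G A B m n K hK).mp hAB).exists_conj_le

/-- Part 3 of `Statement` for `A_3 ≤ S_3` at `p = 2`: the loss is `1`. -/
theorem perm_three_two_of_statement (h : Statement) (m n : ℕ) (K : ℕ → SymRing)
    (hK : ∀ i, 1 ≤ i → (K i).IsMoravaK 2 i) :
    AcyclicityImplication 2 K (alternatingGroup (Fin 3)) m ⊤ n ↔ n + 1 ≤ m :=
  (h.2.2 2 Nat.prime_two _ _ _ m n K hK).trans (generalGroupTest_two_alternating m n)

/-- Part 3 of `Statement` for `A_3 ≤ S_3` at `p = 3`: no inclusion at any pair of heights. -/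
theorem perm_three_three_of_statement (h : Statement) (m n : ℕ) (K : ℕ → SymRing)
    (hK : ∀ i, 1 ≤ i → (K i).IsMoravaK 3 i) :
    ¬ AcyclicityImplication 3 K (alternatingGroup (Fin 3)) m ⊤ n := fun h' =>
  not_generalGroupTest_three_alternating m n ((h.2.2 3 Nat.prime_three _ _ _ m n K hK).mp h')

end Claimed.Open.R314
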