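import Claimed.Open.R314.SanitySpectra
import Claimed.Agent.Lib.BrouwerConvex

/-!
# Result 314: the foundations of `Statement.lean` are not degenerate

All spectra for which `SanitySpectra.lean` computes something are trivial (all their spaces are
points).  This file excludes that the equivariant stable homotopy groups `GSpt.stablePi` vanish
identically, that every map of spectra is a stable equivalence, that the stable homotopy categories
`GSH G G` and `GSH PUnit (Fin d)` are equivalent to a point, and that geometric fixed points kill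
everything.  (In each of these cases part 2 of `Statement` would be false, and the notions "finite
`p`-local spectrum" and "`K(i)`-acyclic" would be empty.)  For every finite group `G`:

* `not_subsingleton_stablePi_sphere`: the group `π_{2|G|}^{1}(sh² 𝕊) = π_{2|G|}(Σ^{2ρ} 𝕊) = π_0(𝕊)`
  of the genuine `G`-sphere spectrum is not zero;
* `not_stableEquiv_sphere_pt`: the map `𝕊 → pt` is not a stable equivalence;
* `not_isZero_sphere`: `𝕊` is not a zero object of `GSH G G`;
* `not_subsingleton_stablePi_geomFix_sphere`, `not_stableEquiv_geomFix_sphere_pt`,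
  `not_isZero_geomFix_sphere`: the same for the geometric fixed points `Φ^H 𝕊`, for every subgroup
  `H` of `G`.

The class which does not vanish is the unit, represented at level `n` by the identity of
`S^{(n+2)ρ} = I^{Fin (n+2) × G}/∂`, respectively of `(S^{(n+2)ρ})^H = I^{Fin (n+2) × Fin d}/∂`.
That the identity of a sphere is not null-homotopic (`no_null_cubeBump`) is deduced from Brouwer's
fixed point theorem, `Claimed.Agent.Lib.bfp_brouwer`, which is proved in this repository.  The
passage to the colimit is done once, for all spectra with the structure `UnitData`.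
-/

open CategoryTheory Topology unitInterval
open scoped Topology.Homotopy

namespace Claimed.Open.R314

noncomputable section

set_option linter.unusedSectionVars false

section Bump

variable {ι : Type} [Fintype ι]

/-- the centred coordinates of a point of the cube -/
def cubeVec (x : ι → I) : ι → ℝ := fun i => (x i : ℝ) - 1 / 2

/-- the embedding of `I^ι/∂I^ι` as a surface around the origin of `ℝ^ι × ℝ` -/
def cubeBump (x : ι → I) : (ι → ℝ) × ℝ :=
  ((1 / 2 - ‖cubeVec x‖) • cubeVec x, 1 / 2 - ‖cubeVec x‖ - 1 / 4)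

lemma continuous_cubeVec : Continuous (cubeVec : (ι → I) → ι → ℝ) :=
  continuous_pi fun i => (continuous_subtype_val.comp (continuous_apply i)).sub continuous_const

lemma continuous_cubeBump : Continuous (cubeBump : (ι → I) → (ι → ℝ) × ℝ) := by
  have h := continuous_cubeVec (ι := ι)
  exact ((continuous_const.sub h.norm).smul h).prodMk
    ((continuous_const.sub h.norm).sub continuous_const)

lemma norm_cubeVec_le (x : ι → I) : ‖cubeVec x‖ ≤ 1 / 2 := by
  rw [pi_norm_le_iff_of_nonneg (by norm_num)]
  intro i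
  rw [Real.norm_eq_abs, abs_le]
  have h0 := (x i).2.1
  have h1 := (x i).2.2
  constructor <;> simp only [cubeVec] <;> linarith

lemma norm_cubeVec_of_boundary {x : ι → I} (hx : x ∈ Cube.boundary ι) : ‖cubeVec x‖ = 1 / 2 := by
  obtain ⟨i, hi⟩ := hx
  refine le_antisymm (norm_cubeVec_le x) ?_
  refine le_trans ?_ (norm_le_pi_norm (cubeVec x) i)
  rw [Real.norm_eq_abs]
  rcases hi with hi | hi
  · simp [cubeVec, hi]
  · simp [cubeVec, hi]
    norm_num

lemma cubeBump_of_boundary {x : ι → I} (hx : x ∈ Cube.boundary ι) : cubeBump x = (0, -(1 / 4)) := by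
  unfold cubeBump
  rw [norm_cubeVec_of_boundary hx]
  simp

lemma cubeBump_ne_zero (x : ι → I) : cubeBump x ≠ 0 := by
  intro h
  have h1 : (1 / 2 - ‖cubeVec x‖) • cubeVec x = 0 := congrArg Prod.fst h
  have h2 : 1 / 2 - ‖cubeVec x‖ - 1 / 4 = 0 := congrArg Prod.snd h
  have h3 : (1 / 2 - ‖cubeVec x‖) = 1 / 4 := by linarith
  rw [h3] at h1
  have h4 : cubeVec x = 0 := by simpa using h1
  rw [h4] at h3
  norm_num at h3

/-- **No null-homotopy** (from Brouwer's fixed point theorem on the ball of radius `1/2` of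
`ℝ^ι × ℝ` with the sup norm, the cylinder `[-1/2, 1/2]^ι × [-1/2, 1/2]`): the surface `cubeBump`
cannot be contracted, relative to the boundary of the cube, to its base point inside
`ℝ^ι × ℝ ∖ {0}`. -/
theorem no_null_cubeBump (F : I × (ι → I) → (ι → ℝ) × ℝ) (hF : Continuous F)
    (h0 : ∀ x, F (0, x) = cubeBump x) (h1 : ∀ x, F (1, x) = (0, -(1 / 4)))
    (hb : ∀ t x, x ∈ Cube.boundary ι → F (t, x) = (0, -(1 / 4))) (hne : ∀ q, F q ≠ 0) : False := by
  classical
  let cl : ℝ → I := Set.projIcc 0 1 zero_le_one
  have hcl : Continuous cl := continuous_projIcc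
  let f : (ι → ℝ) × ℝ → (ι → ℝ) × ℝ := fun p => F (cl (1 / 2 - p.2), fun i => cl (p.1 i + 1 / 2))
  have hf : Continuous f := by
    refine hF.comp (Continuous.prodMk (hcl.comp (continuous_const.sub continuous_snd))
      (continuous_pi fun i => ?_))
    exact hcl.comp (((continuous_apply i).comp continuous_fst).add continuous_const)
  have hfne : ∀ p, f p ≠ 0 := fun p => hne _
  let g : (ι → ℝ) × ℝ → (ι → ℝ) × ℝ := fun p => (-(1 / 2 * ‖f p‖⁻¹)) • f p
  have hg : Continuous g :=
    ((continuous_const.mul (hf.norm.inv₀ fun p => norm_ne_zero_iff.2 (hfne p))).neg).smul hf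
  have hgn : ∀ p, ‖g p‖ = 1 / 2 := fun p => by
    have h : ‖f p‖ ≠ 0 := norm_ne_zero_iff.2 (hfne p)
    simp only [g, norm_smul, norm_neg, norm_mul, norm_inv, Real.norm_eq_abs, abs_norm]
    rw [abs_of_pos (by norm_num : (0 : ℝ) < 1 / 2), mul_assoc, inv_mul_cancel₀ h, mul_one]
  obtain ⟨p, -, hp⟩ := Claimed.Agent.Lib.bfp_brouwer
    (isCompact_closedBall (0 : (ι → ℝ) × ℝ) (1 / 2)) (convex_closedBall _ _) ⟨0, by simp⟩ g
    hg.continuousOn (fun p _ => by rw [mem_closedBall_zero_iff, hgn])
  have hpn : ‖p‖ = 1 / 2 := by rw [← hp, hgn]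
  obtain ⟨v, s⟩ := p
  set lam : ℝ := 1 / 2 * ‖f (v, s)‖⁻¹ with hlam
  have hlam0 : 0 < lam := by
    have : 0 < ‖f (v, s)‖ := norm_pos_iff.2 (hfne _)
    positivity
  have e1 : -(lam • (f (v, s)).1) = v := by
    have h : ((-lam) • f (v, s)).1 = v := congrArg Prod.fst hp
    rw [Prod.smul_fst, neg_smul] at h
    exact h
  have e2 : -(lam * (f (v, s)).2) = s := by
    have h : ((-lam) • f (v, s)).2 = s := congrArg Prod.snd hp
    rw [Prod.smul_snd, smul_eq_mul, neg_mul] at h
    exact h
  have hv : ‖v‖ ≤ 1 / 2 := by rw [← hpn]; exact le_max_left _ _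
  have hs : |s| ≤ 1 / 2 := by rw [← hpn]; exact le_max_right _ _
  have hvi : ∀ i, |v i| ≤ 1 / 2 := fun i => (norm_le_pi_norm v i).trans hv
  -- the point of the cube
  set x : ι → I := fun i => cl (v i + 1 / 2) with hx
  have hxv : ∀ i, ((x i : I) : ℝ) = v i + 1 / 2 := fun i => by
    have h := abs_le.1 (hvi i)
    exact congrArg Subtype.val (Set.projIcc_of_mem zero_le_one (x := v i + 1 / 2)
      ⟨by linarith [h.1], by linarith [h.2]⟩)
  have hcv : cubeVec x = v := funext fun i => by simp only [cubeVec, hxv]; ring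
  have hfx : f (v, s) = F (cl (1 / 2 - s), x) := rfl
  by_cases hvb : ‖v‖ = 1 / 2
  · -- a side of the cylinder
    have hxb : x ∈ Cube.boundary ι := by
      by_contra hcon
      have hlt : ∀ i, |v i| < 1 / 2 := fun i => by
        refine lt_of_le_of_ne (hvi i) fun h => hcon ⟨i, ?_⟩
        rcases abs_eq (by norm_num : (0 : ℝ) ≤ 1 / 2) |>.1 h with h | h
        · right
          exact Subtype.ext (by rw [hxv, h]; norm_num)
        · left
          exact Subtype.ext (by rw [hxv, h]; norm_num)
      have : ‖v‖ < 1 / 2 := (pi_norm_lt_iff (by norm_num)).2 hlt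
      exact this.ne hvb
    rw [hfx, hb _ _ hxb] at e1
    rw [← e1] at hvb
    norm_num at hvb
  · have hs' : |s| = 1 / 2 := by
      have h : max ‖v‖ ‖s‖ = 1 / 2 := hpn
      rcases max_choice ‖v‖ ‖s‖ with h' | h'
      · exact absurd (h'.symm.trans h) hvb
      · rw [h'] at h
        exact h
    rcases abs_eq (by norm_num : (0 : ℝ) ≤ 1 / 2) |>.1 hs' with h | h
    · -- the top: time `0`
      have ht : cl (1 / 2 - s) = 0 := by
        rw [h]
        exact Subtype.ext (by simp [cl])
      rw [hfx, ht, h0] at e1 e2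
      simp only [cubeBump, hcv] at e1 e2
      have hd : 0 ≤ 1 / 2 - ‖v‖ := by linarith
      have hv0 : v = 0 := by
        have h3 : (1 + lam * (1 / 2 - ‖v‖)) • v = 0 := by
          rw [add_smul, one_smul, mul_smul]
          nth_rewrite 1 [← e1]
          simp
        rcases smul_eq_zero.1 h3 with h4 | h4
        · nlinarith
        · exact h4
      rw [hv0, norm_zero, h] at e2
      nlinarith
    · -- the bottom: time `1`
      have ht : cl (1 / 2 - s) = 1 := by
        rw [h]
        exact Subtype.ext (by simp [cl]; norm_num)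
      rw [hfx, ht, h1] at e2
      rw [h] at e2
      simp only at e2
      nlinarith

/-- The sup norm does not change under pull-back along a surjection. -/
lemma norm_comp_of_surjective {κ : Type} [Fintype κ] {f : κ → ι} (hf : Function.Surjective f)
    (v : ι → ℝ) : ‖fun a => v (f a)‖ = ‖v‖ := by
  refine le_antisymm ?_ ?_
  · rw [pi_norm_le_iff_of_nonneg (norm_nonneg _)]
    exact fun a => norm_le_pi_norm v (f a)
  · rw [pi_norm_le_iff_of_nonneg (norm_nonneg _)]
    intro i
    obtain ⟨a, rfl⟩ := hf i
    exact norm_le_pi_norm (fun a => v (f a)) a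

/-- `cubeBump` is compatible with the diagonal embedding `I^ι → I^κ` of a surjection `f : κ → ι` and
the projection `ℝ^κ → ℝ^ι` of a section `r` of `f`. -/
lemma cubeBump_comp {κ : Type} [Fintype κ] {f : κ → ι} {r : ι → κ} (hfr : ∀ i, f (r i) = i)
    (y : ι → I) :
    ((fun i => (cubeBump fun a => y (f a)).1 (r i), (cubeBump fun a => y (f a)).2) : (ι → ℝ) × ℝ) =
      cubeBump y := by
  have hs : Function.Surjective f := fun i => ⟨r i, hfr i⟩
  have hn : ‖cubeVec fun a => y (f a)‖ = ‖cubeVec y‖ := norm_comp_of_surjective hs (cubeVec y)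
  refine Prod.ext ?_ ?_
  · funext i
    simp only [cubeBump, hn, Pi.smul_apply, smul_eq_mul]
    simp only [cubeVec, hfr]
  · simp only [cubeBump, hn]

end Bump

/-! ## A criterion for the non-vanishing of `π_{k+2}^{1}(X)` -/

section Criterion

variable {G : Type} [Group G] {N : Type} [MulAction G N] [Fintype N]

/-- A spectrum `X` which "contains `sh² 𝕊` as a retract up to `ℝ^m ∖ 0 ≃ S^{m-1}`": maps
`I^{(n+2)·N}/∂ → X_n` compatible with the structure maps, and maps `X_n → ℝ^{(n+2)·N} × ℝ ∖ {0}`
whose composite with the former is the embedding `cubeBump` of the sphere around the origin. -/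
structure UnitData (X : GSpt G N) where
  /-- the maps `S^{(n+2)·ℝ[N]} → X_n`, -/
  cell : ∀ n, C(Fin (n + 1 + 1) × N → I, X.space n)
  cell_boundary : ∀ n y, y ∈ Cube.boundary (Fin (n + 1 + 1) × N) → cell n y = X.base n
  /-- compatible with the structure maps; -/
  str_cell : ∀ n (y : Fin (n + 1 + 1) × N → I) (s : N → I), X.str n (cell n y) s =
    cell (n + 1) (fun q => Fin.cases (motive := fun _ => I) (s q.2) (fun j => y (j, q.2)) q.1)
  /-- the maps `X_n → ℝ^{(n+2)·N} × ℝ ∖ {0}`. -/
  bump : ∀ n, X.space n → (Fin (n + 1 + 1) × N → ℝ) × ℝ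
  continuous_bump : ∀ n, Continuous (bump n)
  bump_ne_zero : ∀ n x, bump n x ≠ 0
  bump_cell : ∀ n y, bump n (cell n y) = cubeBump y
  bump_base : ∀ n, bump n (X.base n) = (0, -(1 / 4))

variable {k : ℕ} (e : Fin 2 × N ≃ Fin (k + 2))

/-- The homeomorphism `I^{k+2} × I^{n·N} ≅ I^{(n+2)·N}` given by a bijection
`e : Fin 2 × N ≃ Fin (k + 2)`: the last two blocks of coordinates are the `k + 2 = 2 |N|` loop
coordinates. -/
def comb (n : ℕ) (s : Fin (k + 2) → I) (t : Fin n × N → I) : Fin (n + 1 + 1) × N → I :=
  fun q => Fin.addCases (m := n) (n := 2) (motive := fun _ => I) (fun a => t (a, q.2))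
    (fun b => s (e (b, q.2))) q.1

lemma comb_left (n : ℕ) (s : Fin (k + 2) → I) (t : Fin n × N → I) (a : Fin n) (g : N) :
    comb e n s t (Fin.castAdd 2 a, g) = t (a, g) := by
  simp [comb]

lemma comb_right (n : ℕ) (s : Fin (k + 2) → I) (t : Fin n × N → I) (b : Fin 2) (g : N) :
    comb e n s t (Fin.natAdd n b, g) = s (e (b, g)) := by
  simp [comb]

lemma continuous_comb (n : ℕ) :
    Continuous fun z : (Fin (k + 2) → I) × (Fin n × N → I) => comb e n z.1 z.2 := by
  refine continuous_pi ?_
  rintro ⟨j, g⟩
  induction j using Fin.addCases (m := n) (n := 2) with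
  | left a =>
    simp only [comb_left]
    exact (continuous_apply _).comp continuous_snd
  | right b =>
    simp only [comb_right]
    exact (continuous_apply _).comp continuous_fst

lemma comb_boundary_left (n : ℕ) (s : Fin (k + 2) → I) {t : Fin n × N → I}
    (ht : t ∈ Cube.boundary (Fin n × N)) : comb e n s t ∈ Cube.boundary (Fin (n + 1 + 1) × N) := by
  obtain ⟨⟨a, g⟩, h⟩ := ht
  exact ⟨(Fin.castAdd 2 a, g), by rw [comb_left]; exact h⟩

lemma comb_boundary_right (n : ℕ) {s : Fin (k + 2) → I} (hs : s ∈ Cube.boundary (Fin (k + 2)))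
    (t : Fin n × N → I) : comb e n s t ∈ Cube.boundary (Fin (n + 1 + 1) × N) := by
  obtain ⟨a, h⟩ := hs
  refine ⟨(Fin.natAdd n (e.symm a).1, (e.symm a).2), ?_⟩
  rw [comb_right]
  simpa using h

/-- Compatibility of `comb` with the stabilisation maps. -/
lemma comb_succ (n : ℕ) (s : Fin (k + 2) → I) (t : Fin (n + 1) × N → I) :
    comb e (n + 1) s t = fun q => Fin.cases (motive := fun _ => I) (t (0, q.2))
      (fun j => comb e n s (fun r => t (r.1.succ, r.2)) (j, q.2)) q.1 := by
  funext ⟨j, g⟩
  induction j using Fin.addCases (m := n + 1) (n := 2) with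
  | left a =>
    rw [comb_left]
    induction a using Fin.cases with
    | zero => rfl
    | succ a =>
      have h : (Fin.castAdd 2 a.succ : Fin (n + 1 + 2)) = (Fin.castAdd 2 a : Fin (n + 2)).succ :=
        rfl
      rw [h]
      simp only [Fin.cases_succ]
      rw [comb_left]
  | right b =>
    rw [comb_right]
    have h : (Fin.natAdd (n + 1) b : Fin (n + 1 + 2)) = (Fin.natAdd n b : Fin (n + 2)).succ := by
      ext
      simp
      omega
    rw [h]
    simp only [Fin.cases_succ]
    rw [comb_right]

variable {X : GSpt G N} (D : UnitData X)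

/-- The map `S^{n·ℝ[N]} → X_n`, `t ↦ cell [s, t]`, for `s ∈ I^{k+2}`. -/
def unitInner (n : ℕ) (s : Fin (k + 2) → I) : X.LoopFix ⊥ n :=
  ⟨⟨⟨fun t => D.cell n (comb e n s t), (D.cell n).continuous.comp
      ((continuous_comb e n).comp (Continuous.prodMk continuous_const continuous_id))⟩,
    fun t ht => D.cell_boundary n _ (comb_boundary_left e n s ht)⟩, by
    intro h hh t
    rw [Subgroup.mem_bot] at hh
    subst hh
    simp⟩

/-- The representative at level `n` of the unit: the map `cell n` as a `(k+2)`-fold loop in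
`Map_*(S^{n·ℝ[N]}, X_n)`. -/
def unitLoop (n : ℕ) : Ω^ (Fin (k + 2)) (X.LoopFix ⊥ n) (X.loopFixBase ⊥ n) :=
  ⟨⟨unitInner e D n, by
    refine Continuous.subtype_mk (Continuous.subtype_mk ?_ _) _
    refine ContinuousMap.continuous_of_continuous_uncurry _ ?_
    exact (D.cell n).continuous.comp (continuous_comb e n)⟩, by
    intro s hs
    apply Subtype.ext
    ext t
    exact D.cell_boundary n _ (comb_boundary_right e n hs t)⟩

lemma mapLoop_stab_unitLoop (n : ℕ) :
    mapLoop (X.stab ⊥ n) (X.stab_base ⊥ n) (unitLoop e D n) = unitLoop e D (n + 1) := by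
  ext s
  apply Subtype.ext
  ext t
  show X.str n (D.cell n (comb e n s fun q => t (q.1.succ, q.2))) (fun i => t (0, i)) =
    D.cell (n + 1) (comb e (n + 1) s t)
  rw [comb_succ, D.str_cell]

/-- The loop `unitLoop e D n` is not null-homotopic. -/
theorem not_homotopic_unitLoop (n : ℕ) : ¬ GenLoop.Homotopic (unitLoop e D n) GenLoop.const := by
  rintro ⟨Hh⟩
  let S : (Fin (n + 1 + 1) × N → I) → Fin (k + 2) → I :=
    fun y a => y (Fin.natAdd n (e.symm a).1, (e.symm a).2)
  let T : (Fin (n + 1 + 1) × N → I) → Fin n × N → I := fun y r => y (Fin.castAdd 2 r.1, r.2)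
  have hS : Continuous S := continuous_pi fun a => continuous_apply _
  have hT : Continuous T := continuous_pi fun r => continuous_apply _
  have hST : ∀ y, comb e n (S y) (T y) = y := fun y => by
    funext ⟨j, g⟩
    induction j using Fin.addCases (m := n) (n := 2) with
    | left a => rw [comb_left]
    | right b => rw [comb_right]; simp [S]
  have hbd : ∀ y, y ∈ Cube.boundary (Fin (n + 1 + 1) × N) →
      S y ∈ Cube.boundary (Fin (k + 2)) ∨ T y ∈ Cube.boundary (Fin n × N) := by
    rintro y ⟨⟨j, g⟩, h⟩
    induction j using Fin.addCases (m := n) (n := 2) with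
    | left a => exact Or.inr ⟨(a, g), h⟩
    | right b => exact Or.inl ⟨e (b, g), by simpa [S] using h⟩
  let F : I × (Fin (n + 1 + 1) × N → I) → (Fin (n + 1 + 1) × N → ℝ) × ℝ :=
    fun z => D.bump n ((Hh (z.1, S z.2)).1 (T z.2))
  have hF : Continuous F := by
    refine (D.continuous_bump n).comp ?_
    have h1 : Continuous fun z : I × (Fin (n + 1 + 1) × N → I) => (Hh (z.1, S z.2)).1.1 :=
      continuous_subtype_val.comp (continuous_subtype_val.comp
        (Hh.continuous.comp (continuous_fst.prodMk (hS.comp continuous_snd))))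
    exact continuous_eval.comp (h1.prodMk (hT.comp continuous_snd))
  refine no_null_cubeBump F hF (fun y => ?_) (fun y => ?_) (fun t y hy => ?_)
    (fun z => D.bump_ne_zero n _)
  · show D.bump n ((Hh (0, S y)).1 (T y)) = _
    rw [Hh.apply_zero]
    show D.bump n (D.cell n (comb e n (S y) (T y))) = _
    rw [hST, D.bump_cell]
  · show D.bump n ((Hh (1, S y)).1 (T y)) = _
    rw [Hh.apply_one]
    exact D.bump_base n
  · show D.bump n ((Hh (t, S y)).1 (T y)) = _
    rcases hbd y hy with h | h
    · rw [Hh.eq_fst t h]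
      have : (unitLoop e D n).1 (S y) = X.loopFixBase ⊥ n := (unitLoop e D n).2 _ h
      rw [this]
      exact D.bump_base n
    · have : (Hh (t, S y)).1 (T y) = X.base n := (Hh (t, S y)).1.2 _ h
      rw [this]
      exact D.bump_base n

/-- The sequence of abelian groups whose colimit is `π_{k+2}^{1}(X)`. -/
abbrev unitSeq (X : GSpt G N) (k : ℕ) : ℕ ⥤ AddCommGrpCat.{0} :=
  (GSpt.piSeq ⊥ k).obj X ⋙ CommGrpCat.toAddCommGrp

/-- The class of `unitLoop e D j` in the `j`-th group of the sequence. -/
def unitAt (j : ℕ) : (unitSeq X k).obj j :=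
  (Additive.ofMul (piMk (unitLoop e D j)) :
    Additive (HomotopyGroup (Fin (k + 2)) (X.LoopFix ⊥ j) (X.loopFixBase ⊥ j)))

lemma unitSeq_map_succ (j : ℕ) :
    (unitSeq X k).map (homOfLE (Nat.le_succ j)) (unitAt e D j) = unitAt e D (j + 1) := by
  have h : ((GSpt.piSeq ⊥ k).obj X).map (homOfLE (Nat.le_succ j)) =
      CommGrpCat.ofHom (mapPiHom (X.stab ⊥ j) (X.stab_base ⊥ j)) :=
    Functor.ofSequence_map_homOfLE_succ _ j
  show (CommGrpCat.toAddCommGrp.map (((GSpt.piSeq ⊥ k).obj X).map (homOfLE (Nat.le_succ j))))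
    (unitAt e D j) = _
  rw [h]
  show Additive.ofMul (piMk (mapLoop (X.stab ⊥ j) (X.stab_base ⊥ j) (unitLoop e D j))) = _
  rw [mapLoop_stab_unitLoop]
  rfl

lemma unitSeq_map (j : ℕ) (f : 0 ⟶ j) : (unitSeq X k).map f (unitAt e D 0) = unitAt e D j := by
  induction j with
  | zero =>
    rw [Subsingleton.elim f (𝟙 0), (unitSeq X k).map_id]
    rfl
  | succ j ih =>
    rw [Subsingleton.elim f (homOfLE (Nat.zero_le j) ≫ homOfLE (Nat.le_succ j)),
      (unitSeq X k).map_comp]
    show (unitSeq X k).map (homOfLE (Nat.le_succ j))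
      ((unitSeq X k).map (homOfLE (Nat.zero_le j)) (unitAt e D 0)) = _
    rw [ih, unitSeq_map_succ]

lemma unitAt_ne_zero (j : ℕ) : unitAt e D j ≠ 0 := by
  intro h
  have h1 : piMk (unitLoop e D j) = piMk GenLoop.const := h
  exact not_homotopic_unitLoop e D j (Quotient.exact h1)

/-- The unit is not zero in the colimit. -/
theorem colimit_unit_ne_zero : Limits.colimit.ι (unitSeq X k) 0 (unitAt e D 0) ≠ 0 := by
  intro h
  have h0 : Limits.colimit.ι (unitSeq X k) 0 (unitAt e D 0) =
      Limits.colimit.ι (unitSeq X k) 0 0 := by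
    rw [h, map_zero]
  obtain ⟨j, f, g, hfg⟩ := (Limits.Concrete.colimit_rep_eq_iff_exists (unitSeq X k) _ _).1 h0
  rw [unitSeq_map] at hfg
  exact unitAt_ne_zero e D j (hfg.trans (map_zero _))

include e D in
/-- **Criterion**: `π_{k+2}^{1}(X) ≠ 0` for `k + 2 = 2 |N|`. -/
theorem UnitData.not_subsingleton_stablePi : ¬ Subsingleton ((GSpt.stablePi ⊥ k).obj X) := by
  intro hs
  exact colimit_unit_ne_zero e D (hs.elim _ _)

end Criterion

/-! ## The sphere spectrum -/

section Sphere

variable (G : Type) [Group G] [Fintype G]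

/-- The map `S^{nρ} = S^{nρ} ∧ S⁰ → ℝ^{Fin n × G} × ℝ ∖ {0}` induced by `cubeBump`. -/
def bumpSusp (n : ℕ) : SuspSpace G Bool false n → (Fin n × G → ℝ) × ℝ :=
  Quot.lift (fun p => if p.2 = true then cubeBump p.1 else (0, -(1 / 4))) (by
    have key : ∀ p : (Fin n × G → I) × Bool, (p.1 ∈ Cube.boundary (Fin n × G) ∨ p.2 = false) →
        (if p.2 = true then cubeBump p.1 else (0, -(1 / 4))) =
          ((0, -(1 / 4)) : (Fin n × G → ℝ) × ℝ) := by
      rintro ⟨u, b⟩ h
      cases b
      · rfl
      · rcases h with h | h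
        · simpa using cubeBump_of_boundary h
        · exact absurd h (by simp)
    intro p q h
    rw [key p h.1, key q h.2])

lemma bumpSusp_mk (n : ℕ) (u : Fin n × G → I) :
    bumpSusp G n (Quot.mk _ (u, true)) = cubeBump u := rfl

lemma bumpSusp_mk_false (n : ℕ) (u : Fin n × G → I) :
    bumpSusp G n (Quot.mk _ (u, false)) = (0, -(1 / 4)) := rfl

lemma bumpSusp_base (n : ℕ) : bumpSusp G n (suspBase G Bool false n) = (0, -(1 / 4)) := rfl

lemma continuous_bumpSusp (n : ℕ) : Continuous (bumpSusp G n) := by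
  refine continuous_quot_lift _ ?_
  rw [continuous_prod_of_discrete_right]
  intro b
  cases b
  · exact continuous_const
  · exact continuous_cubeBump

lemma bumpSusp_ne_zero (n : ℕ) (x : SuspSpace G Bool false n) : bumpSusp G n x ≠ 0 := by
  induction x using Quot.inductionOn with
  | h p =>
    obtain ⟨u, b⟩ := p
    cases b
    · intro h
      have : (-(1 / 4) : ℝ) = 0 := congrArg Prod.snd h
      norm_num at this
    · exact cubeBump_ne_zero u

/-- The spectrum `sh² 𝕊 ≃ Σ^{2ρ} 𝕊`, with `n`-th space `S^{(n+2)ρ}`, satisfies the criterion: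
`cell n` is the quotient map `I^{(n+2)ρ} → S^{(n+2)ρ}`. -/
def sphereUnitData : UnitData ((GSpt.shIter 2).obj (GSpt.sphere G)) where
  cell n := ⟨fun y => (Quot.mk _ (y, true) : SuspSpace G Bool false (n + 1 + 1)),
    continuous_quot_mk.comp (continuous_id.prodMk continuous_const)⟩
  cell_boundary _ _ hy := suspMk_eq_base G Bool false _ _ (Or.inl hy)
  str_cell _ _ _ := rfl
  bump n := bumpSusp G (n + 1 + 1)
  continuous_bump _ := continuous_bumpSusp G _
  bump_ne_zero _ := bumpSusp_ne_zero G _
  bump_cell _ _ := rfl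
  bump_base _ := rfl

end Sphere

/-! ## The geometric fixed points of the sphere spectrum -/

section GeomFixSphere

variable (G : Type) [Group G] [Fintype G] (H : Subgroup G)

/-- The number of the `H`-orbit of `g`. -/
def orbIdx (g : G) : Fin (orbitCount H G) := orbitEnum H G (Quotient.mk _ g)

/-- A representative of the `j`-th `H`-orbit. -/
def orbRep (j : Fin (orbitCount H G)) : G := ((orbitEnum H G).symm j).out

lemma orbIdx_orbRep (j : Fin (orbitCount H G)) : orbIdx G H (orbRep G H j) = j := by
  unfold orbIdx orbRep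
  rw [Quotient.out_eq, Equiv.apply_symm_apply]

lemma orbIdx_smul (h : G) (hh : h ∈ H) (g : G) : orbIdx G H (h • g) = orbIdx G H g := by
  unfold orbIdx
  congr 1
  exact Quotient.sound ⟨⟨h, hh⟩, rfl⟩

/-- The map `I^{n·d} → (S^{nρ})^H`, `d = [G : H]`: a function on `Fin n × Fin d` is extended to
`Fin n × G`, constant on the `H`-orbits. -/
def geomCell (n : ℕ) :
    C(Fin n × Fin (orbitCount H G) → I, ((GSpt.sphere G).geomFix H).space n) where
  toFun y := ⟨(Quot.mk _ (fun q => y (q.1, orbIdx G H q.2), true) : SuspSpace G Bool false n), by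
    rintro ⟨h, hh⟩
    refine congrArg (Quot.mk _) (Prod.ext ?_ rfl)
    funext q
    show y (q.1, orbIdx G H (h⁻¹ • q.2)) = y (q.1, orbIdx G H q.2)
    rw [orbIdx_smul G H _ (H.inv_mem hh)]⟩
  continuous_toFun := by
    refine Continuous.subtype_mk (continuous_quot_mk.comp ?_) _
    exact (continuous_pi fun q => continuous_apply _).prodMk continuous_const

/-- Every point of `(S^{nρ})^H` is the base point or in the image of `geomCell`. -/
lemma geomFix_sphere_cases (n : ℕ) (x : ((GSpt.sphere G).geomFix H).space n) :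
    x = ((GSpt.sphere G).geomFix H).base n ∨ ∃ y, x = geomCell G H n y := by
  let _ := boolAct G
  have : ContinuousConstSMul G Bool := ⟨fun _ => continuous_id⟩
  obtain ⟨w, rfl⟩ := (geomFixSusp_bijective G Bool false (fun _ => rfl) H n).2 x
  induction w using Quot.inductionOn with
  | h p =>
    obtain ⟨y, ⟨b, hb⟩⟩ := p
    cases b
    · left
      exact Subtype.ext (suspMk_eq_base G Bool false _ _ (Or.inr rfl))
    · right
      exact ⟨y, rfl⟩

/-- The map `(S^{nρ})^H → ℝ^{n·d} × ℝ`: `bumpSusp` followed by the projection onto the coordinates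
of the representatives of the orbits. -/
def geomBump (n : ℕ) (x : ((GSpt.sphere G).geomFix H).space n) :
    (Fin n × Fin (orbitCount H G) → ℝ) × ℝ :=
  (fun r => (bumpSusp G n x.1).1 (r.1, orbRep G H r.2), (bumpSusp G n x.1).2)

lemma continuous_geomBump (n : ℕ) : Continuous (geomBump G H n) := by
  have h : Continuous fun x : ((GSpt.sphere G).geomFix H).space n => bumpSusp G n x.1 :=
    (continuous_bumpSusp G n).comp continuous_subtype_val
  exact (continuous_pi fun r => (continuous_apply _).comp (continuous_fst.comp h)).prodMk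
    (continuous_snd.comp h)

lemma geomBump_cell (n : ℕ) (y : Fin n × Fin (orbitCount H G) → I) :
    geomBump G H n (geomCell G H n y) = cubeBump y :=
  cubeBump_comp (f := fun q : Fin n × G => (q.1, orbIdx G H q.2))
    (r := fun r : Fin n × Fin (orbitCount H G) => (r.1, orbRep G H r.2))
    (fun r => Prod.ext rfl (orbIdx_orbRep G H r.2)) y

lemma geomBump_base (n : ℕ) :
    geomBump G H n (((GSpt.sphere G).geomFix H).base n) = (0, -(1 / 4)) := rfl

lemma geomBump_ne_zero (n : ℕ) (x : ((GSpt.sphere G).geomFix H).space n) :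
    geomBump G H n x ≠ 0 := by
  rcases geomFix_sphere_cases G H n x with rfl | ⟨y, rfl⟩
  · rw [geomBump_base]
    intro h
    have : (-(1 / 4) : ℝ) = 0 := congrArg Prod.snd h
    norm_num at this
  · rw [geomBump_cell]
    exact cubeBump_ne_zero y

/-- The spectrum `sh² Φ^H 𝕊` satisfies the criterion. -/
def geomUnitData : UnitData ((GSpt.shIter 2).obj ((GSpt.sphere G).geomFix H)) where
  cell n := geomCell G H (n + 1 + 1)
  cell_boundary n y hy := by
    obtain ⟨⟨a, j⟩, h⟩ := hy
    refine Subtype.ext (suspMk_eq_base G Bool false _ _ (Or.inl ⟨(a, orbRep G H j), ?_⟩))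
    show y (a, orbIdx G H (orbRep G H j)) = 0 ∨ y (a, orbIdx G H (orbRep G H j)) = 1
    rw [orbIdx_orbRep]
    exact h
  str_cell n y s := by
    apply Subtype.ext
    refine congrArg (Quot.mk _) (Prod.ext ?_ rfl)
    funext ⟨j, i⟩
    induction j using Fin.cases with
    | zero => rfl
    | succ j => rfl
  bump n := geomBump G H (n + 1 + 1)
  continuous_bump _ := continuous_geomBump G H _
  bump_ne_zero _ := geomBump_ne_zero G H _
  bump_cell _ := geomBump_cell G H _
  bump_base _ := geomBump_base G H _

end GeomFixSphere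

/-! ## The theorems -/

section Main

variable {G : Type} [Group G] {N : Type} [MulAction G N]

/-- A spectrum with a non-zero homotopy group is not stably equivalent to the point, -/
theorem not_stableEquiv_toTrivial {X : GSpt G N} {H : Subgroup G} {k m : ℕ}
    (hX : ¬ Subsingleton ((GSpt.stablePi H k).obj ((GSpt.shIter m).obj X))) :
    ¬ GSpt.stableEquiv (GSpt.toTrivial (GSpt.isTrivial_pt (G := G) (N := N)) X) := by
  intro h
  have hiso := h H k m
  have hs : Subsingleton ((GSpt.stablePi H k).obj ((GSpt.shIter m).obj (GSpt.pt G N))) :=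
    ((GSpt.isTrivial_pt (G := G) (N := N)).shIter m).subsingleton_stablePi H k
  refine hX ⟨fun x y => ?_⟩
  have hinj : Function.Injective ((GSpt.stablePi H k).map
      ((GSpt.shIter m).map (GSpt.toTrivial (GSpt.isTrivial_pt (G := G) (N := N)) X))) :=
    ((ConcreteCategory.isIso_iff_bijective _).1 hiso).1
  exact hinj (hs.elim _ _)

/-- and it is not a zero object of the stable homotopy category. -/
theorem not_isZero_of_stablePi {X : GSpt G N} {H : Subgroup G} {k m : ℕ}
    (hX : ¬ Subsingleton ((GSpt.stablePi H k).obj ((GSpt.shIter m).obj X))) :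
    ¬ Limits.IsZero (GSH.Q.obj X) := by
  intro hz
  have hz' := (GSH.pi H k m).mapIso
    (hz.iso (GSH.isZero_of_isTrivial (GSpt.isTrivial_pt (G := G) (N := N))))
  have hs : Subsingleton ((GSpt.stablePi H k).obj ((GSpt.shIter m).obj (GSpt.pt G N))) :=
    ((GSpt.isTrivial_pt (G := G) (N := N)).shIter m).subsingleton_stablePi H k
  refine hX ⟨fun x y => ?_⟩
  have hinj : Function.Injective hz'.hom :=
    ((ConcreteCategory.isIso_iff_bijective _).1 (inferInstance : IsIso hz'.hom)).1
  exact hinj (hs.elim _ _)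

variable (G) [Finite G]

/-- **The equivariant stable homotopy groups are not all zero**: the group
`π_{2|G|}^{1}(sh² 𝕊) = π_{2|G|}^{1}(Σ^{2ρ} 𝕊) = π_0(𝕊)` of the genuine `G`-sphere spectrum is not
zero. -/
theorem not_subsingleton_stablePi_sphere :
    ¬ Subsingleton ((GSpt.stablePi (⊥ : Subgroup G) (2 * Nat.card G - 2)).obj
      ((GSpt.shIter 2).obj (GSpt.sphere G))) := by
  have := Fintype.ofFinite G
  have hc : 0 < Nat.card G := Nat.card_pos
  have h : Nat.card (Fin 2 × G) = 2 * Nat.card G - 2 + 2 := by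
    rw [Nat.card_prod, Nat.card_fin]
    omega
  exact (sphereUnitData G).not_subsingleton_stablePi (Finite.equivFinOfCardEq h)

/-- **Not every map is a stable equivalence**: the map from the sphere spectrum to the point is not
one. -/
theorem not_stableEquiv_sphere_pt :
    ¬ GSpt.stableEquiv (GSpt.toTrivial (GSpt.isTrivial_pt (G := G) (N := G)) (GSpt.sphere G)) :=
  not_stableEquiv_toTrivial (not_subsingleton_stablePi_sphere G)

/-- **The genuine stable homotopy category is not trivial**: the sphere spectrum is not a zero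
object of `GSH G G`. -/
theorem not_isZero_sphere : ¬ Limits.IsZero (GSH.Q.obj (GSpt.sphere G)) :=
  not_isZero_of_stablePi (not_subsingleton_stablePi_sphere G)

variable {G} (H : Subgroup G)

/-- **Geometric fixed points are not degenerate**: for every subgroup `H` of `G` the group
`π_{2d}(sh² Φ^H 𝕊) = π_0(Φ^H 𝕊)`, `d = [G : H]`, is not zero.  (These are the groups, for the
subgroup `⊤` of the trivial group, in terms of which `Spt.RationallyAcyclic` is defined.) -/
theorem not_subsingleton_stablePi_geomFix_sphere :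
    ¬ Subsingleton ((GSpt.stablePi (⊤ : Subgroup PUnit.{1}) (2 * orbitCount H G - 2)).obj
      ((GSpt.shIter 2).obj ((GSpt.sphere G).geomFix H))) := by
  have := Fintype.ofFinite G
  have hc : 0 < orbitCount H G := by
    have : Nonempty (MulAction.orbitRel.Quotient H G) := ⟨Quotient.mk _ 1⟩
    have : Finite (MulAction.orbitRel.Quotient H G) := Quotient.finite _
    exact Nat.card_pos
  have h : Nat.card (Fin 2 × Fin (orbitCount H G)) = 2 * orbitCount H G - 2 + 2 := by
    rw [Nat.card_prod, Nat.card_fin, Nat.card_fin]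
    omega
  rw [Subsingleton.elim (⊤ : Subgroup PUnit.{1}) ⊥]
  exact (geomUnitData G H).not_subsingleton_stablePi (Finite.equivFinOfCardEq h)

/-- `Φ^H 𝕊` is not stably equivalent to the point, -/
theorem not_stableEquiv_geomFix_sphere_pt :
    ¬ GSpt.stableEquiv (GSpt.toTrivial (GSpt.isTrivial_pt (G := PUnit.{1})
      (N := Fin (orbitCount H G))) ((GSpt.sphere G).geomFix H)) :=
  not_stableEquiv_toTrivial (not_subsingleton_stablePi_geomFix_sphere H)

/-- and it is not a zero object of the stable homotopy category `GSH PUnit (Fin d)`, `d = [G : H]`,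
in which the `K(i)`-acyclicity of geometric fixed points is tested. -/
theorem not_isZero_geomFix_sphere : ¬ Limits.IsZero (GSH.Q.obj ((GSpt.sphere G).geomFix H)) :=
  not_isZero_of_stablePi (not_subsingleton_stablePi_geomFix_sphere H)

end Main

end

end Claimed.Open.R314
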