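import Claimed.Open.R314.SanityTelescope
import Claimed.Open.R314.SanityCofinal

/-!
# Result 314: `Ω`-spectra, and Morava `K`-theories are not zero

`SymRing.IsMoravaK p n` is written in terms of the *unstable* groups `π_j(R_m)` of an `Ω`-spectrum, whereas the stable
homotopy category `GSH` and `Spt.CohomologyVanishes` are defined through the *stable* groups `stablePi`
(colimits).  This file connects the two, and shows that the acyclicity condition of `Statement` at the heights
`i ≥ 1` is not automatically true **for the theories about which `Statement` speaks**.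

* `homotopic_of_sigLoop`: if `X_n → ΩX_{n+1}` is a weak equivalence, the suspension map
  `Ω^jX_n → Ω^{j+1}X_{n+1}`, `Γ ↦ (x ↦ σ̃_n(Γ(x_1,…,x_j))(x_0))`, reflects homotopies (currying a homotopy);
* `uncurryLoop_stab`, `uncurryLoop_stabIter`: uncurrying turns the stabilisation maps in the colimit `stablePi` into
  these suspension maps;
* `homotopic_of_colimit_eq`, `not_subsingleton_stablePi_of_isOmega`: for an `Ω`-spectrum `X : Spt 1` the map
  `π_{k+2}(X_0) → π_{k+2}(X)` is injective;
* `not_subsingleton_pi_diag`: for an `Ω`-spectrum, `π_0(X_0)` injects into `π_j(X_j)`;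
* `SymRing.IsMoravaK.exists_not_subsingleton_stablePi`: if `R.IsMoravaK p n` (`p` prime, `n ≥ 1`), then the stable group
  `π_q(R)`, `q = 2(p^n - 1)`, is not zero  (`π_0(R_0)`, with `p` elements, injects into `π_q(R_q)`, and
  multiplication by the unit `w` is a weak equivalence `R_0 → R_q`);
* `SymRing.IsMoravaK.not_isZero_every`, `SymRing.IsMoravaK.not_cohomologyVanishes_every_self`: hence, with
  `SanityCofinal.lean`, `every d R` is not a zero object of `GSH PUnit (Fin d)` and `R^*(every d R) ≠ 0`, for every `d ≥ 1`: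
  for **every** Morava `K`-theory `K i` the predicate `Spt.CohomologyVanishes (K i).toSpt` has a non-example in every
  category `Spt d` in which `GeomAcyclic K i H` is tested.
* `kap_val` (addendum to `SanityCofinal.lean`, asked for by the checker helper98): `kap d n (a, c) = d a + c`.
-/

open CategoryTheory Topology unitInterval
open scoped Topology.Homotopy

namespace Claimed.Open.R314

noncomputable section

set_option linter.unusedSectionVars false

/-! ## Addendum to `SanityCofinal.lean`: the value of `kap` -/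

lemma shiftF_val (m j : ℕ) (r : Fin m) : (shiftF m j r : ℕ) = r + j := by
  induction j with
  | zero => rfl
  | succ j ih =>
    show ((shiftF m j r).succ : ℕ) = _
    rw [Fin.val_succ, ih]
    omega

lemma frontF_val (m j : ℕ) (c : Fin j) : (frontF m j c : ℕ) = c := by
  induction j with
  | zero => exact c.elim0
  | succ j ih =>
    induction c using Fin.cases with
    | zero => rfl
    | succ c =>
      show ((frontF m j c).succ : ℕ) = _
      rw [Fin.val_succ, ih, Fin.val_succ]

/-- The value of `kap`. -/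
lemma kap_val (d n : ℕ) (q : Fin n × Fin d) : (kap d n q : ℕ) = d * q.1 + q.2 := by
  induction n with
  | zero => exact q.1.elim0
  | succ n ih =>
    obtain ⟨a, c⟩ := q
    induction a using Fin.cases with
    | zero =>
      rw [kap_zero, frontF_val]
      simp
    | succ a =>
      rw [kap_succ, shiftF_val, ih]
      simp only [Fin.val_succ]
      rw [Nat.mul_succ]
      omega

/-! ## The suspension map `Ω^j X_n → Ω^{j+1} X_{n+1}` -/

lemma continuous_finCons (j : ℕ) :
    Continuous fun z : I × (Fin j → I) => (Fin.cons z.1 z.2 : Fin (j + 1) → I) := by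
  refine continuous_pi fun i => ?_
  induction i using Fin.cases with
  | zero => exact continuous_fst
  | succ i => exact (continuous_apply i).comp continuous_snd

lemma mapPi_injective_of {A B N : Type} [TopologicalSpace A] [TopologicalSpace B] (g : C(A, B))
    {a : A} {b : B} (h : g a = b)
    (hinj : Function.Injective (mapPi (N := N) g (rfl : g a = g a))) :
    Function.Injective (mapPi (N := N) g h) := by
  subst h
  exact hinj

section Sigma

variable (X : Spt 1)

lemma str_base_eq (n : ℕ) : X.str n (X.base n) = GenLoop.const := by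
  ext t
  exact X.str_base n t

/-- `Γ ↦ (x ↦ σ̃_n(Γ(x_1, …, x_j))(x_0))`. -/
def sigLoop (n j : ℕ) (Γ : Ω^ (Fin j) (X.space n) (X.base n)) :
    Ω^ (Fin (j + 1)) (X.space (n + 1)) (X.base (n + 1)) :=
  ⟨⟨fun x => X.str n (Γ (fun i => x i.succ)) (fun _ => x 0), by fun_prop⟩, by
    rintro x ⟨i, hi⟩
    show X.str n (Γ (fun i => x i.succ)) (fun _ => x 0) = _
    induction i using Fin.cases with
    | zero => exact (X.str n _).2 _ ⟨0, hi⟩
    | succ i =>
      have : Γ (fun i => x i.succ) = X.base n := Γ.2 _ ⟨i, hi⟩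
      rw [this, X.str_base]⟩

lemma sigLoop_cons (n j : ℕ) (Γ : Ω^ (Fin j) (X.space n) (X.base n)) (a : I) (u : Fin j → I) :
    sigLoop X n j Γ (Fin.cons a u) = X.str n (Γ u) (fun _ => a) := rfl

/-- If the structure map `X_n → Ω X_{n+1}` is a weak equivalence, the suspension map reflects
homotopies. -/
lemma homotopic_of_sigLoop {n j : ℕ} (hw : IsWeakEquiv (X.str n))
    {Γ Γ' : Ω^ (Fin j) (X.space n) (X.base n)}
    (h : GenLoop.Homotopic (sigLoop X n j Γ) (sigLoop X n j Γ')) : GenLoop.Homotopic Γ Γ' := by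
  obtain ⟨Hh⟩ := h
  have hb0 : ∀ (a : I) (u : Fin j → I), (a = 0 ∨ a = 1) →
      (Fin.cons a u : Fin (j + 1) → I) ∈ Cube.boundary (Fin (j + 1)) := fun a u ha => ⟨0, ha⟩
  have hbs : ∀ (a : I) (u : Fin j → I), u ∈ Cube.boundary (Fin j) →
      (Fin.cons a u : Fin (j + 1) → I) ∈ Cube.boundary (Fin (j + 1)) := by
    rintro a u ⟨i, hi⟩
    exact ⟨i.succ, hi⟩
  let K : I × (Fin j → I) → Ω^ (Fin 1) (X.space (n + 1)) (X.base (n + 1)) := fun z =>
    ⟨⟨fun v => Hh (z.1, Fin.cons (v 0) z.2), by
        have h1 : Continuous fun v : Fin 1 → I => (v 0, z.2) :=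
          (continuous_apply 0).prodMk continuous_const
        exact Hh.continuous.comp (continuous_const.prodMk ((continuous_finCons j).comp h1))⟩, by
      rintro v ⟨i, hi⟩
      rw [Subsingleton.elim i 0] at hi
      show Hh (z.1, Fin.cons (v 0) z.2) = _
      rw [Hh.eq_fst z.1 (hb0 _ z.2 hi)]
      exact (sigLoop X n j Γ).2 _ (hb0 _ z.2 hi)⟩
  have hK : Continuous K := by
    refine Continuous.subtype_mk ?_ _
    refine ContinuousMap.continuous_of_continuous_uncurry _ ?_
    have h2 : Continuous fun a : (I × (Fin j → I)) × (Fin 1 → I) => (a.2 0, a.1.2) :=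
      ((continuous_apply 0).comp continuous_snd).prodMk (continuous_snd.comp continuous_fst)
    exact Hh.continuous.comp ((continuous_fst.comp continuous_fst).prodMk
      ((continuous_finCons j).comp h2))
  have hv : ∀ v : Fin 1 → I, (fun _ => v 0) = v := fun v => by
    funext i
    rw [Subsingleton.elim i 0]
  have key : GenLoop.Homotopic (mapLoop (X.str n) (str_base_eq X n) Γ)
      (mapLoop (X.str n) (str_base_eq X n) Γ') := by
    refine ⟨⟨⟨⟨K, hK⟩, ?_, ?_⟩, ?_⟩⟩
    · intro u
      ext v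
      show Hh (0, Fin.cons (v 0) u) = X.str n (Γ u) v
      rw [Hh.apply_zero]
      show X.str n (Γ u) (fun _ => v 0) = _
      rw [hv]
    · intro u
      ext v
      show Hh (1, Fin.cons (v 0) u) = X.str n (Γ' u) v
      rw [Hh.apply_one]
      show X.str n (Γ' u) (fun _ => v 0) = _
      rw [hv]
    · intro τ u hu
      ext v
      show Hh (τ, Fin.cons (v 0) u) = X.str n (Γ u) v
      rw [Hh.eq_fst τ (hbs _ u hu)]
      show X.str n (Γ u) (fun _ => v 0) = _
      rw [hv]
  have hinj := mapPi_injective_of (N := Fin j) (X.str n) (str_base_eq X n) (hw.2 (X.base n) j).1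
  exact Quotient.exact (hinj (Quotient.sound key))

/-- The iterated suspension map `Ω^M X_m → Ω^{M+j} X_{m+j}`. -/
def sigIter (m M : ℕ) (Γ : Ω^ (Fin M) (X.space m) (X.base m)) :
    ∀ j : ℕ, Ω^ (Fin (M + j)) (X.space (m + j)) (X.base (m + j))
  | 0 => Γ
  | j + 1 => sigLoop X (m + j) (M + j) (sigIter m M Γ j)

lemma homotopic_of_sigIter (hΩ : X.IsOmega) {m M : ℕ} {Γ Γ' : Ω^ (Fin M) (X.space m) (X.base m)}
    (j : ℕ) (h : GenLoop.Homotopic (sigIter X m M Γ j) (sigIter X m M Γ' j)) :
    GenLoop.Homotopic Γ Γ' := by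
  induction j with
  | zero => exact h
  | succ j ih => exact ih (homotopic_of_sigLoop X (hΩ (m + j)) h)

/-- The diagonal version `Ω^0 X_0 → Ω^j X_j`. -/
def sigDiag (Γ : Ω^ (Fin 0) (X.space 0) (X.base 0)) :
    ∀ j : ℕ, Ω^ (Fin j) (X.space j) (X.base j)
  | 0 => Γ
  | j + 1 => sigLoop X j j (sigDiag Γ j)

lemma homotopic_of_sigDiag (hΩ : X.IsOmega) {Γ Γ' : Ω^ (Fin 0) (X.space 0) (X.base 0)}
    (j : ℕ) (h : GenLoop.Homotopic (sigDiag X Γ j) (sigDiag X Γ' j)) :
    GenLoop.Homotopic Γ Γ' := by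
  induction j with
  | zero => exact h
  | succ j ih => exact ih (homotopic_of_sigLoop X (hΩ j) h)

/-- For an `Ω`-spectrum, `π_0(X_0)` injects into `π_j(X_j)`. -/
theorem not_subsingleton_pi_diag (hΩ : X.IsOmega)
    (h : ¬ Subsingleton (HomotopyGroup (Fin 0) (X.space 0) (X.base 0))) (j : ℕ) :
    ¬ Subsingleton (HomotopyGroup (Fin j) (X.space j) (X.base j)) := by
  intro hs
  refine h ⟨?_⟩
  rintro ⟨Γ⟩ ⟨Γ'⟩
  exact Quotient.sound (homotopic_of_sigDiag X hΩ j
    (Quotient.exact (hs.elim (piMk (sigDiag X Γ j)) (piMk (sigDiag X Γ' j)))))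

end Sigma

/-! ## Uncurrying and stabilisation -/

section Split

variable {k : ℕ}

/-- The decomposition of the coordinates at the next level: the new coordinate is number `0`. -/
def CoordSplit.next {n M : ℕ} (s : CoordSplit (Fin (k + 2)) (Fin n × Fin 1) M) :
    CoordSplit (Fin (k + 2)) (Fin (n + 1) × Fin 1) (M + 1) where
  lp a := (s.lp a).succ
  inn q := Fin.cases (motive := fun _ => Fin (M + 1)) 0 (fun a => (s.inn (a, q.2)).succ) q.1
  inj := fun _ _ h => s.inj (Fin.succ_injective _ h)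
  disj := by
    rintro a ⟨b, z⟩ h
    induction b using Fin.cases with
    | zero => exact Fin.succ_ne_zero _ h.symm
    | succ b => exact s.disj a (b, z) (Fin.succ_injective _ h)
  cov := by
    intro i
    induction i using Fin.cases with
    | zero => exact Or.inr ⟨(0, 0), rfl⟩
    | succ i =>
      rcases s.cov i with ⟨a, rfl⟩ | ⟨⟨b, z⟩, rfl⟩
      · exact Or.inl ⟨a, rfl⟩
      · exact Or.inr ⟨(b.succ, z), rfl⟩

/-- Its iterates. -/
def CoordSplit.iter {m M : ℕ} (s : CoordSplit (Fin (k + 2)) (Fin m × Fin 1) M) :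
    ∀ j : ℕ, CoordSplit (Fin (k + 2)) (Fin (m + j) × Fin 1) (M + j)
  | 0 => s
  | j + 1 => (CoordSplit.iter s j).next

/-- The decomposition at level `0`: there are no inner coordinates. -/
def splitZero : CoordSplit (Fin (k + 2)) (Fin 0 × Fin 1) (k + 2) where
  lp := id
  inn q := q.1.elim0
  inj := Function.injective_id
  disj := fun _ b => b.1.elim0
  cov := fun j => Or.inl ⟨j, rfl⟩

variable (X : Spt 1)

/-- Uncurrying turns the stabilisation map into the suspension map. -/
lemma uncurryLoop_stab {n M : ℕ} (s : CoordSplit (Fin (k + 2)) (Fin n × Fin 1) M)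
    (γ : Ω^ (Fin (k + 2)) (X.LoopFix ⊥ n) (X.loopFixBase ⊥ n)) :
    uncurryLoop s.next (mapLoop (X.stab ⊥ n) (X.stab_base ⊥ n) γ) =
      sigLoop X n M (uncurryLoop s γ) := by
  ext x
  rfl

lemma uncurryLoop_stabIter {m M : ℕ} (s : CoordSplit (Fin (k + 2)) (Fin m × Fin 1) M)
    (γ : Ω^ (Fin (k + 2)) (X.LoopFix ⊥ m) (X.loopFixBase ⊥ m)) (j : ℕ) :
    uncurryLoop (s.iter j) (mapLoop (stabIter X ⊥ m j) (stabIter_base X ⊥ m j) γ) =
      sigIter X m M (uncurryLoop s γ) j := by
  induction j with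
  | zero => rfl
  | succ j ih =>
    show uncurryLoop (s.iter j).next (mapLoop (X.stab ⊥ (m + j)) (X.stab_base ⊥ (m + j))
      (mapLoop (stabIter X ⊥ m j) (stabIter_base X ⊥ m j) γ)) = _
    rw [uncurryLoop_stab, ih]
    rfl

/-- A loop in `X_0` as a loop in `Map_*(S^0, X_0)`. -/
def curryZero (Γ : Ω^ (Fin (k + 2)) (X.space 0) (X.base 0)) :
    Ω^ (Fin (k + 2)) (X.LoopFix ⊥ 0) (X.loopFixBase ⊥ 0) :=
  ⟨⟨fun u => ⟨⟨ContinuousMap.const _ (Γ u), fun _ ht => ht.choose.1.elim0⟩, fun h hh t => by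
      rw [Subgroup.mem_bot] at hh
      subst hh
      exact (@one_smul PUnit.{1} (X.space 0) _ (X.act 0) _).symm⟩, by
    refine Continuous.subtype_mk (Continuous.subtype_mk ?_ _) _
    exact ContinuousMap.continuous_const'.comp Γ.1.continuous⟩, by
    intro u hu
    apply Subtype.ext
    ext t
    exact Γ.2 u hu⟩

lemma uncurryLoop_curryZero (Γ : Ω^ (Fin (k + 2)) (X.space 0) (X.base 0)) :
    uncurryLoop splitZero (curryZero X Γ) = Γ := by
  ext x
  rfl

/-- **For an `Ω`-spectrum `X` the map `π_{k+2}(X_0) → π_{k+2}(X)` is injective**: two loops in `X_0` which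
become equal in the colimit `stablePi` are homotopic. -/
theorem homotopic_of_colimit_eq (hΩ : X.IsOmega) {Γ Γ' : Ω^ (Fin (k + 2)) (X.space 0) (X.base 0)}
    (h : Limits.colimit.ι (evSeqAdd ⊥ k X) 0 (clsAt ⊥ k X 0 (curryZero X Γ)) =
      Limits.colimit.ι (evSeqAdd ⊥ k X) 0 (clsAt ⊥ k X 0 (curryZero X Γ'))) :
    GenLoop.Homotopic Γ Γ' := by
  obtain ⟨j, f, g, hfg⟩ := (Limits.Concrete.colimit_rep_eq_iff_exists (evSeqAdd ⊥ k X) _ _).1 h
  obtain ⟨j', rfl⟩ : ∃ j', j = 0 + j' := ⟨j, (Nat.zero_add j).symm⟩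
  rw [Subsingleton.elim f (homOfLE (Nat.le_add_right 0 j')),
    Subsingleton.elim g (homOfLE (Nat.le_add_right 0 j')), evSeqAdd_map_add, evSeqAdd_map_add] at hfg
  have h1 : piMk (mapLoop (stabIter X ⊥ 0 j') (stabIter_base X ⊥ 0 j') (curryZero X Γ)) =
      piMk (mapLoop (stabIter X ⊥ 0 j') (stabIter_base X ⊥ 0 j') (curryZero X Γ')) := hfg
  have h2 := uncurryLoop_homotopic (splitZero.iter j') (Quotient.exact h1)
  rw [uncurryLoop_stabIter, uncurryLoop_stabIter, uncurryLoop_curryZero,
    uncurryLoop_curryZero] at h2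
  exact homotopic_of_sigIter X hΩ j' h2

/-- So an `Ω`-spectrum with `π_{k+2}(X_0) ≠ 0` has `π_{k+2}(X) ≠ 0`. -/
theorem not_subsingleton_stablePi_of_isOmega (hΩ : X.IsOmega)
    (h : ¬ Subsingleton (HomotopyGroup (Fin (k + 2)) (X.space 0) (X.base 0))) :
    ¬ Subsingleton ((GSpt.stablePi ⊥ k).obj X) := by
  intro hs
  refine h ⟨?_⟩
  rintro ⟨Γ⟩ ⟨Γ'⟩
  exact Quotient.sound (homotopic_of_colimit_eq X hΩ (hs.elim _ _))

end Split

/-! ## Morava `K`-theories are not zero -/

namespace SymRing.IsMoravaK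

variable {R : SymRing} {p n : ℕ}

/-- **A Morava `K`-theory has a non-zero stable homotopy group**: `π_q(R) ≠ 0` for `q = 2(p^n - 1)`. -/
theorem exists_not_subsingleton_stablePi (h : R.IsMoravaK p n) (hp : p.Prime) (hn : 1 ≤ n) :
    ∃ k, ¬ Subsingleton ((GSpt.stablePi ⊥ k).obj R.toSpt) := by
  obtain ⟨hΩ, hcard, -, ⟨w, hw⟩, -⟩ := h
  have hq : 2 ≤ 2 * (p ^ n - 1) := by
    have : 2 ≤ p ^ n := le_trans hp.two_le (Nat.le_self_pow (by omega) p)
    omega
  have h0 : ¬ Subsingleton (HomotopyGroup (Fin 0) (R.space 0) (R.base 0)) := by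
    intro hs
    have := Finite.card_le_one_iff_subsingleton.mpr hs
    have := hp.two_le
    omega
  have key : ∀ (q : ℕ) (w : R.space q),
      (∀ m, IsWeakEquiv ⟨R.mul q m w, R.mul_cont_right q m w⟩) → 2 ≤ q →
      ∃ k, ¬ Subsingleton ((GSpt.stablePi ⊥ k).obj R.toSpt) := by
    intro q w hw hq
    obtain ⟨k, rfl⟩ : ∃ k, q = k + 2 := ⟨q - 2, by omega⟩
    refine ⟨k, not_subsingleton_stablePi_of_isOmega R.toSpt hΩ ?_⟩
    intro hs
    refine not_subsingleton_pi_diag R.toSpt hΩ h0 (k + 2) ?_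
    have hs0 : Subsingleton (HomotopyGroup (Fin (k + 2)) (R.space 0) (R.base 0)) := hs
    have hbij := (hw 0).2 (R.base 0) (k + 2)
    have hb : R.mul (k + 2) 0 w (R.base 0) = R.base (k + 2 + 0) := R.mul_base_right _ _ w
    have hs' : Subsingleton (HomotopyGroup (Fin (k + 2)) (R.space (k + 2 + 0))
        (R.mul (k + 2) 0 w (R.base 0))) := hbij.2.subsingleton
    rw [hb] at hs'
    exact hs'
  exact key _ w hw hq

/-- So its image `every d R` in `Spt d` is not a zero object of `GSH PUnit (Fin d)`, `d ≥ 1`, -/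
theorem not_isZero_every (h : R.IsMoravaK p n) (hp : p.Prime) (hn : 1 ≤ n) {d : ℕ} (hd : 0 < d) :
    ¬ Limits.IsZero (GSH.Q.obj (Spt.every d R.toSpt)) := by
  obtain ⟨k, hk⟩ := h.exists_not_subsingleton_stablePi hp hn
  exact Claimed.Open.R314.not_isZero_every hk hd

/-- and **`Spt.CohomologyVanishes (K i).toSpt` has a non-example for every Morava `K`-theory `K i`**, in
every category `Spt d`, `d ≥ 1`: `R^*(every d R) ≠ 0`. -/
theorem not_cohomologyVanishes_every_self (h : R.IsMoravaK p n) (hp : p.Prime) (hn : 1 ≤ n) {d : ℕ}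
    (hd : 0 < d) : ¬ (Spt.every d R.toSpt).CohomologyVanishes R.toSpt := by
  obtain ⟨k, hk⟩ := h.exists_not_subsingleton_stablePi hp hn
  exact Claimed.Open.R314.not_cohomologyVanishes_every_self hk hd

end SymRing.IsMoravaK

end

end Claimed.Open.R314
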