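import Claimed.Open.R314.SanityOmega

/-!
# Result 314: for an `Ω`-spectrum, `π_{k+2}(X_0) → π_{k+2}(X)` is bijective

`SanityOmega.lean` shows that for an `Ω`-spectrum `X : Spt 1` the map from the unstable group `π_{k+2}(X_0)` to the stable
group `π_{k+2}(X) = stablePi` is injective.  This file adds surjectivity, so that the clauses of `SymRing.IsMoravaK`, which
are written with the unstable groups `π_j(R_m)`, say what they are meant to say about the groups through which the stable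
homotopy category `GSH` is defined.

* `sigLoop_homotopic`, `exists_sigLoop_homotopic`: the suspension map `Ω^jX_n → Ω^{j+1}X_{n+1}` preserves homotopies, and if
  `X_n → ΩX_{n+1}` is a weak equivalence, every `(j+1)`-fold loop of `X_{n+1}` is homotopic to a suspension
  (curry the loop, lift its class, uncurry the homotopy);
* `exists_curryZero_rep`: for an `Ω`-spectrum every element of `π_{k+2}(X)` comes from a loop in `X_0`;
* `toStable`, `toStable_bijective`, `toStable_mul`, `toStableAddEquiv`: the map `π_{k+2}(X_0) → π_{k+2}(X)` is bijective and a homomorphism;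
* `subsingleton_stablePi_iff_of_isOmega`: `π_{k+2}(X) = 0` iff `π_{k+2}(X_0) = 0`;
* `SymRing.IsMoravaK.subsingleton_stablePi`, `SymRing.IsMoravaK.subsingleton_stablePi_shIter`: if `R.IsMoravaK p n`, the stable group
  `π_{k+2}(R)` vanishes unless `2(p^n-1)` divides `k + 2`, and `π_{k+2}(sh^m R) = π_{k+2-m}(R)` vanishes unless `2(p^n-1)` divides
  `k + 2 - m` (shifts of `Ω`-spectra are `Ω`-spectra, `isOmega_shIter`);
* `card_pi_diag`, `SymRing.IsMoravaK.card_stablePi`: for an `Ω`-spectrum `π_0(X_0) → π_j(X_j)` is bijective; the stable group `π_q(R)`,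
  `q = 2(p^n-1)`, of a Morava `K`-theory has exactly `p` elements;
* `SymRing.IsMoravaK.card_stablePi_zero`: so has `π_0(R) = π_{k+2}(sh^{k+2} R)`, for every `k`;
* `SymRing.IsMoravaK.subsingleton_stablePi_every_shIter`: with `SanityCofinal.lean`, the spectra `every d (Σ^b R)` of
  `Spt.CohomologyVanishes` have `π_{k+2} = 0` unless `2(p^n-1)` divides `k + 2 - b`.
-/

open CategoryTheory Topology unitInterval
open scoped Topology.Homotopy

namespace Claimed.Open.R314

noncomputable section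

set_option linter.unusedSectionVars false

lemma mapPi_surjective_of {A B N : Type} [TopologicalSpace A] [TopologicalSpace B] (g : C(A, B))
    {a : A} {b : B} (h : g a = b)
    (hs : Function.Surjective (mapPi (N := N) g (rfl : g a = g a))) :
    Function.Surjective (mapPi (N := N) g h) := by
  subst h
  exact hs

section Sigma

variable (X : Spt 1)

/-- The suspension map preserves homotopies. -/
lemma sigLoop_homotopic {n j : ℕ} {Γ Γ' : Ω^ (Fin j) (X.space n) (X.base n)}
    (h : GenLoop.Homotopic Γ Γ') : GenLoop.Homotopic (sigLoop X n j Γ) (sigLoop X n j Γ') := by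
  obtain ⟨Hh⟩ := h
  refine ⟨⟨⟨⟨fun z => X.str n (Hh (z.1, fun i => z.2 i.succ)) (fun _ => z.2 0), ?_⟩, ?_, ?_⟩, ?_⟩⟩
  · have h1 : Continuous fun z : I × (Fin (j + 1) → I) =>
        (X.str n (Hh (z.1, fun i => z.2 i.succ))).1 :=
      continuous_subtype_val.comp ((X.str n).continuous.comp (Hh.continuous.comp
        (continuous_fst.prodMk (continuous_pi fun i => (continuous_apply _).comp continuous_snd))))
    exact continuous_eval.comp (h1.prodMk
      (continuous_pi fun _ => (continuous_apply 0).comp continuous_snd))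
  · intro x
    show X.str n (Hh (0, fun i => x i.succ)) (fun _ => x 0) = _
    rw [Hh.apply_zero]
    rfl
  · intro x
    show X.str n (Hh (1, fun i => x i.succ)) (fun _ => x 0) = _
    rw [Hh.apply_one]
    rfl
  · rintro τ x ⟨i, hi⟩
    show X.str n (Hh (τ, fun i => x i.succ)) (fun _ => x 0) = sigLoop X n j Γ x
    induction i using Fin.cases with
    | zero =>
      exact ((X.str n _).2 _ ⟨0, hi⟩).trans ((sigLoop X n j Γ).2 x ⟨0, hi⟩).symm
    | succ i =>
      rw [Hh.eq_fst τ (show (fun i => x i.succ) ∈ Cube.boundary (Fin j) from ⟨i, hi⟩)]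
      rfl

/-- A `(j+1)`-fold loop of `X_{n+1}` as a `j`-fold loop of `ΩX_{n+1}`; the coordinate number `0` is the inner one. -/
def curryOne (n j : ℕ) (Δ : Ω^ (Fin (j + 1)) (X.space (n + 1)) (X.base (n + 1))) :
    Ω^ (Fin j) (Ω^ (Fin 1) (X.space (n + 1)) (X.base (n + 1))) GenLoop.const :=
  ⟨⟨fun u => ⟨⟨fun v => Δ (Fin.cons (v 0) u), by
        have h1 : Continuous fun v : Fin 1 → I => (v 0, u) :=
          (continuous_apply 0).prodMk continuous_const
        exact Δ.1.continuous.comp ((continuous_finCons j).comp h1)⟩, by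
      rintro v ⟨i, hi⟩
      rw [Subsingleton.elim i 0] at hi
      exact Δ.2 _ ⟨0, hi⟩⟩, by
    refine Continuous.subtype_mk ?_ _
    refine ContinuousMap.continuous_of_continuous_uncurry _ ?_
    have h2 : Continuous fun a : (Fin j → I) × (Fin 1 → I) => (a.2 0, a.1) :=
      ((continuous_apply 0).comp continuous_snd).prodMk continuous_fst
    exact Δ.1.continuous.comp ((continuous_finCons j).comp h2)⟩, by
    rintro u ⟨i, hi⟩
    ext v
    exact Δ.2 _ ⟨i.succ, hi⟩⟩

/-- If the structure map `X_n → ΩX_{n+1}` is a weak equivalence, every loop of `X_{n+1}` is homotopic to a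
suspension. -/
lemma exists_sigLoop_homotopic {n j : ℕ} (hw : IsWeakEquiv (X.str n))
    (Δ : Ω^ (Fin (j + 1)) (X.space (n + 1)) (X.base (n + 1))) :
    ∃ Γ : Ω^ (Fin j) (X.space n) (X.base n), GenLoop.Homotopic (sigLoop X n j Γ) Δ := by
  have hsurj := mapPi_surjective_of (N := Fin j) (X.str n) (str_base_eq X n) (hw.2 (X.base n) j).2
  obtain ⟨⟨Γ⟩, hΓ⟩ := hsurj (piMk (curryOne X n j Δ))
  have hΓ' : GenLoop.Homotopic (mapLoop (X.str n) (str_base_eq X n) Γ) (curryOne X n j Δ) :=
    Quotient.exact hΓ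
  obtain ⟨Hh⟩ := hΓ'
  refine ⟨Γ, ⟨⟨⟨⟨fun z => Hh (z.1, fun i => z.2 i.succ) (fun _ => z.2 0), ?_⟩, ?_, ?_⟩, ?_⟩⟩⟩
  · have h1 : Continuous fun z : I × (Fin (j + 1) → I) => (Hh (z.1, fun i => z.2 i.succ)).1 :=
      continuous_subtype_val.comp (Hh.continuous.comp
        (continuous_fst.prodMk (continuous_pi fun i => (continuous_apply _).comp continuous_snd)))
    exact continuous_eval.comp (h1.prodMk
      (continuous_pi fun _ => (continuous_apply 0).comp continuous_snd))
  · intro x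
    show Hh (0, fun i => x i.succ) (fun _ => x 0) = _
    rw [Hh.apply_zero]
    rfl
  · intro x
    show Hh (1, fun i => x i.succ) (fun _ => x 0) = _
    rw [Hh.apply_one]
    show Δ (Fin.cons (x 0) (fun i => x i.succ)) = Δ x
    congr 1
    exact Fin.cons_self_tail x
  · rintro τ x ⟨i, hi⟩
    show Hh (τ, fun i => x i.succ) (fun _ => x 0) = sigLoop X n j Γ x
    induction i using Fin.cases with
    | zero =>
      exact ((Hh (τ, fun i => x i.succ)).2 _ ⟨0, hi⟩).trans ((sigLoop X n j Γ).2 x ⟨0, hi⟩).symm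
    | succ i =>
      rw [Hh.eq_fst τ (show (fun i => x i.succ) ∈ Cube.boundary (Fin j) from ⟨i, hi⟩)]
      rfl

lemma exists_sigIter_homotopic (hΩ : X.IsOmega) {m M : ℕ} (j : ℕ)
    (Δ : Ω^ (Fin (M + j)) (X.space (m + j)) (X.base (m + j))) :
    ∃ Γ : Ω^ (Fin M) (X.space m) (X.base m), GenLoop.Homotopic (sigIter X m M Γ j) Δ := by
  induction j with
  | zero => exact ⟨Δ, GenLoop.Homotopic.refl _⟩
  | succ j ih =>
    obtain ⟨Γ₁, h₁⟩ := exists_sigLoop_homotopic X (hΩ (m + j)) Δ
    obtain ⟨Γ, h⟩ := ih Γ₁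
    exact ⟨Γ, (sigLoop_homotopic X h).trans h₁⟩

end Sigma

section Split

variable {k : ℕ}

lemma CoordSplit.next_inn_injective {n M : ℕ} (s : CoordSplit (Fin (k + 2)) (Fin n × Fin 1) M)
    (hi : Function.Injective s.inn) : Function.Injective s.next.inn := by
  rintro ⟨a, z⟩ ⟨b, z'⟩ h
  have hz : z = z' := Subsingleton.elim _ _
  subst hz
  induction a using Fin.cases with
  | zero =>
    induction b using Fin.cases with
    | zero => rfl
    | succ b => exact absurd h.symm (Fin.succ_ne_zero _)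
  | succ a =>
    induction b using Fin.cases with
    | zero => exact absurd h (Fin.succ_ne_zero _)
    | succ b =>
      have h3 : (a, z) = (b, z) := hi (Fin.succ_injective _ h)
      rw [(Prod.mk.inj h3).1]

lemma CoordSplit.iter_inn_injective {m M : ℕ} (s : CoordSplit (Fin (k + 2)) (Fin m × Fin 1) M)
    (hi : Function.Injective s.inn) (j : ℕ) : Function.Injective (s.iter j).inn := by
  induction j with
  | zero => exact hi
  | succ j ih => exact CoordSplit.next_inn_injective _ ih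

lemma splitZero_inn_injective : Function.Injective (splitZero (k := k)).inn :=
  fun a => a.1.elim0

variable (X : Spt 1)

/-- **For an `Ω`-spectrum `X` the map `π_{k+2}(X_0) → π_{k+2}(X)` is surjective.** -/
theorem exists_curryZero_rep (hΩ : X.IsOmega) (x : (GSpt.stablePi ⊥ k).obj X) :
    ∃ Γ : Ω^ (Fin (k + 2)) (X.space 0) (X.base 0),
      Limits.colimit.ι (evSeqAdd ⊥ k X) 0 (clsAt ⊥ k X 0 (curryZero X Γ)) = x := by
  obtain ⟨j, y, hy⟩ := Limits.Concrete.colimit_exists_rep (evSeqAdd ⊥ k X) x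
  obtain ⟨j', rfl⟩ : ∃ j', j = 0 + j' := ⟨j, (Nat.zero_add j).symm⟩
  obtain ⟨γ, rfl⟩ := exists_clsAt ⊥ k X (0 + j') y
  obtain ⟨Γ, hΓ⟩ := exists_sigIter_homotopic X hΩ j' (uncurryLoop (splitZero.iter j') γ)
  refine ⟨Γ, ?_⟩
  rw [← uncurryLoop_curryZero X Γ, ← uncurryLoop_stabIter] at hΓ
  have h1 := homotopic_of_uncurryLoop (splitZero.iter j')
    (CoordSplit.iter_inn_injective _ splitZero_inn_injective j') hΓ
  have h2 : clsAt ⊥ k X (0 + j')
      (mapLoop (stabIter X ⊥ 0 j') (stabIter_base X ⊥ 0 j') (curryZero X Γ)) =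
      clsAt ⊥ k X (0 + j') γ := congrArg Additive.ofMul (Quotient.sound h1)
  rw [← hy, ← h2, ← evSeqAdd_map_add ⊥ k X 0 j' (Nat.le_add_right 0 j')]
  rw [← ConcreteCategory.comp_apply, Limits.colimit.w]

/-- The map `π_{k+2}(X_0) → π_{k+2}(X)`. -/
def toStable : HomotopyGroup (Fin (k + 2)) (X.space 0) (X.base 0) → (GSpt.stablePi ⊥ k).obj X :=
  Quotient.lift (fun Γ => Limits.colimit.ι (evSeqAdd ⊥ k X) 0 (clsAt ⊥ k X 0 (curryZero X Γ)))
    (by
      intro Γ Γ' h
      have h' : GenLoop.Homotopic Γ Γ' := h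
      rw [← uncurryLoop_curryZero X Γ, ← uncurryLoop_curryZero X Γ'] at h'
      have h1 := homotopic_of_uncurryLoop splitZero splitZero_inn_injective h'
      have h2 : clsAt ⊥ k X 0 (curryZero X Γ) = clsAt ⊥ k X 0 (curryZero X Γ') :=
        congrArg Additive.ofMul (Quotient.sound h1)
      show Limits.colimit.ι (evSeqAdd ⊥ k X) 0 _ = Limits.colimit.ι (evSeqAdd ⊥ k X) 0 _
      rw [h2])

lemma toStable_piMk (Γ : Ω^ (Fin (k + 2)) (X.space 0) (X.base 0)) :
    toStable X (piMk Γ) =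
      Limits.colimit.ι (evSeqAdd ⊥ k X) 0 (clsAt ⊥ k X 0 (curryZero X Γ)) := rfl

/-- **For an `Ω`-spectrum `X` the map `π_{k+2}(X_0) → π_{k+2}(X)` is bijective.** -/
theorem toStable_bijective (hΩ : X.IsOmega) : Function.Bijective (toStable (k := k) X) := by
  constructor
  · rintro ⟨Γ⟩ ⟨Γ'⟩ h
    exact Quotient.sound (homotopic_of_colimit_eq X hΩ h)
  · intro x
    obtain ⟨Γ, hΓ⟩ := exists_curryZero_rep X hΩ x
    exact ⟨piMk Γ, hΓ⟩

/-- The map `π_{k+2}(X_0) → π_{k+2}(X)` is a homomorphism (any spectrum `X`). -/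
theorem toStable_mul (x y : HomotopyGroup (Fin (k + 2)) (X.space 0) (X.base 0)) :
    toStable X (x * y) = toStable X x + toStable X y := by
  obtain ⟨Γ, rfl⟩ := Quotient.exists_rep x
  obtain ⟨Γ', rfl⟩ := Quotient.exists_rep y
  change toStable X (piMk Γ * piMk Γ') = toStable X (piMk Γ) + toStable X (piMk Γ')
  rw [piMk_mul 0, toStable_piMk, toStable_piMk, toStable_piMk]
  have h1 : piMk (curryZero X (GenLoop.transAt 0 Γ' Γ)) =
      piMk (curryZero X Γ) * piMk (curryZero X Γ') := by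
    rw [piMk_mul 0]
    refine Quotient.sound (homotopic_of_uncurryLoop splitZero splitZero_inn_injective ?_)
    rw [uncurryLoop_curryZero, uncurryLoop_transAt, uncurryLoop_curryZero, uncurryLoop_curryZero]
    exact GenLoop.Homotopic.refl _
  have h2 : clsAt ⊥ k X 0 (curryZero X (GenLoop.transAt 0 Γ' Γ)) =
      clsAt ⊥ k X 0 (curryZero X Γ) + clsAt ⊥ k X 0 (curryZero X Γ') :=
    congrArg Additive.ofMul h1
  rw [h2]
  exact map_add (Limits.colimit.ι (evSeqAdd ⊥ k X) 0).hom _ _

/-- **For an `Ω`-spectrum `X`, `π_{k+2}(X_0) ≅ π_{k+2}(X)` as groups.** -/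
def toStableAddEquiv (hΩ : X.IsOmega) :
    Additive (HomotopyGroup (Fin (k + 2)) (X.space 0) (X.base 0)) ≃+ (GSpt.stablePi ⊥ k).obj X :=
  AddEquiv.ofBijective
    (AddMonoidHom.mk' (fun x => toStable X x.toMul) (fun x y => toStable_mul X x.toMul y.toMul))
    (toStable_bijective X hΩ)

/-- For an `Ω`-spectrum, `π_{k+2}(X) = 0` if and only if `π_{k+2}(X_0) = 0`. -/
theorem subsingleton_stablePi_iff_of_isOmega (hΩ : X.IsOmega) :
    Subsingleton ((GSpt.stablePi ⊥ k).obj X) ↔
      Subsingleton (HomotopyGroup (Fin (k + 2)) (X.space 0) (X.base 0)) :=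
  ⟨fun _ => (toStable_bijective X hΩ).1.subsingleton,
    fun _ => (toStable_bijective X hΩ).2.subsingleton⟩

end Split

/-- **The stable homotopy groups of a Morava `K`-theory are sparse**: `π_{k+2}(R) = 0` unless `2(p^n-1)` divides `k + 2`. -/
theorem SymRing.IsMoravaK.subsingleton_stablePi {R : SymRing} {p n : ℕ} (h : R.IsMoravaK p n) {k : ℕ}
    (hk : ¬ (2 * ((p : ℤ) ^ n - 1) ∣ ((k + 2 : ℕ) : ℤ))) :
    Subsingleton ((GSpt.stablePi ⊥ k).obj R.toSpt) := by
  refine (subsingleton_stablePi_iff_of_isOmega R.toSpt h.1).2 ?_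
  refine h.2.2.1 0 (k + 2) ?_
  simpa using hk

/-! ## The shifts: all the groups which define the stable equivalences -/

lemma isOmega_shIter (m : ℕ) : ∀ X : Spt 1, X.IsOmega → Spt.IsOmega ((GSpt.shIter m).obj X) := by
  induction m with
  | zero => exact fun X h => h
  | succ m ih => exact fun X h => ih (GSpt.sh.obj X) (fun n => h (n + 1))

lemma subsingleton_pi_shIter (j m : ℕ) : ∀ (X : Spt 1) (a : ℕ),
    Subsingleton (HomotopyGroup (Fin j) (X.space (a + m)) (X.base (a + m))) →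
    Subsingleton (HomotopyGroup (Fin j) (((GSpt.shIter m).obj X).space a)
      (((GSpt.shIter m).obj X).base a)) := by
  induction m with
  | zero => exact fun X a h => h
  | succ m ih => exact fun X a h => ih (GSpt.sh.obj X) a h

/-- The same for all the groups `π_{k+2}(sh^m R) = π_{k+2-m}(R)` which occur in `GSpt.stableEquiv`: they vanish unless
`2(p^n-1)` divides `k + 2 - m`. -/
theorem SymRing.IsMoravaK.subsingleton_stablePi_shIter {R : SymRing} {p n : ℕ} (h : R.IsMoravaK p n)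
    {k m : ℕ} (hk : ¬ (2 * ((p : ℤ) ^ n - 1) ∣ ((k + 2 : ℕ) : ℤ) - m)) :
    Subsingleton ((GSpt.stablePi ⊥ k).obj ((GSpt.shIter m).obj R.toSpt)) := by
  refine (subsingleton_stablePi_iff_of_isOmega _ (isOmega_shIter m _ h.1)).2 ?_
  refine subsingleton_pi_shIter (k + 2) m R.toSpt 0 ?_
  refine h.2.2.1 (0 + m) (k + 2) ?_
  simpa using hk

/-! ## The group `π_q(R)` has `p` elements -/

section Diag

variable (X : Spt 1)

lemma sigDiag_homotopic {Γ Γ' : Ω^ (Fin 0) (X.space 0) (X.base 0)} (j : ℕ)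
    (h : GenLoop.Homotopic Γ Γ') : GenLoop.Homotopic (sigDiag X Γ j) (sigDiag X Γ' j) := by
  induction j with
  | zero => exact h
  | succ j ih => exact sigLoop_homotopic X ih

lemma exists_sigDiag_homotopic (hΩ : X.IsOmega) (j : ℕ) (Δ : Ω^ (Fin j) (X.space j) (X.base j)) :
    ∃ Γ, GenLoop.Homotopic (sigDiag X Γ j) Δ := by
  induction j with
  | zero => exact ⟨Δ, GenLoop.Homotopic.refl _⟩
  | succ j ih =>
    obtain ⟨Γ₁, h₁⟩ := exists_sigLoop_homotopic X (hΩ j) Δ
    obtain ⟨Γ, h⟩ := ih Γ₁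
    exact ⟨Γ, (sigLoop_homotopic X h).trans h₁⟩

/-- For an `Ω`-spectrum, `π_0(X_0) → π_j(X_j)` is bijective. -/
theorem card_pi_diag (hΩ : X.IsOmega) (j : ℕ) :
    Nat.card (HomotopyGroup (Fin j) (X.space j) (X.base j)) =
      Nat.card (HomotopyGroup (Fin 0) (X.space 0) (X.base 0)) := by
  symm
  refine Nat.card_eq_of_bijective (Quotient.map (fun Γ => sigDiag X Γ j)
    (fun _ _ h => sigDiag_homotopic X j h)) ⟨?_, ?_⟩
  · rintro ⟨Γ⟩ ⟨Γ'⟩ h
    exact Quotient.sound (homotopic_of_sigDiag X hΩ j (Quotient.exact h))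
  · rintro ⟨Δ⟩
    obtain ⟨Γ, h⟩ := exists_sigDiag_homotopic X hΩ j Δ
    exact ⟨piMk Γ, Quotient.sound h⟩

end Diag

/-- **The stable group `π_q(R)`, `q = 2(p^n-1)`, of a Morava `K`-theory has exactly `p` elements.** -/
theorem SymRing.IsMoravaK.card_stablePi {R : SymRing} {p n : ℕ} (h : R.IsMoravaK p n) (hp : p.Prime)
    (hn : 1 ≤ n) :
    ∃ k, k + 2 = 2 * (p ^ n - 1) ∧ Nat.card ((GSpt.stablePi ⊥ k).obj R.toSpt) = p := by
  obtain ⟨hΩ, hcard, -, ⟨w, hw⟩, -⟩ := h
  have hq : 2 ≤ 2 * (p ^ n - 1) := by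
    have : 2 ≤ p ^ n := le_trans hp.two_le (Nat.le_self_pow (by omega) p)
    omega
  have key : ∀ (q : ℕ) (w : R.space q),
      (∀ m, IsWeakEquiv ⟨R.mul q m w, R.mul_cont_right q m w⟩) → 2 ≤ q →
      ∃ k, k + 2 = q ∧ Nat.card ((GSpt.stablePi ⊥ k).obj R.toSpt) = p := by
    intro q w hw hq
    obtain ⟨k, rfl⟩ : ∃ k, q = k + 2 := ⟨q - 2, by omega⟩
    refine ⟨k, rfl, ?_⟩
    rw [← Nat.card_eq_of_bijective _ (toStable_bijective R.toSpt hΩ)]
    have hbij := (hw 0).2 (R.base 0) (k + 2)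
    have hb : R.mul (k + 2) 0 w (R.base 0) = R.base (k + 2 + 0) := R.mul_base_right _ _ w
    have h1 : Nat.card (HomotopyGroup (Fin (k + 2)) (R.space 0) (R.base 0)) =
        Nat.card (HomotopyGroup (Fin (k + 2)) (R.space (k + 2 + 0))
          (R.mul (k + 2) 0 w (R.base 0))) := Nat.card_eq_of_bijective _ hbij
    rw [hb] at h1
    have h2 := card_pi_diag R.toSpt hΩ (k + 2)
    exact h1.trans (h2.trans hcard)
  exact key _ w hw hq

lemma card_pi_shIter (j m : ℕ) : ∀ (X : Spt 1) (a : ℕ),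
    Nat.card (HomotopyGroup (Fin j) (((GSpt.shIter m).obj X).space a)
      (((GSpt.shIter m).obj X).base a)) =
    Nat.card (HomotopyGroup (Fin j) (X.space (a + m)) (X.base (a + m))) := by
  induction m with
  | zero => exact fun X a => rfl
  | succ m ih => exact fun X a => ih (GSpt.sh.obj X) a

/-- **The stable group `π_0(R) = π_{k+2}(sh^{k+2} R)` of a Morava `K`-theory has exactly `p` elements.** -/
theorem SymRing.IsMoravaK.card_stablePi_zero {R : SymRing} {p n : ℕ} (h : R.IsMoravaK p n) (k : ℕ) :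
    Nat.card ((GSpt.stablePi ⊥ k).obj ((GSpt.shIter (k + 2)).obj R.toSpt)) = p := by
  rw [← Nat.card_eq_of_bijective _ (toStable_bijective _ (isOmega_shIter (k + 2) _ h.1)),
    card_pi_shIter (k + 2) (k + 2) R.toSpt 0, Nat.zero_add, card_pi_diag R.toSpt h.1 (k + 2)]
  exact h.2.1

/-- The spectra `every d (Σ^b R)` which represent `R^b` in `Spt.CohomologyVanishes` have `π_{k+2} = 0` unless `2(p^n-1)`
divides `k + 2 - b`. -/
theorem SymRing.IsMoravaK.subsingleton_stablePi_every_shIter {R : SymRing} {p n : ℕ}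
    (h : R.IsMoravaK p n) {d : ℕ} (hd : 0 < d) {k b : ℕ}
    (hk : ¬ (2 * ((p : ℤ) ^ n - 1) ∣ ((k + 2 : ℕ) : ℤ) - b)) :
    Subsingleton ((GSpt.stablePi ⊥ k).obj (Spt.every d ((GSpt.shIter b).obj R.toSpt))) :=
  (subsingleton_stablePi_every_iff ⊥ k _ d hd).2 (h.subsingleton_stablePi_shIter hk)

end

end Claimed.Open.R314
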