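import Claimed.Open.R314.SanityEvery

/-!
# Result 314: `GeomAcyclic K i H X` depends on the subgroup `H`

So far `GeomAcyclic` was evaluated on zero objects (acyclic at all subgroups) and on the sphere spectrum
(acyclic at no subgroup).  This file evaluates it on the orbit spectra `Σ^∞ (G/B)₊` (`GSpt.orbit G B`,
`SanitySpectra.lean`), the generators of the finite genuine `G`-spectra and the test objects for the
necessity of subconjugacy in Corollary 7.5.  For all subgroups `A`, `B` of a finite group `G`: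

* `isTrivial_geomFix_orbit`, `geomAcyclic_orbit`: if `A` is not subconjugate to `B`, then
  `Φ^A Σ^∞ (G/B)₊` consists of points (`(G/B)^A = ∅`), so `GeomAcyclic K i A (Σ^∞ (G/B)₊)` holds for all `K`, `i`;
* `exists_retract_geomFix_orbit`: if `A` is subconjugate to `B`, then `Φ^A 𝕊` is a retract of
  `Φ^A Σ^∞ (G/B)₊` in `Spt [G:A]` (a point of `(G/B)^A`, and the `G`-map `(G/B)₊ → S⁰`);
* `not_geomAcyclic_orbit`: so `GeomAcyclic K i A (Σ^∞ (G/B)₊)` fails, for `i = 0`, and for `i ≥ 1` if `K i = 𝕊`;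
* `geomAcyclic_zero_orbit_iff`: `K(0)_*(Φ^A Σ^∞ (G/B)₊) = 0` **if and only if** `A` is not subconjugate to `B`;
* `premise_and_not_conclusion_orbit`: if `A` is not subconjugate to `B`, the premise `GeomAcyclic K m A X` and the
  negation of the conclusion `GeomAcyclic K 0 B X` of `AcyclicityImplication p K A m B 0` hold together for
  `X = Σ^∞ (G/B)₊`;
* `not_isZero_orbit`, `not_isPLocal_orbit`, `not_isCompactPLocal_orbit`: this `X` is not a zero object of `GSH G G`, but it
  is not `p`-local (the class of the point `B` in `π_0` maps to the unit of `π_0(𝕊)`, which is not divisible by any prime), so it is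
  not one of the test objects of `Statement`; a `p`-local version of it is treated in `SanityOrbitLocal.lean`;
* `Spt.RationallyAcyclic.of_retract`, `Spt.CohomologyVanishes.of_retract`: acyclic spectra are closed under
  retracts.
-/

open CategoryTheory Topology unitInterval

namespace Claimed.Open.R314

noncomputable section

set_option linter.unusedSectionVars false

/-! ## Retracts -/

lemma torsion_of_retract {M M' : AddCommGrpCat.{0}} (i : M ⟶ M') (r : M' ⟶ M) (h : i ≫ r = 𝟙 M)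
    (hM : ∀ y : M', ∃ a : ℕ, 0 < a ∧ a • y = 0) (x : M) : ∃ a : ℕ, 0 < a ∧ a • x = 0 := by
  obtain ⟨a, ha, hax⟩ := hM (i.hom x)
  refine ⟨a, ha, ?_⟩
  have h1 : r.hom (a • i.hom x) = a • r.hom (i.hom x) := map_nsmul r.hom a (i.hom x)
  have h2 : r.hom (i.hom x) = x := by
    have := congrArg (fun φ : M ⟶ M => φ.hom x) h
    simpa using this
  rw [h2, hax, map_zero] at h1
  exact h1.symm

/-- Rationally acyclic spectra are closed under retracts. -/
theorem Spt.RationallyAcyclic.of_retract {d : ℕ} {A B : Spt d} (hB : B.RationallyAcyclic)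
    (i : A ⟶ B) (r : B ⟶ A) (h : i ≫ r = 𝟙 A) : A.RationallyAcyclic := fun k m x =>
  torsion_of_retract ((GSpt.shIter m ⋙ GSpt.stablePi (⊤ : Subgroup PUnit.{1}) k).map i)
    ((GSpt.shIter m ⋙ GSpt.stablePi (⊤ : Subgroup PUnit.{1}) k).map r)
    (by rw [← CategoryTheory.Functor.map_comp, h, CategoryTheory.Functor.map_id]) (hB k m) x

/-- `K`-acyclic spectra are closed under retracts. -/
theorem Spt.CohomologyVanishes.of_retract {d : ℕ} {A B : Spt d} {K : Spt 1}
    (hB : B.CohomologyVanishes K) (i : A ⟶ B) (r : B ⟶ A) (h : i ≫ r = 𝟙 A) :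
    A.CohomologyVanishes K := fun b =>
  ⟨fun f g => by
    have h1 := (hB b).elim (GSH.Q.map r ≫ f) (GSH.Q.map r ≫ g)
    have h2 : GSH.Q.map i ≫ GSH.Q.map r = 𝟙 _ := by
      rw [← CategoryTheory.Functor.map_comp, h, CategoryTheory.Functor.map_id]
    have h3 := congrArg (fun φ => GSH.Q.map i ≫ φ) h1
    simpa [← Category.assoc, h2] using h3⟩

/-! ## Geometric fixed points of suspension spectra -/

section SuspFix

variable {G : Type} [Group G] (N : Type) [MulAction G N] [Finite N]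
variable (A : Type) [TopologicalSpace A] [MulAction G A] [ContinuousConstSMul G A] (a₀ : A)
  (hA : ∀ g : G, g • a₀ = a₀)
variable (B : Type) [TopologicalSpace B] [MulAction G B] [ContinuousConstSMul G B] (b₀ : B)
  (hB : ∀ g : G, g • b₀ = b₀)
variable (H : Subgroup G)

/-- If the base point is the only `H`-fixed point of `A`, then `Φ^H Σ^∞ A` consists of points. -/
theorem isTrivial_geomFix_suspSpec (h : ∀ a : A, (∀ g ∈ H, g • a = a) → a = a₀) :
    ((GSpt.suspSpec N A a₀ hA).geomFix H).IsTrivial := by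
  intro n
  have key : ∀ w : SuspSpace (Fin (orbitCount H N)) (MulAction.fixedPoints H A)
      (fixBase A a₀ hA H) n, w = suspBase _ _ _ n := by
    intro w
    induction w using Quot.inductionOn with
    | h p =>
      exact suspMk_eq_base _ _ _ n p
        (Or.inr (Subtype.ext (h p.2.1 (fun g hg => p.2.2 ⟨g, hg⟩))))
  refine ⟨fun x y => ?_⟩
  obtain ⟨x', rfl⟩ := (geomFixSusp_bijective N A a₀ hA H n).2 x
  obtain ⟨y', rfl⟩ := (geomFixSusp_bijective N A a₀ hA H n).2 y
  rw [key x', key y']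

variable {A B}

/-- `S^{n·ℝ[N]} ∧ A → S^{n·ℝ[N]} ∧ B`, induced by a pointed map `φ : A → B`. -/
def suspMapAux (φ : C(A, B)) (h0 : φ a₀ = b₀) (n : ℕ) :
    C(SuspSpace N A a₀ n, SuspSpace N B b₀ n) where
  toFun := Quot.lift (fun p => Quot.mk _ (p.1, φ p.2)) (fun p q h => Quot.sound
    ⟨h.1.imp id (fun e => by show φ p.2 = b₀; rw [e, h0]),
      h.2.imp id (fun e => by show φ q.2 = b₀; rw [e, h0])⟩)
  continuous_toFun := continuous_quot_lift _ (continuous_quot_mk.comp
    (continuous_fst.prodMk (φ.continuous.comp continuous_snd)))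

lemma suspMapAux_mem_fixedPoints (φ : C(A, B)) (h0 : φ a₀ = b₀)
    (hφ : ∀ g ∈ H, ∀ a, φ (g • a) = g • φ a) (n : ℕ)
    (x : ((GSpt.suspSpec N A a₀ hA).geomFix H).space n) :
    (show (GSpt.suspSpec N B b₀ hB).space n from suspMapAux N a₀ b₀ φ h0 n x.1) ∈
      MulAction.fixedPoints H ((GSpt.suspSpec N B b₀ hB).space n) := by
  obtain ⟨w, hw⟩ := x
  rintro ⟨h, hh⟩
  induction w using Quot.inductionOn with
  | h p =>
    have h1 : (Quot.mk _ (suspAct N A n h p) : SuspSpace N A a₀ n) = Quot.mk _ p := hw ⟨h, hh⟩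
    have h2 := congrArg (suspMapAux N a₀ b₀ φ h0 n) h1
    refine Eq.trans ?_ h2
    refine congrArg (Quot.mk _) (Prod.ext rfl ?_)
    exact (hφ h hh p.2).symm

/-- The map `(S^{n·ℝ[N]} ∧ A)^H → (S^{n·ℝ[N]} ∧ B)^H`. -/
def geomFixMapAux (φ : C(A, B)) (h0 : φ a₀ = b₀) (hφ : ∀ g ∈ H, ∀ a, φ (g • a) = g • φ a) (n : ℕ) :
    C(((GSpt.suspSpec N A a₀ hA).geomFix H).space n,
      ((GSpt.suspSpec N B b₀ hB).geomFix H).space n) where
  toFun x := ⟨suspMapAux N a₀ b₀ φ h0 n x.1, suspMapAux_mem_fixedPoints N a₀ hA b₀ hB H φ h0 hφ n x⟩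
  continuous_toFun := Continuous.subtype_mk
    ((suspMapAux N a₀ b₀ φ h0 n).continuous.comp continuous_subtype_val) _

/-- The map `Φ^H Σ^∞ A → Φ^H Σ^∞ B` of a pointed map `φ : A → B` which is `H`-equivariant (it need not be
`G`-equivariant). -/
def geomFixMapOf (φ : C(A, B)) (h0 : φ a₀ = b₀) (hφ : ∀ g ∈ H, ∀ a, φ (g • a) = g • φ a) :
    (GSpt.suspSpec N A a₀ hA).geomFix H ⟶ (GSpt.suspSpec N B b₀ hB).geomFix H where
  map := geomFixMapAux N a₀ hA b₀ hB H φ h0 hφ
  map_base n := Subtype.ext (congrArg (Quot.mk _) (Prod.ext rfl h0))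
  map_smul _ _ _ := rfl
  comm n x t := by
    obtain ⟨w, hw⟩ := x
    induction w using Quot.inductionOn with
    | h p => rfl

lemma geomFixMapOf_comp_eq_id (φ : C(A, B)) (h0 : φ a₀ = b₀)
    (hφ : ∀ g ∈ H, ∀ a, φ (g • a) = g • φ a) (ψ : C(B, A)) (h0' : ψ b₀ = a₀)
    (hψ : ∀ g ∈ H, ∀ b, ψ (g • b) = g • ψ b) (h : ∀ a, ψ (φ a) = a) :
    geomFixMapOf N a₀ hA b₀ hB H φ h0 hφ ≫ geomFixMapOf N b₀ hB a₀ hA H ψ h0' hψ = 𝟙 _ := by
  refine GSpt.Hom.ext (funext fun n => ContinuousMap.ext fun x => ?_)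
  obtain ⟨w, hw⟩ := x
  induction w using Quot.inductionOn with
  | h p => exact Subtype.ext (congrArg (Quot.mk _) (Prod.ext rfl (h p.2)))

end SuspFix

/-! ## The orbit spectra -/

section Orbit

variable {G : Type} [Group G] [Finite G] (A B : Subgroup G)

omit [Finite G] in
/-- `h` fixes the coset `xB` iff `x⁻¹ h x ∈ B`. -/
lemma smul_coset_eq_iff (x h : G) : h • (x : G ⧸ B) = (x : G ⧸ B) ↔ x⁻¹ * h * x ∈ B := by
  have h1 : h • (x : G ⧸ B) = ((h * x : G) : G ⧸ B) := rfl
  rw [h1, QuotientGroup.eq, ← B.inv_mem_iff]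
  simp [mul_assoc]

omit [Finite G] in
/-- `(G/B)^A ≠ ∅` iff `A` is subconjugate to `B`. -/
lemma exists_fixed_coset_iff :
    (∃ y : G ⧸ B, ∀ h ∈ A, h • y = y) ↔ ∃ g : G, A.map (MulAut.conj g).toMonoidHom ≤ B := by
  constructor
  · rintro ⟨y, hy⟩
    obtain ⟨x, rfl⟩ := QuotientGroup.mk_surjective y
    refine ⟨x⁻¹, ?_⟩
    rintro _ ⟨a, ha, rfl⟩
    have := (smul_coset_eq_iff B x a).1 (hy a ha)
    simpa [MulAut.conj_apply] using this
  · rintro ⟨g, hg⟩
    refine ⟨((g⁻¹ : G) : G ⧸ B), fun h hh => (smul_coset_eq_iff B g⁻¹ h).2 ?_⟩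
    have := hg ⟨h, hh, rfl⟩
    simpa [MulAut.conj_apply] using this

/-- If `A` is not subconjugate to `B`, then `Φ^A Σ^∞ (G/B)₊` consists of points. -/
theorem isTrivial_geomFix_orbit (h : ¬ ∃ g : G, A.map (MulAut.conj g).toMonoidHom ≤ B) :
    ((GSpt.orbit G B).geomFix A).IsTrivial := by
  let := orbitAct G B
  let : TopologicalSpace (Option (G ⧸ B)) := ⊥
  have : DiscreteTopology (Option (G ⧸ B)) := ⟨rfl⟩
  have : ContinuousConstSMul G (Option (G ⧸ B)) := ⟨fun _ => continuous_of_discreteTopology⟩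
  refine isTrivial_geomFix_suspSpec G (Option (G ⧸ B)) none (fun _ => rfl) A ?_
  intro a ha
  cases a with
  | none => rfl
  | some y =>
    exact absurd ((exists_fixed_coset_iff A B).1 ⟨y, fun g hg => Option.some.inj (ha g hg)⟩) h

/-- So it is `K(i)`-acyclic, for all `K` and `i`. -/
theorem geomAcyclic_orbit (K : ℕ → SymRing) (i : ℕ)
    (h : ¬ ∃ g : G, A.map (MulAut.conj g).toMonoidHom ≤ B) :
    GeomAcyclic K i A (GSpt.orbit G B) := by
  unfold GeomAcyclic
  split_ifs
  · exact Spt.rationallyAcyclic_of_isTrivial (isTrivial_geomFix_orbit A B h)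
  · exact Spt.cohomologyVanishes_of_isTrivial (isTrivial_geomFix_orbit A B h) _

/-- If `A` is subconjugate to `B`, then `Φ^A 𝕊` is a retract of `Φ^A Σ^∞ (G/B)₊`. -/
theorem exists_retract_geomFix_orbit (h : ∃ g : G, A.map (MulAut.conj g).toMonoidHom ≤ B) :
    ∃ (i : (GSpt.sphere G).geomFix A ⟶ (GSpt.orbit G B).geomFix A)
      (r : (GSpt.orbit G B).geomFix A ⟶ (GSpt.sphere G).geomFix A), i ≫ r = 𝟙 _ := by
  obtain ⟨y₀, hy⟩ := (exists_fixed_coset_iff A B).2 h
  let := boolAct G
  have : ContinuousConstSMul G Bool := ⟨fun _ => continuous_id⟩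
  let := orbitAct G B
  let : TopologicalSpace (Option (G ⧸ B)) := ⊥
  have : DiscreteTopology (Option (G ⧸ B)) := ⟨rfl⟩
  have : ContinuousConstSMul G (Option (G ⧸ B)) := ⟨fun _ => continuous_of_discreteTopology⟩
  let φ : C(Bool, Option (G ⧸ B)) :=
    ⟨fun b => if b then some y₀ else none, continuous_of_discreteTopology⟩
  let ψ : C(Option (G ⧸ B), Bool) := ⟨fun o => o.isSome, continuous_of_discreteTopology⟩
  have hφ : ∀ g ∈ A, ∀ b : Bool, φ (g • b) = g • φ b := by
    intro g hg b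
    cases b
    · rfl
    · exact (congrArg some (hy g hg)).symm
  have hψ : ∀ g ∈ A, ∀ o : Option (G ⧸ B), ψ (g • o) = g • ψ o := by
    intro g _ o
    cases o <;> rfl
  exact ⟨geomFixMapOf G false (fun _ => rfl) none (fun _ => rfl) A φ rfl hφ,
    geomFixMapOf G none (fun _ => rfl) false (fun _ => rfl) A ψ rfl hψ,
    geomFixMapOf_comp_eq_id G false (fun _ => rfl) none (fun _ => rfl) A φ rfl hφ ψ rfl hψ
      (fun b => by cases b <;> rfl)⟩

/-- So it is not acyclic: not at height `0`, and not at a height `i ≥ 1` with `K i = 𝕊`. -/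
theorem not_geomAcyclic_orbit (K : ℕ → SymRing) (i : ℕ) (hK : i ≠ 0 → K i = SymRing.sphere)
    (h : ∃ g : G, A.map (MulAut.conj g).toMonoidHom ≤ B) :
    ¬ GeomAcyclic K i A (GSpt.orbit G B) := by
  obtain ⟨j, r, hjr⟩ := exists_retract_geomFix_orbit A B h
  unfold GeomAcyclic
  by_cases hi : i = 0
  · rw [if_pos hi]
    exact fun hB => not_rationallyAcyclic_geomFix_sphere A (hB.of_retract j r hjr)
  · rw [if_neg hi, hK hi]
    exact fun hB => not_cohomologyVanishes_geomFix_sphere A (hB.of_retract j r hjr)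

/-- **`K(0)_*(Φ^A Σ^∞ (G/B)₊) = 0` if and only if `A` is not subconjugate to `B`.** -/
theorem geomAcyclic_zero_orbit_iff (K : ℕ → SymRing) :
    GeomAcyclic K 0 A (GSpt.orbit G B) ↔ ¬ ∃ g : G, A.map (MulAut.conj g).toMonoidHom ≤ B :=
  ⟨fun h h' => not_geomAcyclic_orbit A B K 0 (fun h0 => absurd rfl h0) h' h,
    geomAcyclic_orbit A B K 0⟩

/-- The same at every height, for the sphere ring spectrum in place of `K(i)`. -/
theorem geomAcyclic_sphere_orbit_iff (i : ℕ) :
    GeomAcyclic (fun _ => SymRing.sphere) i A (GSpt.orbit G B) ↔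
      ¬ ∃ g : G, A.map (MulAut.conj g).toMonoidHom ≤ B :=
  ⟨fun h h' => not_geomAcyclic_orbit A B _ i (fun _ => rfl) h' h, geomAcyclic_orbit A B _ i⟩

/-- **Premise and negated conclusion of `AcyclicityImplication p K A m B 0` occur together**, for the orbit
spectrum `X = Σ^∞ (G/B)₊`, if `A` is not subconjugate to `B` (as Corollary 7.5 predicts; but `X` is integral,
not `p`-local). -/
theorem premise_and_not_conclusion_orbit (K : ℕ → SymRing) (m : ℕ)
    (h : ¬ ∃ g : G, A.map (MulAut.conj g).toMonoidHom ≤ B) :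
    GeomAcyclic K m A (GSpt.orbit G B) ∧ ¬ GeomAcyclic K 0 B (GSpt.orbit G B) :=
  ⟨geomAcyclic_orbit A B K m h, not_geomAcyclic_orbit B B K 0 (fun h0 => absurd rfl h0)
    ⟨1, by
      rintro _ ⟨b, hb, rfl⟩
      simpa [MulAut.conj_apply] using hb⟩⟩

/-- Example: the free orbit `Σ^∞ G₊` of a non-trivial group is acyclic at `G` and not at the trivial
subgroup. -/
theorem geomAcyclic_free_orbit [Nontrivial G] (K : ℕ → SymRing) (m : ℕ) :
    GeomAcyclic K m (⊤ : Subgroup G) (GSpt.orbit G ⊥) ∧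
      ¬ GeomAcyclic K 0 (⊥ : Subgroup G) (GSpt.orbit G ⊥) := by
  refine premise_and_not_conclusion_orbit ⊤ ⊥ K m ?_
  rintro ⟨g, hg⟩
  obtain ⟨x, hx⟩ := exists_ne (1 : G)
  have h1 : g * x * g⁻¹ ∈ (⊥ : Subgroup G) := hg ⟨x, Subgroup.mem_top x, rfl⟩
  rw [Subgroup.mem_bot] at h1
  apply hx
  have h2 : x = g⁻¹ * (g * x * g⁻¹) * g := by group
  rw [h2, h1]
  group

end Orbit

/-! ## The orbit spectra are not `p`-local -/

section Natural

variable {G : Type} [Group G] {N : Type} [MulAction G N] [Fintype N]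
variable {k : ℕ} (e : Fin 2 × N ≃ Fin (k + 2))

/-- Naturality of the unit: a map of spectra which respects the cells of two structures `UnitData`
sends the unit to the unit. -/
lemma stablePi_map_unit {X Y : GSpt G N} (D : UnitData X) (D' : UnitData Y) (f : X ⟶ Y)
    (hf : ∀ n y, f.map n (D.cell n y) = D'.cell n y) :
    ((GSpt.stablePi ⊥ k).map f).hom (Limits.colimit.ι (unitSeq X k) 0 (unitAt e D 0)) =
      Limits.colimit.ι (unitSeq Y k) 0 (unitAt e D' 0) := by
  have h1 : Limits.colimit.ι (unitSeq X k) 0 ≫ (GSpt.stablePi ⊥ k).map f =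
      (Functor.whiskerRight ((GSpt.piSeq ⊥ k).map f) CommGrpCat.toAddCommGrp).app 0 ≫
        Limits.colimit.ι (unitSeq Y k) 0 :=
    Limits.ι_colimMap _ 0
  have h2 := ConcreteCategory.congr_hom h1 (unitAt e D 0)
  refine h2.trans (congrArg (Limits.colimit.ι (unitSeq Y k) 0) ?_)
  show Additive.ofMul (piMk (mapLoop (GSpt.loopFixMap f ⊥ 0) (GSpt.loopFixMap_base f ⊥ 0)
    (unitLoop e D 0))) = _
  have h3 : mapLoop (GSpt.loopFixMap f ⊥ 0) (GSpt.loopFixMap_base f ⊥ 0) (unitLoop e D 0) =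
      unitLoop e D' 0 := by
    ext s
    apply Subtype.ext
    ext t
    exact hf 0 _
  rw [h3]
  rfl

end Natural

section SuspMap

variable {G : Type} [Group G] (N : Type) [MulAction G N]
variable {A : Type} [TopologicalSpace A] [MulAction G A] [ContinuousConstSMul G A] (a₀ : A)
  (hA : ∀ g : G, g • a₀ = a₀)
variable {B : Type} [TopologicalSpace B] [MulAction G B] [ContinuousConstSMul G B] (b₀ : B)
  (hB : ∀ g : G, g • b₀ = b₀)

/-- `Σ^∞` is a functor on pointed `G`-maps. -/
def suspSpecMap (φ : C(A, B)) (h0 : φ a₀ = b₀) (hφ : ∀ (g : G) a, φ (g • a) = g • φ a) :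
    GSpt.suspSpec N A a₀ hA ⟶ GSpt.suspSpec N B b₀ hB where
  map := suspMapAux N a₀ b₀ φ h0
  map_base n := congrArg (Quot.mk _) (Prod.ext rfl h0)
  map_smul n g x := by
    induction x using Quot.inductionOn with
    | h p => exact congrArg (Quot.mk _) (Prod.ext rfl (hφ g p.2))
  comm n x t := by
    induction x using Quot.inductionOn with
    | h p => rfl

end SuspMap

section NotLocal

variable (G : Type) [Group G] [Fintype G] (B : Subgroup G)

/-- The map of genuine `G`-spectra `Σ^∞ (G/B)₊ → 𝕊` induced by `G/B → pt`. -/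
def orbitToSphere : GSpt.orbit G B ⟶ GSpt.sphere G :=
  letI := boolAct G
  haveI : ContinuousConstSMul G Bool := ⟨fun _ => continuous_id⟩
  letI := orbitAct G B
  letI : TopologicalSpace (Option (G ⧸ B)) := ⊥
  haveI : DiscreteTopology (Option (G ⧸ B)) := ⟨rfl⟩
  haveI : ContinuousConstSMul G (Option (G ⧸ B)) := ⟨fun _ => continuous_of_discreteTopology⟩
  suspSpecMap G none (fun _ => rfl) false (fun _ => rfl)
    ⟨fun o => o.isSome, continuous_of_discreteTopology⟩ rfl (fun g o => by cases o <;> rfl)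

/-- The cells `I^{nρ} → S^{nρ} ∧ (G/B)₊`, `y ↦ [y, B]`. -/
def orbitCell (n : ℕ) : C(Fin n × G → I, (GSpt.orbit G B).space n) :=
  letI : TopologicalSpace (Option (G ⧸ B)) := ⊥
  ⟨fun y => (Quot.mk _ (y, some ((1 : G) : G ⧸ B)) : SuspSpace G (Option (G ⧸ B)) none n),
    continuous_quot_mk.comp (continuous_id.prodMk continuous_const)⟩

lemma orbitToSphere_cell (n : ℕ) (y : Fin n × G → I) :
    (orbitToSphere G B).map n (orbitCell G B n y) =
      (Quot.mk _ (y, true) : SuspSpace G Bool false n) := rfl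

/-- The spectrum `sh² Σ^∞ (G/B)₊` "contains `sh² 𝕊`". -/
def orbitUnitData : UnitData ((GSpt.shIter 2).obj (GSpt.orbit G B)) where
  cell n := orbitCell G B (n + 1 + 1)
  cell_boundary _ _ hy := suspMk_eq_base G (Option (G ⧸ B)) none _ _ (Or.inl hy)
  str_cell _ _ _ := rfl
  bump n x := bumpSusp G (n + 1 + 1) ((orbitToSphere G B).map (n + 1 + 1) x)
  continuous_bump n := (continuous_bumpSusp G _).comp ((orbitToSphere G B).map (n + 1 + 1)).continuous
  bump_ne_zero _ _ := bumpSusp_ne_zero G _ _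
  bump_cell _ _ := rfl
  bump_base _ := rfl

end NotLocal

section NotLocal2

variable {G : Type} [Group G] [Finite G] (B : Subgroup G)

/-- No prime acts surjectively on `π_{2|G|}^1(sh² Σ^∞ (G/B)₊) = π_0(Σ^∞ (G/B)₊)`: the class of the point `B` is
sent to the unit of `π_0(𝕊)`, which is not divisible. -/
theorem not_surjective_nsmul_stablePi_orbit (q : ℕ) (hq : q.Prime) :
    ¬ Function.Surjective fun x : (GSpt.stablePi (⊥ : Subgroup G) (2 * Nat.card G - 2)).obj
      ((GSpt.shIter 2).obj (GSpt.orbit G B)) => q • x := by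
  have := Fintype.ofFinite G
  intro h
  have hc : 0 < Nat.card G := Nat.card_pos
  have hcard : Nat.card (Fin 2 × G) = 2 * Nat.card G - 2 + 2 := by
    rw [Nat.card_prod, Nat.card_fin]
    omega
  obtain ⟨y, hy⟩ := h (Limits.colimit.ι (unitSeq _ _) 0
    (unitAt (Finite.equivFinOfCardEq hcard) (orbitUnitData G B) 0))
  have h1 := congrArg ((GSpt.stablePi ⊥ (2 * Nat.card G - 2)).map
    ((GSpt.shIter 2).map (orbitToSphere G B))).hom hy
  rw [stablePi_map_unit (Finite.equivFinOfCardEq hcard) (orbitUnitData G B) (sphereUnitData G)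
    ((GSpt.shIter 2).map (orbitToSphere G B)) (fun _ _ => rfl)] at h1
  exact colimit_unit_ne_nsmul _ (sphereUnitData G) (sphereUnitData_surjective G) q hq _
    ((map_nsmul _ q y).symm.trans h1)

/-- **The orbit spectra `Σ^∞ (G/B)₊` are not `p`-local**, -/
theorem not_isPLocal_orbit (p : ℕ) : ¬ (GSpt.orbit G B).IsPLocal p := by
  intro h
  obtain ⟨q, hq, hqp⟩ := exists_prime_ne p
  exact not_surjective_nsmul_stablePi_orbit B q hq (h ⊥ _ 2 q hq hqp).2

/-- hence not among the finite `p`-local spectra over which `Statement` quantifies, -/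
theorem not_isCompactPLocal_orbit (p : ℕ) : ¬ (GSpt.orbit G B).IsCompactPLocal p :=
  fun h => not_isPLocal_orbit B p h.1

/-- and they are not zero objects of `GSH G G`. -/
theorem not_isZero_orbit : ¬ Limits.IsZero (GSH.Q.obj (GSpt.orbit G B)) := by
  have := Fintype.ofFinite G
  have hc : 0 < Nat.card G := Nat.card_pos
  have hcard : Nat.card (Fin 2 × G) = 2 * Nat.card G - 2 + 2 := by
    rw [Nat.card_prod, Nat.card_fin]
    omega
  exact not_isZero_of_stablePi
    ((orbitUnitData G B).not_subsingleton_stablePi (Finite.equivFinOfCardEq hcard))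

end NotLocal2

end

end Claimed.Open.R314
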