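import Claimed.Open.R314.SanityTelescope

/-!
# Result 314, sanity: a non-zero `p`-local genuine `G`-spectrum, for every finite group `G`

The telescope of `SanityTelescope.lean` needs a coordinate of `S^{ℝ[N]}` which is fixed by the group, so for
genuine `G`-spectra (`N = G`) it only exists for the trivial group.  This file gives a telescope for
every group: it is built on the **loop spectrum** `ΩX`, whose `n`-th space is the loop space `ΩX_n`
(Mathlib's `Path (X.base n) (X.base n)`, with `G` acting through `X_n`).  The loop coordinate carries the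
trivial action, so the power maps `γ ↦ γ · (γ · (⋯ · γ))` of the H-space `ΩX_n` are `G`-equivariant, and

  `X.loopTel d`:  `n`-th space `ΩX_n`,  `n`-th structure map  `ΩX_n --(d n)-th power--> ΩX_n --> Ω^{ℝ[N]} ΩX_{n+1}`

is a `G`-spectrum, a model of the homotopy colimit of `ΩX --d 0--> ΩX --d 1--> ΩX --> ⋯`.

* `TelStr.isPLocal`, with `loopTelStr`: if every prime `q ≠ p` divides infinitely many `d n`, then
  `X.loopTel d` is `p`-local, for every `G`-spectrum `X`: `q` is bijective on `π_{k+2}^H(sh^m -)` for **all**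
  subgroups `H` and all `k`, `m`;
* `GSpt.localSphere_spec`: for every finite group `G` and every prime `p` the genuine `G`-spectrum
  `GSpt.localSphere G p = (GSpt.sphere G).loopTel (telDeg p) ≃ Σ^{-1} 𝕊_{(p)}` is `p`-local, it is not a zero object of
  `GSH G G`, it is not `p'`-local for any `p' ≠ p`, and `π_{-1}` of it is not a torsion group;
* `GSpt.geomFix_localSphere_spec`: for every subgroup `H` its geometric fixed points are `p`-local and not rationally
  acyclic: `GeomAcyclic K 0 H` fails for this `p`-local spectrum.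

Steps.
1. `HData.op_eq_mul`, `HData.mapPi_pw` (Eckmann-Hilton): on the homotopy groups of an H-space the operation
   induced by the multiplication is the group law, so the `c`-th power map induces `x ↦ x ^ c`.
2. `TelStr`: a spectrum whose spaces are `G`-equivariant H-spaces and whose `n`-th structure map is the
   `d n`-th power map followed by a pointed `G`-map.  The H-space structure passes to the spaces
   `Map_*^H(S^{n·ℝ[N]}, T_n)` (`TelStr.fixH`), so the stabilisation map on `π_{k+2}` of these spaces is the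
   `d n`-th multiple of a homomorphism (`TelStr.mapPiHom_stab`).  Telescope structures are stable under the
   shift (`TelStr.shIter`); the colimit is treated by `bijective_nsmul_colimit` of `SanityTelescope.lean`.
3. The H-space structure of the loop space, with homotopies which are continuous in the loop, is Mathlib's
   (`Path.delayReflRight`, `Path.delayReflLeft` of `Mathlib/Topology/Homotopy/HSpaces.lean`).
4. The unit: for a spectrum `X` with `UnitData` the maps `(s, t, u) ↦ cell [s, t, u]` define classes in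
   `π_{k+2}(Map_*(S^{n·ℝ[N]}, ΩX_{n+1}))`, `k + 3 = 3|N|`, which correspond to each other under the untwisted
   stabilisation maps; un-currying (`unc3Pi`) sends them to the classes of the collapse maps
   `I^m → X_{n+1}`, which have infinite order and are not divisible by any prime (`SanityDegCore.lean`).  At level `j` the
   unit of the telescope is `d 0 ⋯ d (j-1)` times this class.

5. Geometric fixed points: `Φ^H(tel_d ΩX)` and `tel_d Ω(Φ^H X)` are isomorphic spectra (`geomTelF`, `geomTelG`), because a loop in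
   `X_n` which is fixed by `H` is a loop in `X_n^H`; steps 1 to 4 apply to `Φ^H 𝕊` (`geomUnitData`).

The sections on the coordinates (`comb3`, `Split3`, `unitSplit3`, `isCollapse_of_cell`) and on geometric fixed points were
written by helper267.
-/

open CategoryTheory Topology unitInterval
open scoped Topology.Homotopy

namespace Claimed.Open.R314

noncomputable section

set_option linter.unusedSectionVars false

/-! ## H-spaces -/

/-- An H-space structure on the pointed space `(W, e)`: a multiplication for which `e` is a unit up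
to pointed homotopy. -/
structure HData (W : Type) [TopologicalSpace W] (e : W) where
  mul : C(W × W, W)
  /-- the homotopy from `w ↦ w · e` to the identity -/
  right : C(I × W, W)
  /-- the homotopy from `w ↦ e · w` to the identity -/
  left : C(I × W, W)
  right_zero : ∀ w, right (0, w) = mul (w, e)
  right_one : ∀ w, right (1, w) = w
  right_base : ∀ s, right (s, e) = e
  left_zero : ∀ w, left (0, w) = mul (e, w)
  left_one : ∀ w, left (1, w) = w
  left_base : ∀ s, left (s, e) = e

namespace HData

variable {W : Type} [TopologicalSpace W] {e : W} (h : HData W e) {j : ℕ}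

lemma mul_base : h.mul (e, e) = e := by rw [← h.right_zero, h.right_base]

/-- The pointwise product of two loops. -/
def loop (α β : Ω^ (Fin j) W e) : Ω^ (Fin j) W e :=
  ⟨h.mul.comp (α.1.prodMk β.1), fun y hy => by
    show h.mul (α y, β y) = e
    rw [GenLoop.boundary α y hy, GenLoop.boundary β y hy, h.mul_base]⟩

lemma loop_apply (α β : Ω^ (Fin j) W e) (y : Fin j → I) : h.loop α β y = h.mul (α y, β y) := rfl

lemma loop_homotopic {α α' β β' : Ω^ (Fin j) W e} (hα : GenLoop.Homotopic α α')
    (hβ : GenLoop.Homotopic β β') : GenLoop.Homotopic (h.loop α β) (h.loop α' β') := by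
  obtain ⟨A⟩ := hα
  obtain ⟨B⟩ := hβ
  refine ⟨{ toFun := fun z => h.mul (A z, B z)
            continuous_toFun := h.mul.continuous.comp (A.continuous.prodMk B.continuous)
            map_zero_left := fun y => ?_
            map_one_left := fun y => ?_
            prop' := fun t y hy => ?_ }⟩
  · show h.mul (A (0, y), B (0, y)) = _
    rw [A.apply_zero, B.apply_zero]
    rfl
  · show h.mul (A (1, y), B (1, y)) = _
    rw [A.apply_one, B.apply_one]
    rfl
  · show h.mul (A (t, y), B (t, y)) = _
    rw [A.eq_fst t hy, B.eq_fst t hy]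
    rfl

/-- The operation induced on the homotopy group. -/
def op : HomotopyGroup (Fin j) W e → HomotopyGroup (Fin j) W e → HomotopyGroup (Fin j) W e :=
  Quotient.map₂ h.loop (fun _ _ ha _ _ hb => h.loop_homotopic ha hb)

lemma op_piMk (α β : Ω^ (Fin j) W e) : h.op (piMk α) (piMk β) = piMk (h.loop α β) := rfl

lemma piMk_const [Nonempty (Fin j)] : piMk (GenLoop.const : Ω^ (Fin j) W e) = 1 :=
  HomotopyGroup.one_def.symm

lemma op_one [Nonempty (Fin j)] (x : HomotopyGroup (Fin j) W e) : h.op x 1 = x := by
  induction x using Quotient.inductionOn with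
  | h α =>
    show h.op (piMk α) 1 = piMk α
    rw [← piMk_const, op_piMk]
    refine Quotient.sound ⟨{ toFun := fun z => h.right (z.1, α z.2)
                             continuous_toFun := h.right.continuous.comp
                               (continuous_fst.prodMk (α.1.continuous.comp continuous_snd))
                             map_zero_left := fun y => h.right_zero _
                             map_one_left := fun y => h.right_one _
                             prop' := fun t y hy => ?_ }⟩
    show h.right (t, α y) = h.mul (α y, e)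
    rw [GenLoop.boundary α y hy, h.right_base, h.mul_base]

lemma one_op [Nonempty (Fin j)] (x : HomotopyGroup (Fin j) W e) : h.op 1 x = x := by
  induction x using Quotient.inductionOn with
  | h α =>
    show h.op 1 (piMk α) = piMk α
    rw [← piMk_const, op_piMk]
    refine Quotient.sound ⟨{ toFun := fun z => h.left (z.1, α z.2)
                             continuous_toFun := h.left.continuous.comp
                               (continuous_fst.prodMk (α.1.continuous.comp continuous_snd))
                             map_zero_left := fun y => h.left_zero _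
                             map_one_left := fun y => h.left_one _
                             prop' := fun t y hy => ?_ }⟩
    show h.left (t, α y) = h.mul (e, α y)
    rw [GenLoop.boundary α y hy, h.left_base, h.mul_base]

lemma loop_transAt (i : Fin j) (α β γ δ : Ω^ (Fin j) W e) :
    h.loop (GenLoop.transAt i α β) (GenLoop.transAt i γ δ) =
      GenLoop.transAt i (h.loop α γ) (h.loop β δ) := by
  ext y
  rw [loop_apply, transAt_apply, transAt_apply, transAt_apply]
  split_ifs <;> rfl

lemma op_mul [Nonempty (Fin j)] (a b c d : HomotopyGroup (Fin j) W e) :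
    h.op (a * b) (c * d) = h.op a c * h.op b d := by
  induction a using Quotient.inductionOn with
  | h α =>
  induction b using Quotient.inductionOn with
  | h β =>
  induction c using Quotient.inductionOn with
  | h γ =>
  induction d using Quotient.inductionOn with
  | h δ =>
  have i : Fin j := Classical.arbitrary _
  show h.op (piMk α * piMk β) (piMk γ * piMk δ) = h.op (piMk α) (piMk γ) * h.op (piMk β) (piMk δ)
  rw [piMk_mul i, piMk_mul i, op_piMk, op_piMk, op_piMk, piMk_mul i, loop_transAt]

/-- **Eckmann-Hilton**: the operation induced by the H-space structure is the group law. -/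
theorem op_eq_mul [Nonempty (Fin j)] (x y : HomotopyGroup (Fin j) W e) : h.op x y = x * y := by
  have := EckmannHilton.mul (m₁ := h.op (j := j)) (m₂ := (· * ·)) (e₁ := 1) (e₂ := 1)
    (EckmannHilton.IsUnital.mk { left_id := h.one_op, right_id := h.op_one })
    EckmannHilton.MulOneClass.isUnital (fun a b c d => h.op_mul a b c d)
  exact congrFun (congrFun this x) y

/-- **The `c`-th power map of an H-space induces `x ↦ x ^ c` on homotopy groups.** -/
theorem mapPi_pw [Nonempty (Fin j)] (P : ℕ → C(W, W)) (hP0 : ∀ w, P 0 w = e)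
    (hPs : ∀ c w, P (c + 1) w = h.mul (w, P c w)) (hPe : ∀ c, P c e = e) (c : ℕ)
    (x : HomotopyGroup (Fin j) W e) : mapPi (P c) (hPe c) x = x ^ c := by
  induction c with
  | zero =>
    rw [pow_zero, ← piMk_const]
    induction x using Quotient.inductionOn with
    | h α =>
      refine congrArg piMk ?_
      ext y
      exact hP0 _
  | succ c ih =>
    rw [pow_succ', ← ih, ← op_eq_mul h]
    induction x using Quotient.inductionOn with
    | h α =>
      refine congrArg piMk ?_
      ext y
      exact hPs c _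

end HData

/-! ## Telescope structures -/

section Tel

variable {G : Type} [Group G] {N : Type} [MulAction G N]

/-- A *telescope structure* on the spectrum `T`, with the sequence of multiplicities `d`: the spaces
`T_n` are `G`-equivariant H-spaces, and the `n`-th structure map of `T` is the `d n`-th power map of
`T_n` followed by a pointed `G`-map `str0 n : T_n → Ω^{ℝ[N]} T_{n+1}`. -/
structure TelStr (T : GSpt G N) (d : ℕ → ℕ) where
  mul : ∀ n, C(T.space n × T.space n, T.space n)
  right : ∀ n, C(I × T.space n, T.space n)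
  left : ∀ n, C(I × T.space n, T.space n)
  right_zero : ∀ n w, right n (0, w) = mul n (w, T.base n)
  right_one : ∀ n w, right n (1, w) = w
  right_base : ∀ n s, right n (s, T.base n) = T.base n
  left_zero : ∀ n w, left n (0, w) = mul n (T.base n, w)
  left_one : ∀ n w, left n (1, w) = w
  left_base : ∀ n s, left n (s, T.base n) = T.base n
  mul_smul : ∀ n (g : G) x y, mul n (g • x, g • y) = g • mul n (x, y)
  right_smul : ∀ n (g : G) s x, right n (s, g • x) = g • right n (s, x)
  left_smul : ∀ n (g : G) s x, left n (s, g • x) = g • left n (s, x)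
  /-- the power maps -/
  pw : ∀ n, ℕ → C(T.space n, T.space n)
  pw_zero : ∀ n x, pw n 0 x = T.base n
  pw_succ : ∀ n c x, pw n (c + 1) x = mul n (x, pw n c x)
  /-- the untwisted structure maps -/
  str0 : ∀ n, C(T.space n, Ω^ N (T.space (n + 1)) (T.base (n + 1)))
  str0_base : ∀ n (t : N → I), str0 n (T.base n) t = T.base (n + 1)
  str0_smul : ∀ n (g : G) (x : T.space n) (t : N → I),
    str0 n (g • x) t = g • str0 n x (fun i => t (g • i))
  str_eq : ∀ n x, T.str n x = str0 n (pw n (d n) x)

/-- The sequence of abelian groups whose colimit is `π_{k+2}^H(T)`. -/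
abbrev piSeqAdd (T : GSpt G N) (H : Subgroup G) (k : ℕ) : ℕ ⥤ AddCommGrpCat.{0} :=
  (GSpt.piSeq H k).obj T ⋙ CommGrpCat.toAddCommGrp

namespace TelStr

variable {T : GSpt G N} {d : ℕ → ℕ} (h : TelStr T d)

lemma mul_base (n : ℕ) : h.mul n (T.base n, T.base n) = T.base n := by
  rw [← h.right_zero, h.right_base]

lemma pw_base (n c : ℕ) : h.pw n c (T.base n) = T.base n := by
  induction c with
  | zero => exact h.pw_zero n _
  | succ c ih => rw [h.pw_succ, ih, h.mul_base]

lemma pw_smul (n c : ℕ) (g : G) (x : T.space n) : h.pw n c (g • x) = g • h.pw n c x := by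
  induction c with
  | zero => rw [h.pw_zero, h.pw_zero, T.smul_base]
  | succ c ih => rw [h.pw_succ, h.pw_succ, ih, h.mul_smul]

/-- The shift of a telescope structure. -/
def sh : TelStr (GSpt.sh.obj T) (fun n => d (n + 1)) where
  mul n := h.mul (n + 1)
  right n := h.right (n + 1)
  left n := h.left (n + 1)
  right_zero n := h.right_zero (n + 1)
  right_one n := h.right_one (n + 1)
  right_base n := h.right_base (n + 1)
  left_zero n := h.left_zero (n + 1)
  left_one n := h.left_one (n + 1)
  left_base n := h.left_base (n + 1)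
  mul_smul n := h.mul_smul (n + 1)
  right_smul n := h.right_smul (n + 1)
  left_smul n := h.left_smul (n + 1)
  pw n := h.pw (n + 1)
  pw_zero n := h.pw_zero (n + 1)
  pw_succ n := h.pw_succ (n + 1)
  str0 n := h.str0 (n + 1)
  str0_base n := h.str0_base (n + 1)
  str0_smul n := h.str0_smul (n + 1)
  str_eq n := h.str_eq (n + 1)

/-- The iterated shift of a telescope structure. -/
def shIter : ∀ (m : ℕ) {T : GSpt G N} {d : ℕ → ℕ}, TelStr T d →
    TelStr ((GSpt.shIter m).obj T) (fun n => d (n + m))
  | 0, _, _, h => h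
  | m + 1, _, d, h => by
    have h1 := shIter m h.sh
    have h2 : (fun n => d (n + m + 1)) = fun n => d (n + (m + 1)) := rfl
    exact h2 ▸ h1

variable (H : Subgroup G) (n : ℕ)

/-- The pointwise product on `Map_*^H(S^{n·ℝ[N]}, T_n)`. -/
def fixMul : C(T.LoopFix H n × T.LoopFix H n, T.LoopFix H n) where
  toFun p := ⟨⟨⟨fun t => h.mul n (p.1.1 t, p.2.1 t), by fun_prop⟩, fun t ht => by
      show h.mul n (p.1.1 t, p.2.1 t) = T.base n
      rw [GenLoop.boundary p.1.1 t ht, GenLoop.boundary p.2.1 t ht, h.mul_base]⟩, by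
    intro a ha t
    show h.mul n (p.1.1 t, p.2.1 t) = a • h.mul n (p.1.1 _, p.2.1 _)
    rw [← h.mul_smul, ← p.1.2 a ha t, ← p.2.2 a ha t]⟩
  continuous_toFun := by
    refine Continuous.subtype_mk (Continuous.subtype_mk ?_ _) _
    refine ContinuousMap.continuous_of_continuous_uncurry _ ?_
    show Continuous fun z : (T.LoopFix H n × T.LoopFix H n) × (Fin n × N → I) =>
      h.mul n (z.1.1.1 z.2, z.1.2.1 z.2)
    have h1 : Continuous fun z : (T.LoopFix H n × T.LoopFix H n) × (Fin n × N → I) => z.1.1.1 :=
      continuous_subtype_val.comp (continuous_fst.comp continuous_fst)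
    have h2 : Continuous fun z : (T.LoopFix H n × T.LoopFix H n) × (Fin n × N → I) => z.1.2.1 :=
      continuous_subtype_val.comp (continuous_snd.comp continuous_fst)
    fun_prop

/-- A homotopy `I × T_n → T_n` through pointed `G`-maps, applied pointwise. -/
def fixHtpy (R : C(I × T.space n, T.space n)) (hb : ∀ s, R (s, T.base n) = T.base n)
    (hs : ∀ (g : G) s x, R (s, g • x) = g • R (s, x)) : C(I × T.LoopFix H n, T.LoopFix H n) where
  toFun p := ⟨⟨⟨fun t => R (p.1, p.2.1 t), by fun_prop⟩, fun t ht => by
      show R (p.1, p.2.1 t) = T.base n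
      rw [GenLoop.boundary p.2.1 t ht, hb]⟩, by
    intro a ha t
    show R (p.1, p.2.1 t) = a • R (p.1, p.2.1 _)
    rw [← hs, ← p.2.2 a ha t]⟩
  continuous_toFun := by
    refine Continuous.subtype_mk (Continuous.subtype_mk ?_ _) _
    refine ContinuousMap.continuous_of_continuous_uncurry _ ?_
    show Continuous fun z : (I × T.LoopFix H n) × (Fin n × N → I) => R (z.1.1, z.1.2.1 z.2)
    have h1 : Continuous fun z : (I × T.LoopFix H n) × (Fin n × N → I) => z.1.2.1 :=
      continuous_subtype_val.comp (continuous_snd.comp continuous_fst)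
    fun_prop

/-- The H-space structure of `Map_*^H(S^{n·ℝ[N]}, T_n)`. -/
def fixH : HData (T.LoopFix H n) (T.loopFixBase H n) where
  mul := h.fixMul H n
  right := fixHtpy H n (h.right n) (h.right_base n) (h.right_smul n)
  left := fixHtpy H n (h.left n) (h.left_base n) (h.left_smul n)
  right_zero w := by
    apply Subtype.ext
    ext t
    exact h.right_zero n _
  right_one w := by
    apply Subtype.ext
    ext t
    exact h.right_one n _
  right_base s := by
    apply Subtype.ext
    ext t
    exact h.right_base n _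
  left_zero w := by
    apply Subtype.ext
    ext t
    exact h.left_zero n _
  left_one w := by
    apply Subtype.ext
    ext t
    exact h.left_one n _
  left_base s := by
    apply Subtype.ext
    ext t
    exact h.left_base n _

/-- The power maps of `Map_*^H(S^{n·ℝ[N]}, T_n)`. -/
def fixPw (c : ℕ) : C(T.LoopFix H n, T.LoopFix H n) where
  toFun γ := ⟨mapLoop (h.pw n c) (h.pw_base n c) γ.1, by
    intro a ha t
    show h.pw n c (γ.1 t) = a • h.pw n c (γ.1 _)
    rw [← h.pw_smul, ← γ.2 a ha t]⟩
  continuous_toFun := by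
    refine Continuous.subtype_mk (Continuous.subtype_mk ?_ _) _
    exact (ContinuousMap.continuous_postcomp (h.pw n c)).comp
      (continuous_subtype_val.comp continuous_subtype_val)

lemma fixPw_base (c : ℕ) : h.fixPw H n c (T.loopFixBase H n) = T.loopFixBase H n := by
  apply Subtype.ext
  ext t
  exact h.pw_base n c

/-- The power maps induce the powers on the homotopy groups. -/
theorem mapPi_fixPw (k c : ℕ)
    (x : HomotopyGroup (Fin (k + 2)) (T.LoopFix H n) (T.loopFixBase H n)) :
    mapPi (h.fixPw H n c) (h.fixPw_base H n c) x = x ^ c :=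
  (h.fixH H n).mapPi_pw (h.fixPw H n)
    (fun w => by
      apply Subtype.ext
      ext t
      exact h.pw_zero n _)
    (fun c w => by
      apply Subtype.ext
      ext t
      exact h.pw_succ n c _)
    (h.fixPw_base H n) c x

/-- The spectrum with the same spaces and the untwisted structure maps. -/
@[reducible] def untw : GSpt G N where
  space := T.space
  top := T.top
  act := T.act
  cont := T.cont
  base := T.base
  smul_base := T.smul_base
  str := h.str0
  str_base := h.str0_base
  str_smul := h.str0_smul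

/-- The untwisted stabilisation map. -/
def stab0 : C(T.LoopFix H n, T.LoopFix H (n + 1)) := h.untw.stab H n

lemma stab0_base : h.stab0 H n (T.loopFixBase H n) = T.loopFixBase H (n + 1) :=
  h.untw.stab_base H n

lemma stab_eq (γ : T.LoopFix H n) : T.stab H n γ = h.stab0 H n (h.fixPw H n (d n) γ) := by
  apply Subtype.ext
  ext t
  show T.str n (γ.1 _) _ = h.str0 n (h.pw n (d n) (γ.1 _)) _
  rw [h.str_eq]

/-- **The stabilisation map of a telescope is `d n` times a homomorphism.** -/
theorem mapPiHom_stab (k : ℕ)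
    (x : HomotopyGroup (Fin (k + 2)) (T.LoopFix H n) (T.loopFixBase H n)) :
    mapPiHom (T.stab H n) (T.stab_base H n) x =
      mapPiHom (h.stab0 H n) (h.stab0_base H n) x ^ d n := by
  rw [← map_pow, ← h.mapPi_fixPw H n k (d n) x]
  induction x using Quotient.inductionOn with
  | h α =>
    refine congrArg piMk ?_
    ext s
    exact h.stab_eq H n _

/-- The untwisted stabilisation map on homotopy groups, additively. -/
def psi (k : ℕ) : (piSeqAdd T H k).obj n →+ (piSeqAdd T H k).obj (n + 1) :=
  let f : Additive (HomotopyGroup (Fin (k + 2)) (T.LoopFix H n) (T.loopFixBase H n)) →+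
      Additive (HomotopyGroup (Fin (k + 2)) (T.LoopFix H (n + 1)) (T.loopFixBase H (n + 1))) :=
    MonoidHom.toAdditive (mapPiHom (h.stab0 H n) (h.stab0_base H n))
  f

lemma piSeqAdd_map_succ (k : ℕ) (x : (piSeqAdd T H k).obj n) :
    (piSeqAdd T H k).map (homOfLE (Nat.le_succ n)) x = d n • h.psi H n k x := by
  have e : ((GSpt.piSeq H k).obj T).map (homOfLE (Nat.le_succ n)) =
      CommGrpCat.ofHom (mapPiHom (T.stab H n) (T.stab_base H n)) :=
    Functor.ofSequence_map_homOfLE_succ _ n
  show (CommGrpCat.toAddCommGrp.map (((GSpt.piSeq H k).obj T).map (homOfLE (Nat.le_succ n)))) x = _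
  rw [e]
  exact h.mapPiHom_stab H n k x

include h in
theorem bijective_nsmul (k q : ℕ) (hq : ∀ n, ∃ n', n ≤ n' ∧ q ∣ d n') :
    Function.Bijective fun x : (GSpt.stablePi H k).obj T => q • x :=
  bijective_nsmul_colimit (piSeqAdd T H k) d (fun n => h.psi H n k)
    (fun n => h.piSeqAdd_map_succ H n k) q hq

include h in
/-- **A telescope in which every prime `q ≠ p` divides `d n` for arbitrarily large `n` is
`p`-local.** -/
theorem isPLocal {p : ℕ}
    (hd : ∀ q : ℕ, q.Prime → q ≠ p → ∀ n, ∃ n', n ≤ n' ∧ q ∣ d n') : T.IsPLocal p := by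
  intro H k m q hq hqp
  refine (h.shIter m).bijective_nsmul H k q fun n => ?_
  obtain ⟨n', hn, hdv⟩ := hd q hq hqp (n + m)
  exact ⟨n' - m, by omega, by rwa [Nat.sub_add_cancel (by omega)]⟩

end TelStr

end Tel

/-! ## The loop spectrum with twisted structure maps -/

section PathAct

variable {G : Type} [Group G] {Z : Type} [TopologicalSpace Z] [MulAction G Z]
  [ContinuousConstSMul G Z] {z₀ : Z}

/-- `G` acts on the loop space `ΩZ` by post-composition. -/
def pathSmul (h₀ : ∀ g : G, g • z₀ = z₀) (g : G) (γ : Path z₀ z₀) : Path z₀ z₀ where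
  toFun u := g • γ u
  continuous_toFun := (continuous_const_smul g).comp γ.continuous
  source' := by rw [γ.source, h₀]
  target' := by rw [γ.target, h₀]

/-- The action of `G` on `ΩZ`. -/
@[reducible] def pathMulAction (h₀ : ∀ g : G, g • z₀ = z₀) : MulAction G (Path z₀ z₀) where
  smul := pathSmul h₀
  one_smul γ := by
    ext u
    exact one_smul G _
  mul_smul g g' γ := by
    ext u
    exact mul_smul g g' _

lemma continuous_pathSmul (h₀ : ∀ g : G, g • z₀ = z₀) (g : G) :
    Continuous (pathSmul h₀ g : Path z₀ z₀ → Path z₀ z₀) := by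
  refine Path.continuous_uncurry_iff.mp ?_
  show Continuous fun p : Path z₀ z₀ × I => g • p.1 p.2
  exact (continuous_const_smul g).comp continuous_eval

lemma pathSmul_trans (h₀ : ∀ g : G, g • z₀ = z₀) (g : G) (γ γ' : Path z₀ z₀) :
    (pathSmul h₀ g γ).trans (pathSmul h₀ g γ') = pathSmul h₀ g (γ.trans γ') := by
  ext u
  show _ = g • (γ.trans γ') u
  rw [Path.trans_apply, Path.trans_apply]
  split_ifs <;> rfl

omit [MulAction G Z] [ContinuousConstSMul G Z] [Group G] in
/-- The power maps of the loop space: `γ ↦ γ · (γ · (⋯ · (γ · const)))`. -/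
def pathPow : ℕ → C(Path z₀ z₀, Path z₀ z₀)
  | 0 => ContinuousMap.const _ (Path.refl z₀)
  | c + 1 => ⟨fun γ => γ.trans (pathPow c γ),
      Path.continuous_trans.comp (continuous_id.prodMk (pathPow c).continuous)⟩

end PathAct

section LoopTel

variable {G : Type} [Group G] {N : Type} [MulAction G N] (X : GSpt G N)

/-- The structure maps `ΩX_n → Ω^{ℝ[N]} ΩX_{n+1}` of the loop spectrum `ΩX`. -/
def loopStr (n : ℕ) : C(Path (X.base n) (X.base n),
    Ω^ N (Path (X.base (n + 1)) (X.base (n + 1))) (Path.refl _)) where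
  toFun γ := ⟨⟨fun s =>
      { toFun := fun u => X.str n (γ u) s
        continuous_toFun := by fun_prop
        source' := by rw [γ.source]; exact X.str_base n s
        target' := by rw [γ.target]; exact X.str_base n s }, by
      refine Path.continuous_uncurry_iff.mp ?_
      show Continuous fun p : (N → I) × I => X.str n (γ p.2) p.1
      fun_prop⟩, by
    intro s hs
    ext u
    exact (X.str n (γ u)).2 s hs⟩
  continuous_toFun := by
    refine Continuous.subtype_mk ?_ _
    refine ContinuousMap.continuous_of_continuous_uncurry _ ?_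
    refine Path.continuous_uncurry_iff.mp ?_
    show Continuous fun p : (Path (X.base n) (X.base n) × (N → I)) × I =>
      X.str n (p.1.1 p.2) p.1.2
    fun_prop

lemma loopStr_apply (n : ℕ) (γ : Path (X.base n) (X.base n)) (s : N → I) (u : I) :
    loopStr X n γ s u = X.str n (γ u) s := rfl

lemma pathPow_refl {Z : Type} [TopologicalSpace Z] {z₀ : Z} (c : ℕ) :
    pathPow c (Path.refl z₀) = Path.refl z₀ := by
  induction c with
  | zero => rfl
  | succ c ih =>
    show (Path.refl z₀).trans (pathPow c (Path.refl z₀)) = _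
    rw [ih, Path.refl_trans_refl]

lemma pathPow_smul {Z : Type} [TopologicalSpace Z] [MulAction G Z] [ContinuousConstSMul G Z]
    {z₀ : Z} (h₀ : ∀ g : G, g • z₀ = z₀) (c : ℕ) (g : G) (γ : Path z₀ z₀) :
    pathPow c (pathSmul h₀ g γ) = pathSmul h₀ g (pathPow c γ) := by
  induction c with
  | zero =>
    ext u
    exact (h₀ g).symm
  | succ c ih =>
    show (pathSmul h₀ g γ).trans (pathPow c (pathSmul h₀ g γ)) = pathSmul h₀ g (γ.trans (pathPow c γ))
    rw [ih, pathSmul_trans]

lemma loopStr_refl (n : ℕ) (t : N → I) : loopStr X n (Path.refl _) t = Path.refl _ := by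
  ext u
  exact X.str_base n t

lemma loopStr_smul (n : ℕ) (g : G) (γ : Path (X.base n) (X.base n)) (t : N → I) :
    loopStr X n (pathSmul (X.smul_base n) g γ) t =
      pathSmul (X.smul_base (n + 1)) g (loopStr X n γ (fun i => t (g • i))) := by
  ext u
  exact X.str_smul n g (γ u) t

/-- **The telescope** `tel_d ΩX` of the loop spectrum of `X`: the `n`-th space is the loop space
`ΩX_n`, on which `G` acts through `X_n`, and the `n`-th structure map is the `d n`-th power map of
`ΩX_n` followed by the structure map `ΩX_n → Ω^{ℝ[N]} ΩX_{n+1}` of the loop spectrum.  It is a model of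
the homotopy colimit of `ΩX --d 0--> ΩX --d 1--> ΩX --> ⋯`. -/
def GSpt.loopTel (d : ℕ → ℕ) : GSpt G N :=
  letI : ∀ n, MulAction G (Path (X.base n) (X.base n)) := fun n => pathMulAction (X.smul_base n)
  { space := fun n => Path (X.base n) (X.base n)
    cont := fun n => ⟨fun g => continuous_pathSmul (X.smul_base n) g⟩
    base := fun n => Path.refl _
    smul_base := fun n g => by
      ext u
      exact X.smul_base n g
    str := fun n => (loopStr X n).comp (pathPow (d n))
    str_base := fun n t => by
      show loopStr X n (pathPow (d n) (Path.refl _)) t = _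
      rw [pathPow_refl, loopStr_refl]
    str_smul := fun n g γ t => by
      show loopStr X n (pathPow (d n) (pathSmul (X.smul_base n) g γ)) t =
        pathSmul (X.smul_base (n + 1)) g (loopStr X n (pathPow (d n) γ) (fun i => t (g • i)))
      rw [pathPow_smul, loopStr_smul] }

/-- Its telescope structure. -/
def loopTelStr (d : ℕ → ℕ) : TelStr (X.loopTel d) d where
  mul n := ⟨fun ρ : Path (X.base n) (X.base n) × Path (X.base n) (X.base n) => ρ.1.trans ρ.2,
    Path.continuous_trans⟩
  right n := ⟨fun p : I × Path (X.base n) (X.base n) => Path.delayReflRight p.1 p.2,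
    Path.continuous_delayReflRight⟩
  left n := ⟨fun p : I × Path (X.base n) (X.base n) => Path.delayReflLeft p.1 p.2,
    Path.continuous_delayReflLeft⟩
  right_zero n w := Path.delayReflRight_zero (x := X.base n) w
  right_one n w := Path.delayReflRight_one (x := X.base n) w
  right_base n s := by
    refine Path.ext (x := X.base n) ?_
    rfl
  left_zero n w := Path.delayReflLeft_zero (x := X.base n) w
  left_one n w := Path.delayReflLeft_one (x := X.base n) w
  left_base n s := by
    refine Path.ext (x := X.base n) ?_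
    rfl
  mul_smul n g x y := pathSmul_trans (X.smul_base n) g x y
  right_smul n g s x := by
    refine Path.ext (x := X.base n) ?_
    rfl
  left_smul n g s x := by
    refine Path.ext (x := X.base n) ?_
    rfl
  pw n c := pathPow c
  pw_zero n x := rfl
  pw_succ n c x := rfl
  str0 n := loopStr X n
  str0_base n t := loopStr_refl X n t
  str0_smul n g x t := loopStr_smul X n g x t
  str_eq n x := rfl

end LoopTel

/-! ## The coordinates of the unit of the loop spectrum (helper267) -/

section Comb3

variable {N : Type} [Fintype N] {k : ℕ} (e3 : Fin 3 × N ≃ Fin (k + 3))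

/-- The homeomorphism `I^{k+2} × I^{n·N} × I ≅ I^{(n+3)·N}` given by a bijection
`e3 : Fin 3 × N ≃ Fin (k + 3)`: the first `n` blocks of coordinates are `t`, the last three blocks are
the `k + 2` loop coordinates `s` (`Fin.castSucc a`) and the path coordinate `u` (`Fin.last`). -/
def comb3 (n : ℕ) (s : Fin (k + 2) → I) (t : Fin n × N → I) (u : I) :
    Fin (n + 1 + 1 + 1) × N → I :=
  fun q => Fin.addCases (m := n) (n := 3) (motive := fun _ => I) (fun a => t (a, q.2))
    (fun b => Fin.snoc (n := k + 2) (α := fun _ => I) s u (e3 (b, q.2))) q.1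

lemma comb3_left (n : ℕ) (s : Fin (k + 2) → I) (t : Fin n × N → I) (u : I) (a : Fin n) (g : N) :
    comb3 e3 n s t u (Fin.castAdd 3 a, g) = t (a, g) := by
  simp [comb3]

lemma comb3_right (n : ℕ) (s : Fin (k + 2) → I) (t : Fin n × N → I) (u : I) (b : Fin 3) (g : N) :
    comb3 e3 n s t u (Fin.natAdd n b, g) =
      Fin.snoc (n := k + 2) (α := fun _ => I) s u (e3 (b, g)) := by
  simp [comb3]

lemma continuous_comb3 (n : ℕ) :
    Continuous fun z : ((Fin (k + 2) → I) × (Fin n × N → I)) × I =>
      comb3 e3 n z.1.1 z.1.2 z.2 := by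
  refine continuous_pi ?_
  rintro ⟨j, g⟩
  induction j using Fin.addCases (m := n) (n := 3) with
  | left a =>
    simp only [comb3_left]
    exact (continuous_apply _).comp (continuous_snd.comp continuous_fst)
  | right b =>
    simp only [comb3_right]
    generalize e3 (b, g) = c
    induction c using Fin.lastCases with
    | last =>
      simp only [Fin.snoc_last]
      exact continuous_snd
    | cast c =>
      simp only [Fin.snoc_castSucc]
      exact (continuous_apply _).comp (continuous_fst.comp continuous_fst)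

lemma comb3_boundary_loop (n : ℕ) {s : Fin (k + 2) → I} (hs : s ∈ Cube.boundary (Fin (k + 2)))
    (t : Fin n × N → I) (u : I) :
    comb3 e3 n s t u ∈ Cube.boundary (Fin (n + 1 + 1 + 1) × N) := by
  obtain ⟨a, h⟩ := hs
  refine ⟨(Fin.natAdd n (e3.symm a.castSucc).1, (e3.symm a.castSucc).2), ?_⟩
  rw [comb3_right]
  simpa using h

lemma comb3_boundary_inner (n : ℕ) (s : Fin (k + 2) → I) {t : Fin n × N → I}
    (ht : t ∈ Cube.boundary (Fin n × N)) (u : I) :
    comb3 e3 n s t u ∈ Cube.boundary (Fin (n + 1 + 1 + 1) × N) := by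
  obtain ⟨⟨a, g⟩, h⟩ := ht
  exact ⟨(Fin.castAdd 3 a, g), by rw [comb3_left]; exact h⟩

lemma comb3_boundary_path (n : ℕ) (s : Fin (k + 2) → I) (t : Fin n × N → I) {u : I}
    (hu : u = 0 ∨ u = 1) :
    comb3 e3 n s t u ∈ Cube.boundary (Fin (n + 1 + 1 + 1) × N) := by
  refine ⟨(Fin.natAdd n (e3.symm (Fin.last (k + 2))).1, (e3.symm (Fin.last (k + 2))).2), ?_⟩
  rw [comb3_right]
  simpa using hu

/-- Compatibility of `comb3` with the stabilisation maps. -/
lemma comb3_succ (n : ℕ) (s : Fin (k + 2) → I) (t : Fin (n + 1) × N → I) (u : I) :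
    comb3 e3 (n + 1) s t u = fun q => Fin.cases (motive := fun _ => I) (t (0, q.2))
      (fun j => comb3 e3 n s (fun r => t (r.1.succ, r.2)) u (j, q.2)) q.1 := by
  funext ⟨j, g⟩
  induction j using Fin.addCases (m := n + 1) (n := 3) with
  | left a =>
    rw [comb3_left]
    induction a using Fin.cases with
    | zero => rfl
    | succ a =>
      have h : (Fin.castAdd 3 a.succ : Fin (n + 1 + 3)) = (Fin.castAdd 3 a : Fin (n + 3)).succ :=
        rfl
      rw [h]
      simp only [Fin.cases_succ]
      rw [comb3_left]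
  | right b =>
    rw [comb3_right]
    have h : (Fin.natAdd (n + 1) b : Fin (n + 1 + 3)) = (Fin.natAdd n b : Fin (n + 3)).succ := by
      ext
      simp
      omega
    rw [h]
    simp only [Fin.cases_succ]
    rw [comb3_right]

/-- A decomposition of the coordinates `Fin m` into "loop coordinates" `A`, "inner coordinates" `B`
and one "path coordinate". -/
structure Split3 (A B : Type) (m : ℕ) where
  lp : A → Fin m
  inn : B → Fin m
  pt : Fin m
  inj : Function.Injective lp
  disj : ∀ a b, inn b ≠ lp a
  disj' : ∀ a, pt ≠ lp a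
  cov : ∀ j, (∃ a, lp a = j) ∨ (∃ b, inn b = j) ∨ pt = j

/-- The decomposition of the coordinates of `I^{(n+3)·N}`, numbered by `ε`, which corresponds to
`comb3 e3 n`. -/
def unitSplit3 (n : ℕ) {m : ℕ} (ε : Fin (n + 1 + 1 + 1) × N ≃ Fin m) :
    Split3 (Fin (k + 2)) (Fin n × N) m where
  lp a := ε (Fin.natAdd n (e3.symm a.castSucc).1, (e3.symm a.castSucc).2)
  inn r := ε (Fin.castAdd 3 r.1, r.2)
  pt := ε (Fin.natAdd n (e3.symm (Fin.last (k + 2))).1, (e3.symm (Fin.last (k + 2))).2)
  inj := by
    intro a a' h
    have h1 := ε.injective h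
    simp only [Prod.mk.injEq] at h1
    have h2 : (e3.symm a.castSucc).1 = (e3.symm a'.castSucc).1 := by
      have := congrArg Fin.val h1.1
      simp only [Fin.val_natAdd] at this
      exact Fin.ext (by omega)
    exact Fin.castSucc_injective _ (e3.symm.injective (Prod.ext h2 h1.2))
  disj := by
    intro a b h
    have h1 := ε.injective h
    simp only [Prod.mk.injEq] at h1
    have := congrArg Fin.val h1.1
    simp only [Fin.val_natAdd, Fin.val_castAdd] at this
    have := b.1.2
    omega
  disj' := by
    intro a h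
    have h1 := ε.injective h
    simp only [Prod.mk.injEq] at h1
    have h2 : (e3.symm (Fin.last (k + 2))).1 = (e3.symm a.castSucc).1 := by
      have := congrArg Fin.val h1.1
      simp only [Fin.val_natAdd] at this
      exact Fin.ext (by omega)
    have h3 : Fin.last (k + 2) = a.castSucc := e3.symm.injective (Prod.ext h2 h1.2)
    exact (Fin.castSucc_lt_last a).ne h3.symm
  cov := by
    intro j
    obtain ⟨⟨i, g⟩, rfl⟩ := ε.surjective j
    induction i using Fin.addCases (m := n) (n := 3) with
    | left a => exact Or.inr (Or.inl ⟨(a, g), rfl⟩)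
    | right b =>
      obtain ⟨c, hc⟩ : ∃ c, c = e3 (b, g) := ⟨_, rfl⟩
      induction c using Fin.lastCases with
      | last =>
        refine Or.inr (Or.inr ?_)
        rw [hc]
        simp
      | cast c =>
        refine Or.inl ⟨c, ?_⟩
        rw [hc]
        simp

lemma comb3_unitSplit3 (n : ℕ) {m : ℕ} (ε : Fin (n + 1 + 1 + 1) × N ≃ Fin m) (x : Fin m → I) :
    comb3 e3 n (fun a => x ((unitSplit3 e3 n ε).lp a)) (fun r => x ((unitSplit3 e3 n ε).inn r))
      (x (unitSplit3 e3 n ε).pt) = fun q => x (ε q) := by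
  have key : ∀ c : Fin (k + 3), Fin.snoc (n := k + 2) (α := fun _ => I)
      (fun a => x ((unitSplit3 e3 n ε).lp a)) (x (unitSplit3 e3 n ε).pt) c =
      x (ε (Fin.natAdd n (e3.symm c).1, (e3.symm c).2)) := by
    intro c
    induction c using Fin.lastCases with
    | last => rw [Fin.snoc_last]; rfl
    | cast c => rw [Fin.snoc_castSucc]; rfl
  funext ⟨j, g⟩
  induction j using Fin.addCases (m := n) (n := 3) with
  | left a => rw [comb3_left]; rfl
  | right b => rw [comb3_right, key, Equiv.symm_apply_apply]

end Comb3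

/-- A loop which is the cell `D.cell n` up to a numbering of the coordinates is a collapse map. -/
lemma isCollapse_of_cell {N : Type} [Fintype N] {G : Type} [Group G] [MulAction G N] {X : GSpt G N}
    (D : UnitData X) (hs : ∀ n, Function.Surjective (D.cell n)) (n : ℕ) {m : ℕ}
    (ε : Fin (n + 1 + 1) × N ≃ Fin m) (c : Ω^ (Fin m) (X.space n) (X.base n))
    (hc : ∀ x, c x = D.cell n (fun q => x (ε q))) : IsCollapse c where
  surj := by
    intro z
    obtain ⟨y, rfl⟩ := hs n z
    refine ⟨fun j => y (ε.symm j), ?_⟩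
    rw [hc]
    simp
  inj := by
    intro a b ha hab
    rw [hc] at ha hab
    rw [hc] at hab
    have h1 : (fun q => a (ε q)) ∉ Cube.boundary (Fin (n + 1 + 1) × N) :=
      fun h => ha (D.cell_boundary n _ h)
    have h2 : cubeBump (fun q => a (ε q)) = cubeBump (fun q => b (ε q)) := by
      rw [← D.bump_cell, ← D.bump_cell, hab]
    have h3 := eq_of_cubeBump_eq h1 h2
    funext j
    have := congrFun h3 (ε.symm j)
    simpa using this
  bd := by
    intro a ha
    rw [hc] at ha
    have h1 : cubeBump (fun q => a (ε q)) = (0, -(1 / 4)) := by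
      rw [← D.bump_cell, ha, D.bump_base]
    obtain ⟨q, hq⟩ := boundary_of_cubeBump_eq h1
    exact ⟨ε q, hq⟩

/-! ## Un-currying: `π_{k+2}(Map_*(S^{n·ℝ[N]}, ΩX_n)) → π_m(X_n)` -/

section Unc3

variable {G : Type} [Group G] {N : Type} [MulAction G N] {X : GSpt G N} {d : ℕ → ℕ} {k n m : ℕ}

/-- The value at `u` of a point of `(tel_d ΩX)_n = ΩX_n`. -/
def telEval (w : (X.loopTel d).space n) (u : I) : X.space n :=
  (show Path (X.base n) (X.base n) from w) u

lemma continuous_telEval :
    Continuous fun p : (X.loopTel d).space n × I => telEval p.1 p.2 :=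
  (continuous_eval : Continuous fun p : Path (X.base n) (X.base n) × I => p.1 p.2)

lemma telEval_base (u : I) : telEval ((X.loopTel d).base n) u = X.base n := rfl

lemma telEval_zero (w : (X.loopTel d).space n) : telEval w 0 = X.base n :=
  Path.source (show Path (X.base n) (X.base n) from w)

lemma telEval_one (w : (X.loopTel d).space n) : telEval w 1 = X.base n :=
  Path.target (show Path (X.base n) (X.base n) from w)

/-- A `(k+2)`-fold loop in `Map_*(S^{n·ℝ[N]}, ΩX_n)` as an `m`-fold loop in `X_n`. -/
def unc3Loop (s : Split3 (Fin (k + 2)) (Fin n × N) m)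
    (γ : Ω^ (Fin (k + 2)) ((X.loopTel d).LoopFix ⊥ n) ((X.loopTel d).loopFixBase ⊥ n)) :
    Ω^ (Fin m) (X.space n) (X.base n) :=
  ⟨⟨fun x => telEval ((γ (fun a => x (s.lp a))).1 (fun b => x (s.inn b))) (x s.pt), by
      have h1 : Continuous fun x : Fin m → I => (γ (fun a => x (s.lp a))).1.1 :=
        continuous_subtype_val.comp (continuous_subtype_val.comp
          (γ.1.continuous.comp (continuous_pi fun a => continuous_apply _)))
      have h2 : Continuous fun x : Fin m → I =>
          (γ (fun a => x (s.lp a))).1.1 (fun b => x (s.inn b)) :=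
        continuous_eval.comp (h1.prodMk (continuous_pi fun b => continuous_apply _))
      exact continuous_telEval.comp (h2.prodMk (continuous_apply _))⟩, by
    rintro x ⟨j, hj⟩
    show telEval ((γ (fun a => x (s.lp a))).1 (fun b => x (s.inn b))) (x s.pt) = X.base n
    rcases s.cov j with ⟨a, rfl⟩ | ⟨b, rfl⟩ | rfl
    · have : γ (fun a => x (s.lp a)) = (X.loopTel d).loopFixBase ⊥ n := γ.2 _ ⟨a, hj⟩
      rw [this]
      rfl
    · have : (γ (fun a => x (s.lp a))).1 (fun b => x (s.inn b)) = (X.loopTel d).base n :=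
        (γ (fun a => x (s.lp a))).1.2 _ ⟨b, hj⟩
      rw [this]
      rfl
    · rcases hj with hj | hj
      · rw [hj, telEval_zero]
      · rw [hj, telEval_one]⟩

lemma unc3Loop_apply (s : Split3 (Fin (k + 2)) (Fin n × N) m)
    (γ : Ω^ (Fin (k + 2)) ((X.loopTel d).LoopFix ⊥ n) ((X.loopTel d).loopFixBase ⊥ n))
    (x : Fin m → I) :
    unc3Loop s γ x = telEval ((γ (fun a => x (s.lp a))).1 (fun b => x (s.inn b))) (x s.pt) := rfl

lemma unc3Loop_homotopic (s : Split3 (Fin (k + 2)) (Fin n × N) m)
    {γ γ' : Ω^ (Fin (k + 2)) ((X.loopTel d).LoopFix ⊥ n) ((X.loopTel d).loopFixBase ⊥ n)}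
    (h : GenLoop.Homotopic γ γ') : GenLoop.Homotopic (unc3Loop s γ) (unc3Loop s γ') := by
  obtain ⟨Hh⟩ := h
  refine ⟨⟨⟨⟨fun z => telEval ((Hh (z.1, fun a => z.2 (s.lp a))).1 (fun b => z.2 (s.inn b)))
    (z.2 s.pt), ?_⟩, ?_, ?_⟩, ?_⟩⟩
  · have h1 : Continuous fun z : I × (Fin m → I) => (Hh (z.1, fun a => z.2 (s.lp a))).1.1 :=
      continuous_subtype_val.comp (continuous_subtype_val.comp
        (Hh.continuous.comp (continuous_fst.prodMk
          (continuous_pi fun a => (continuous_apply _).comp continuous_snd))))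
    have h2 : Continuous fun z : I × (Fin m → I) =>
        (Hh (z.1, fun a => z.2 (s.lp a))).1.1 (fun b => z.2 (s.inn b)) :=
      continuous_eval.comp
        (h1.prodMk (continuous_pi fun b => (continuous_apply _).comp continuous_snd))
    exact continuous_telEval.comp (h2.prodMk ((continuous_apply s.pt).comp continuous_snd))
  · intro x
    show telEval ((Hh (0, fun a => x (s.lp a))).1 (fun b => x (s.inn b))) (x s.pt) = _
    rw [Hh.apply_zero]
    rfl
  · intro x
    show telEval ((Hh (1, fun a => x (s.lp a))).1 (fun b => x (s.inn b))) (x s.pt) = _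
    rw [Hh.apply_one]
    rfl
  · rintro t x ⟨j, hj⟩
    show telEval ((Hh (t, fun a => x (s.lp a))).1 (fun b => x (s.inn b))) (x s.pt) =
      unc3Loop s γ x
    have h2 : unc3Loop s γ x = X.base n := (unc3Loop s γ).2 x ⟨j, hj⟩
    rcases s.cov j with ⟨a, rfl⟩ | ⟨b, rfl⟩ | rfl
    · rw [Hh.eq_fst t (⟨a, hj⟩ : (fun a => x (s.lp a)) ∈ Cube.boundary (Fin (k + 2)))]
      rfl
    · have : (Hh (t, fun a => x (s.lp a))).1 (fun b => x (s.inn b)) = (X.loopTel d).base n :=
        (Hh (t, fun a => x (s.lp a))).1.2 _ ⟨b, hj⟩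
      rw [this, h2]
      rfl
    · rw [h2]
      rcases hj with hj | hj
      · rw [hj, telEval_zero]
      · rw [hj, telEval_one]

lemma unc3Loop_transAt (s : Split3 (Fin (k + 2)) (Fin n × N) m) (a : Fin (k + 2))
    (γ γ' : Ω^ (Fin (k + 2)) ((X.loopTel d).LoopFix ⊥ n) ((X.loopTel d).loopFixBase ⊥ n)) :
    unc3Loop s (GenLoop.transAt a γ γ') =
      GenLoop.transAt (s.lp a) (unc3Loop s γ) (unc3Loop s γ') := by
  ext x
  have e1 : ∀ r : I, (fun a' => Function.update x (s.lp a) r (s.lp a')) =
      Function.update (fun a' => x (s.lp a')) a r := by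
    intro r
    funext a'
    by_cases h : a' = a
    · subst h
      simp
    · rw [Function.update_of_ne h, Function.update_of_ne (fun h' => h (s.inj h'))]
  have e2 : ∀ r : I, (fun b => Function.update x (s.lp a) r (s.inn b)) = fun b => x (s.inn b) := by
    intro r
    funext b
    rw [Function.update_of_ne (s.disj a b)]
  have e3 : ∀ r : I, Function.update x (s.lp a) r s.pt = x s.pt := by
    intro r
    rw [Function.update_of_ne (s.disj' a)]
  rw [transAt_apply, unc3Loop_apply, transAt_apply]
  split_ifs with h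
  · rw [unc3Loop_apply, e1, e2, e3]
  · rw [unc3Loop_apply, e1, e2, e3]

/-- Un-currying as a homomorphism `π_{k+2}(Map_*(S^{n·ℝ[N]}, ΩX_n)) → π_m(X_n)`. -/
def unc3Pi [Nonempty (Fin m)] (s : Split3 (Fin (k + 2)) (Fin n × N) m) :
    HomotopyGroup (Fin (k + 2)) ((X.loopTel d).LoopFix ⊥ n) ((X.loopTel d).loopFixBase ⊥ n) →*
      HomotopyGroup (Fin m) (X.space n) (X.base n) :=
  MonoidHom.mk' (Quotient.map (unc3Loop s) (fun _ _ h => unc3Loop_homotopic s h)) (by
    rintro ⟨γ⟩ ⟨γ'⟩
    change Quotient.map (unc3Loop s) _ (piMk γ * piMk γ') =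
      piMk (unc3Loop s γ) * piMk (unc3Loop s γ')
    rw [piMk_mul 0, piMk_mul (s.lp 0), ← unc3Loop_transAt]
    rfl)

lemma unc3Pi_piMk [Nonempty (Fin m)] (s : Split3 (Fin (k + 2)) (Fin n × N) m)
    (γ : Ω^ (Fin (k + 2)) ((X.loopTel d).LoopFix ⊥ n) ((X.loopTel d).loopFixBase ⊥ n)) :
    unc3Pi s (piMk γ) = hcls (unc3Loop s γ) := rfl

end Unc3

/-! ## The unit of the telescope -/

section Unit3

open Limits

variable {G : Type} [Group G] {N : Type} [MulAction G N] [Fintype N]
variable {k : ℕ} (e3 : Fin 3 × N ≃ Fin (k + 3)) {X : GSpt G N} (D : UnitData X) (d : ℕ → ℕ)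

/-- The loop `u ↦ cell [s, t, u]` in `X_{n+1}`. -/
def unit3Path (n : ℕ) (s : Fin (k + 2) → I) (t : Fin n × N → I) :
    Path (X.base (n + 1)) (X.base (n + 1)) where
  toFun u := D.cell (n + 1) (comb3 e3 n s t u)
  continuous_toFun := (D.cell (n + 1)).continuous.comp
    ((continuous_comb3 e3 n).comp
      ((continuous_const (y := (s, t))).prodMk continuous_id))
  source' := D.cell_boundary (n + 1) _ (comb3_boundary_path e3 n s t (Or.inl rfl))
  target' := D.cell_boundary (n + 1) _ (comb3_boundary_path e3 n s t (Or.inr rfl))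

/-- The telescope of the loop spectrum of `sh X`. -/
abbrev tel3 : GSpt G N := (GSpt.sh.obj X).loopTel d

/-- The map `S^{n·ℝ[N]} → ΩX_{n+1}`, `t ↦ (u ↦ cell [s, t, u])`, for `s ∈ I^{k+2}`. -/
def unit3Inner (n : ℕ) (s : Fin (k + 2) → I) : (tel3 (X := X) d).LoopFix ⊥ n :=
  ⟨⟨⟨fun t => unit3Path e3 D n s t, by
      refine Path.continuous_uncurry_iff.mp ?_
      exact (D.cell (n + 1)).continuous.comp ((continuous_comb3 e3 n).comp
        ((continuous_const.prodMk continuous_fst).prodMk continuous_snd))⟩,
    fun t ht => by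
      refine Path.ext (x := X.base (n + 1)) ?_
      funext u
      exact D.cell_boundary (n + 1) _ (comb3_boundary_inner e3 n s ht u)⟩, by
    intro h hh t
    rw [Subgroup.mem_bot] at hh
    subst hh
    simp⟩

/-- The representative at level `n` of the unit. -/
def unit3Loop (n : ℕ) :
    Ω^ (Fin (k + 2)) ((tel3 (X := X) d).LoopFix ⊥ n) ((tel3 (X := X) d).loopFixBase ⊥ n) :=
  ⟨⟨unit3Inner e3 D d n, by
    refine Continuous.subtype_mk (Continuous.subtype_mk ?_ _) _
    refine ContinuousMap.continuous_of_continuous_uncurry _ ?_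
    refine Path.continuous_uncurry_iff.mp ?_
    exact (D.cell (n + 1)).continuous.comp (continuous_comb3 e3 n)⟩, by
    intro s hs
    apply Subtype.ext
    ext t
    refine Path.ext (x := X.base (n + 1)) ?_
    funext u
    exact D.cell_boundary (n + 1) _ (comb3_boundary_loop e3 n hs t u)⟩

/-- The telescope structure. -/
abbrev tel3Str : TelStr (tel3 (X := X) d) d := loopTelStr (GSpt.sh.obj X) d

lemma mapLoop_stab0_unit3Loop (n : ℕ) :
    mapLoop ((tel3Str (X := X) d).stab0 ⊥ n) ((tel3Str (X := X) d).stab0_base ⊥ n)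
      (unit3Loop e3 D d n) = unit3Loop e3 D d (n + 1) := by
  ext s
  apply Subtype.ext
  ext t
  refine Path.ext (x := X.base (n + 1 + 1)) ?_
  funext u
  show X.str (n + 1) (D.cell (n + 1) (comb3 e3 n s (fun q => t (q.1.succ, q.2)) u))
    (fun i => t (0, i)) = D.cell (n + 1 + 1) (comb3 e3 (n + 1) s t u)
  rw [comb3_succ, D.str_cell]

lemma unc3Loop_unit3Loop (n : ℕ) {m : ℕ} (ε : Fin (n + 1 + 1 + 1) × N ≃ Fin m) (x : Fin m → I) :
    unc3Loop (unitSplit3 e3 n ε) (unit3Loop e3 D d n) x = D.cell (n + 1) (fun q => x (ε q)) := by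
  show D.cell (n + 1) (comb3 e3 n (fun a => x ((unitSplit3 e3 n ε).lp a))
    (fun r => x ((unitSplit3 e3 n ε).inn r)) (x (unitSplit3 e3 n ε).pt)) = _
  rw [comb3_unitSplit3]

/-- The class of `unit3Loop e3 D d j` in the `j`-th group of the sequence. -/
def unit3At (j : ℕ) : (piSeqAdd (tel3 (X := X) d) ⊥ k).obj j :=
  (Additive.ofMul (piMk (unit3Loop e3 D d j)) :
    Additive (HomotopyGroup (Fin (k + 2)) ((tel3 (X := X) d).LoopFix ⊥ j)
      ((tel3 (X := X) d).loopFixBase ⊥ j)))

lemma psi_unit3At (j : ℕ) :
    (tel3Str (X := X) d).psi ⊥ j k (unit3At e3 D d j) = unit3At e3 D d (j + 1) := by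
  show Additive.ofMul (piMk (mapLoop ((tel3Str (X := X) d).stab0 ⊥ j)
    ((tel3Str (X := X) d).stab0_base ⊥ j) (unit3Loop e3 D d j))) = _
  rw [mapLoop_stab0_unit3Loop]
  rfl

lemma piSeqAdd_map_unit3At (j : ℕ) (f : 0 ⟶ j) :
    (piSeqAdd (tel3 (X := X) d) ⊥ k).map f (unit3At e3 D d 0) =
      (∏ i ∈ Finset.range j, d i) • unit3At e3 D d j := by
  induction j with
  | zero =>
    rw [Subsingleton.elim f (𝟙 0), (piSeqAdd (tel3 (X := X) d) ⊥ k).map_id]
    simp
  | succ j ih =>
    rw [Subsingleton.elim f (homOfLE (Nat.zero_le j) ≫ homOfLE (Nat.le_succ j)),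
      (piSeqAdd (tel3 (X := X) d) ⊥ k).map_comp]
    show (piSeqAdd (tel3 (X := X) d) ⊥ k).map (homOfLE (Nat.le_succ j))
      ((piSeqAdd (tel3 (X := X) d) ⊥ k).map (homOfLE (Nat.zero_le j)) (unit3At e3 D d 0)) = _
    rw [ih, map_nsmul, (tel3Str (X := X) d).piSeqAdd_map_succ, psi_unit3At, ← mul_smul,
      Finset.prod_range_succ]

variable (hs : ∀ n, Function.Surjective (D.cell n))

include hs in
/-- At every level, the unit is not divisible by a prime, -/
lemma unit3At_ne_nsmul (j ℓ : ℕ) (hℓ : ℓ.Prime) (z : (piSeqAdd (tel3 (X := X) d) ⊥ k).obj j) :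
    ℓ • z ≠ unit3At e3 D d j := by
  intro h
  let ε := Fintype.equivFin (Fin (j + 1 + 1 + 1) × N)
  have : Nonempty (Fin (Fintype.card (Fin (j + 1 + 1 + 1) × N))) := ⟨ε (0, (e3.symm 0).2)⟩
  have : Fact ℓ.Prime := ⟨hℓ⟩
  have : T2Space (X.space (j + 1)) := D.t2Space hs (j + 1)
  let z' : HomotopyGroup (Fin (k + 2)) ((tel3 (X := X) d).LoopFix ⊥ j)
      ((tel3 (X := X) d).loopFixBase ⊥ j) := z
  have h1 : z' ^ ℓ = piMk (unit3Loop e3 D d j) := h
  have h2 := congrArg (unc3Pi (unitSplit3 e3 j ε)) h1
  rw [map_pow, unc3Pi_piMk] at h2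
  exact (isCollapse_of_cell D hs (j + 1) ε _ (unc3Loop_unit3Loop e3 D d j ε)).ne_pow ℓ _ h2.symm

include hs in
/-- and it has infinite order. -/
lemma nsmul_unit3At_ne_zero (j a : ℕ) (ha : a ≠ 0) : a • unit3At e3 D d j ≠ 0 := by
  intro h
  let ε := Fintype.equivFin (Fin (j + 1 + 1 + 1) × N)
  have : Nonempty (Fin (Fintype.card (Fin (j + 1 + 1 + 1) × N))) := ⟨ε (0, (e3.symm 0).2)⟩
  have : T2Space (X.space (j + 1)) := D.t2Space hs (j + 1)
  have h1 : piMk (unit3Loop e3 D d j) ^ a = 1 := h
  have h2 := congrArg (unc3Pi (unitSplit3 e3 j ε)) h1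
  rw [map_pow, unc3Pi_piMk, map_one] at h2
  exact (isCollapse_of_cell D hs (j + 1) ε _ (unc3Loop_unit3Loop e3 D d j ε)).pow_ne_one a ha h2

/-- The unit of `π_{k+2}^{1}(tel_d Ω sh X)`, `k + 3 = 3 |N|`. -/
def unit3 : (GSpt.stablePi ⊥ k).obj (tel3 (X := X) d) :=
  colimit.ι (piSeqAdd (tel3 (X := X) d) ⊥ k) 0 (unit3At e3 D d 0)

include hs in
/-- **The unit of the telescope has infinite order**, if no `d n` is zero. -/
theorem nsmul_unit3_ne_zero (hd : ∀ i, d i ≠ 0) (a : ℕ) (ha : a ≠ 0) :
    a • unit3 e3 D d ≠ 0 := by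
  intro h
  have h0 : colimit.ι (piSeqAdd (tel3 (X := X) d) ⊥ k) 0 (a • unit3At e3 D d 0) =
      colimit.ι (piSeqAdd (tel3 (X := X) d) ⊥ k) 0 0 := by
    rw [map_nsmul, map_zero]
    exact h
  obtain ⟨j, f, g, hfg⟩ :=
    (Concrete.colimit_rep_eq_iff_exists (piSeqAdd (tel3 (X := X) d) ⊥ k) _ _).1 h0
  rw [map_nsmul, piSeqAdd_map_unit3At, ← mul_smul] at hfg
  exact nsmul_unit3At_ne_zero e3 D d hs j _
    (mul_ne_zero ha (Finset.prod_ne_zero_iff.2 fun i _ => hd i)) (hfg.trans (map_zero _))

include hs in
/-- **The unit of the telescope is not divisible by a prime `p` which divides no `d n`.** -/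
theorem unit3_ne_nsmul (p : ℕ) (hp : p.Prime) (hd : ∀ i, ¬ p ∣ d i)
    (y : (GSpt.stablePi ⊥ k).obj (tel3 (X := X) d)) : p • y ≠ unit3 e3 D d := by
  intro h
  obtain ⟨j, yj, hy⟩ := Concrete.colimit_exists_rep (piSeqAdd (tel3 (X := X) d) ⊥ k) y
  have h0 : colimit.ι (piSeqAdd (tel3 (X := X) d) ⊥ k) j (p • yj) =
      colimit.ι (piSeqAdd (tel3 (X := X) d) ⊥ k) 0 (unit3At e3 D d 0) := by
    rw [map_nsmul, hy]
    exact h
  obtain ⟨j', f, g, hfg⟩ :=
    (Concrete.colimit_rep_eq_iff_exists (piSeqAdd (tel3 (X := X) d) ⊥ k) _ _).1 h0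
  rw [piSeqAdd_map_unit3At, map_nsmul] at hfg
  set P := ∏ i ∈ Finset.range j', d i with hP
  have hcop : Nat.Coprime P p := by
    refine ((Nat.Prime.coprime_iff_not_dvd hp).2 fun h => ?_).symm
    obtain ⟨i, _, hi⟩ := (Prime.dvd_finsetProd_iff hp.prime _).1 h
    exact hd i hi
  obtain ⟨a, b, hab⟩ := Nat.isCoprime_iff_coprime.2 hcop
  set z := (piSeqAdd (tel3 (X := X) d) ⊥ k).map f yj with hz
  refine unit3At_ne_nsmul e3 D d hs j' p hp (a • z + b • unit3At e3 D d j') ?_
  have h1 : unit3At e3 D d j' = (a * (P : ℤ) + b * (p : ℤ)) • unit3At e3 D d j' := by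
    rw [hab, one_smul]
  rw [add_smul, mul_smul, mul_smul, natCast_zsmul, natCast_zsmul, ← hfg] at h1
  rw [smul_add, smul_comm p a, smul_comm p b]
  exact h1.symm

end Unit3

/-! ## Geometric fixed points of the telescope (helper267)

`Φ^H(tel_d ΩX)` and `tel_d Ω(Φ^H X)` are isomorphic spectra: a loop in `X_n` which is fixed by `H` is a
loop in `X_n^H`. -/

section Retract

variable {G : Type} [Group G] {N : Type} [MulAction G N]

/-- A map of spectra with a retraction is injective on all stable homotopy groups. -/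
lemma stablePi_map_injective_of_retract {A B : GSpt G N} (f : A ⟶ B) (g : B ⟶ A)
    (hfg : f ≫ g = 𝟙 A) (H : Subgroup G) (k m : ℕ) :
    Function.Injective ((GSpt.stablePi H k).map ((GSpt.shIter m).map f)) := by
  have h1 : (GSpt.stablePi H k).map ((GSpt.shIter m).map f) ≫
      (GSpt.stablePi H k).map ((GSpt.shIter m).map g) = 𝟙 _ := by
    rw [← CategoryTheory.Functor.map_comp, ← CategoryTheory.Functor.map_comp, hfg,
      CategoryTheory.Functor.map_id, CategoryTheory.Functor.map_id]
  have e : Function.LeftInverse ((GSpt.stablePi H k).map ((GSpt.shIter m).map g))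
      ((GSpt.stablePi H k).map ((GSpt.shIter m).map f)) := fun z => by
    have := ConcreteCategory.congr_hom h1 z
    simpa using this
  exact e.injective

/-- A spectrum which has a retract with a class of infinite order is not rationally acyclic. -/
theorem not_rationallyAcyclic_of_retract {c : ℕ} {A B : Spt c} (f : A ⟶ B) (g : B ⟶ A)
    (hfg : f ≫ g = 𝟙 A) (k m : ℕ)
    (x : (GSpt.stablePi (⊥ : Subgroup PUnit.{1}) k).obj ((GSpt.shIter m).obj A))
    (hx : ∀ a : ℕ, 0 < a → a • x ≠ 0) : ¬ B.RationallyAcyclic := by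
  intro h
  have h' := h k m
  rw [Subsingleton.elim (⊤ : Subgroup PUnit.{1}) ⊥] at h'
  obtain ⟨a, ha, hax⟩ := h' ((GSpt.stablePi ⊥ k).map ((GSpt.shIter m).map f) x)
  rw [← map_nsmul] at hax
  exact hx a ha (stablePi_map_injective_of_retract f g hfg ⊥ k m (hax.trans (map_zero _).symm))

end Retract

section GeomTel

variable {G : Type} [Group G] {N : Type} [MulAction G N] [Finite N] (X : GSpt G N)
  (H : Subgroup G) (d : ℕ → ℕ)

/-- A loop in `X_n^H` as a loop in `X_n`. -/
def valPath (n : ℕ) (δ : Path ((X.geomFix H).base n) ((X.geomFix H).base n)) :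
    Path (X.base n) (X.base n) where
  toFun u := (δ u : MulAction.fixedPoints H (X.space n)).1
  continuous_toFun := continuous_subtype_val.comp δ.continuous
  source' := by rw [δ.source]; rfl
  target' := by rw [δ.target]; rfl

lemma valPath_apply (n : ℕ) (δ : Path ((X.geomFix H).base n) ((X.geomFix H).base n)) (u : I) :
    valPath X H n δ u = (δ u : MulAction.fixedPoints H (X.space n)).1 := rfl

lemma valPath_trans (n : ℕ) (δ δ' : Path ((X.geomFix H).base n) ((X.geomFix H).base n)) :
    valPath X H n (δ.trans δ') = (valPath X H n δ).trans (valPath X H n δ') := by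
  ext u
  rw [valPath_apply, Path.trans_apply, Path.trans_apply]
  split_ifs <;> rfl

lemma valPath_pathPow (n c : ℕ) (δ : Path ((X.geomFix H).base n) ((X.geomFix H).base n)) :
    valPath X H n (pathPow c δ) = pathPow c (valPath X H n δ) := by
  induction c with
  | zero => rfl
  | succ c ih =>
    show valPath X H n (δ.trans (pathPow c δ)) = (valPath X H n δ).trans (pathPow c (valPath X H n δ))
    rw [valPath_trans, ih]

/-- The map `Ω(X_n^H) → (ΩX_n)^H`. -/
def geomTelFun (n : ℕ) (δ : Path ((X.geomFix H).base n) ((X.geomFix H).base n)) :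
    MulAction.fixedPoints H ((X.loopTel d).space n) :=
  ⟨valPath X H n δ, by
    rintro ⟨h, hh⟩
    refine Path.ext (x := X.base n) ?_
    funext u
    exact (δ u : MulAction.fixedPoints H (X.space n)).2 ⟨h, hh⟩⟩

/-- A point of the `n`-th space of the telescope is a loop in `X_n`. -/
def telPath (n : ℕ) (x : (X.loopTel d).space n) : Path (X.base n) (X.base n) := x

lemma continuous_telPath (n : ℕ) : Continuous (telPath X d n) := continuous_id

/-- The map `(ΩX_n)^H → Ω(X_n^H)`. -/
def geomTelInv (n : ℕ) (x : MulAction.fixedPoints H ((X.loopTel d).space n)) :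
    Path ((X.geomFix H).base n) ((X.geomFix H).base n) where
  toFun u := (⟨telPath X d n x.1 u, fun h =>
    congrArg (fun γ => telPath X d n γ u) (x.2 h)⟩ : MulAction.fixedPoints H (X.space n))
  continuous_toFun := Continuous.subtype_mk (telPath X d n x.1).continuous _
  source' := Subtype.ext (Path.source (telPath X d n x.1))
  target' := Subtype.ext (Path.target (telPath X d n x.1))

lemma geomTelInv_fun (n : ℕ) (δ : Path ((X.geomFix H).base n) ((X.geomFix H).base n)) :
    geomTelInv X H d n (geomTelFun X H d n δ) = δ := by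
  ext u
  rfl

lemma geomTelFun_inv (n : ℕ) (x : MulAction.fixedPoints H ((X.loopTel d).space n)) :
    geomTelFun X H d n (geomTelInv X H d n x) = x := by
  apply Subtype.ext
  refine Path.ext (x := X.base n) ?_
  rfl

/-- The map of spectra `tel_d Ω(Φ^H X) → Φ^H(tel_d ΩX)`. -/
def geomTelF : (X.geomFix H).loopTel d ⟶ (X.loopTel d).geomFix H where
  map n := ⟨geomTelFun X H d n, by
    refine Continuous.subtype_mk ?_ _
    refine Path.continuous_uncurry_iff.mp ?_
    show Continuous fun p : Path ((X.geomFix H).base n) ((X.geomFix H).base n) × I =>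
      (p.1 p.2 : MulAction.fixedPoints H (X.space n)).1
    exact continuous_subtype_val.comp continuous_eval⟩
  map_base n := by
    apply Subtype.ext
    refine Path.ext (x := X.base n) ?_
    rfl
  map_smul n g x := by
    apply Subtype.ext
    refine Path.ext (x := X.base n) ?_
    rfl
  comm n x t := by
    apply Subtype.ext
    refine Path.ext (x := X.base (n + 1)) ?_
    funext u
    exact congrArg (fun γ : Path (X.base n) (X.base n) => X.str n (γ u) (orbitCube H N t))
      (valPath_pathPow X H n (d n) x)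

/-- The inverse map of spectra `Φ^H(tel_d ΩX) → tel_d Ω(Φ^H X)`. -/
def geomTelG : (X.loopTel d).geomFix H ⟶ (X.geomFix H).loopTel d where
  map n := ⟨geomTelInv X H d n, by
    refine Path.continuous_uncurry_iff.mp ?_
    refine Continuous.subtype_mk ?_ _
    show Continuous fun p : MulAction.fixedPoints H ((X.loopTel d).space n) × I =>
      telPath X d n p.1.1 p.2
    have h1 : Continuous fun p : MulAction.fixedPoints H ((X.loopTel d).space n) × I =>
        telPath X d n p.1.1 :=
      (continuous_telPath X d n).comp (continuous_subtype_val.comp continuous_fst)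
    exact continuous_eval.comp (h1.prodMk continuous_snd)⟩
  map_base n := by
    refine Path.ext (x := (X.geomFix H).base n) ?_
    rfl
  map_smul n g x := by
    refine Path.ext (x := (X.geomFix H).base n) ?_
    rfl
  comm n x t := by
    have h1 := (geomTelF X H d).comm n (geomTelInv X H d n x) t
    have h2 : (geomTelF X H d).map n (geomTelInv X H d n x) = x := geomTelFun_inv X H d n x
    rw [h2] at h1
    rw [← h1]
    exact geomTelInv_fun X H d (n + 1) _

lemma geomTelF_G : geomTelF X H d ≫ geomTelG X H d = 𝟙 _ := by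
  apply GSpt.Hom.ext
  funext n
  ext δ : 1
  exact geomTelInv_fun X H d n δ

lemma geomTelG_F : geomTelG X H d ≫ geomTelF X H d = 𝟙 _ := by
  apply GSpt.Hom.ext
  funext n
  ext x : 1
  exact geomTelFun_inv X H d n x

/-- If `tel_d Ω(Φ^H X)` has a stable homotopy class of infinite order, then the geometric fixed points
`Φ^H(tel_d ΩX)` are not rationally acyclic. -/
theorem not_rationallyAcyclic_geomFix_loopTel (k m : ℕ)
    (x : (GSpt.stablePi (⊥ : Subgroup PUnit.{1}) k).obj
      ((GSpt.shIter m).obj ((X.geomFix H).loopTel d)))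
    (hx : ∀ a : ℕ, 0 < a → a • x ≠ 0) : ¬ ((X.loopTel d).geomFix H).RationallyAcyclic :=
  not_rationallyAcyclic_of_retract (geomTelF X H d) (geomTelG X H d) (geomTelF_G X H d) k m x hx

end GeomTel

/-- The same for `GeomAcyclic K 0`. -/
theorem not_geomAcyclic_zero_loopTel {G : Type} [Group G] [Finite G] (X : GSpt G G)
    (H : Subgroup G) (d : ℕ → ℕ) (K : ℕ → SymRing) (k m : ℕ)
    (x : (GSpt.stablePi (⊥ : Subgroup PUnit.{1}) k).obj
      ((GSpt.shIter m).obj ((X.geomFix H).loopTel d)))
    (hx : ∀ a : ℕ, 0 < a → a • x ≠ 0) : ¬ GeomAcyclic K 0 H (X.loopTel d) := by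
  simpa [GeomAcyclic] using not_rationallyAcyclic_geomFix_loopTel X H d k m x hx

/-! ## The theorems -/

section Main4

variable {G : Type} [Group G] {N : Type} [MulAction G N]

lemma GSpt.shIter_three_loopTel (X₀ : GSpt G N) (d : ℕ → ℕ) :
    (GSpt.shIter 3).obj (X₀.loopTel d) =
      (GSpt.sh.obj ((GSpt.shIter 2).obj X₀)).loopTel (fun n => d (n + 3)) := rfl

/-- **Criterion**: if `sh² X₀` "contains the sphere spectrum" in the sense of `UnitData`, with
surjective maps `cell n`, then the telescope of `ΩX₀` with the multiplicities `telDeg p` is `p`-local, it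
is not a zero object of the stable homotopy category, it is not `p'`-local for any `p' ≠ p`, and its
group `π_{k+2}^{1}(sh³ -)`, `k + 3 = 3|N|`, is not a torsion group. -/
theorem UnitData.loopTel_spec [Fintype N] {X₀ : GSpt G N} (D : UnitData ((GSpt.shIter 2).obj X₀))
    (hs : ∀ n, Function.Surjective (D.cell n)) {k : ℕ} (e3 : Fin 3 × N ≃ Fin (k + 3))
    {p : ℕ} (hp : p.Prime) :
    (X₀.loopTel (telDeg p)).IsPLocal p ∧
      ¬ Limits.IsZero (GSH.Q.obj (X₀.loopTel (telDeg p))) ∧
      (∀ p' : ℕ, p' ≠ p → ¬ (X₀.loopTel (telDeg p)).IsPLocal p') ∧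
      ∃ x : (GSpt.stablePi ⊥ k).obj ((GSpt.shIter 3).obj (X₀.loopTel (telDeg p))),
        ∀ a : ℕ, 0 < a → a • x ≠ 0 := by
  have key : ∃ x : (GSpt.stablePi ⊥ k).obj ((GSpt.shIter 3).obj (X₀.loopTel (telDeg p))),
      (∀ a : ℕ, 0 < a → a • x ≠ 0) ∧ ∀ y, p • y ≠ x := by
    rw [GSpt.shIter_three_loopTel]
    exact ⟨unit3 e3 D _,
      fun a ha => nsmul_unit3_ne_zero e3 D _ hs (fun i => telDeg_ne_zero p _) a ha.ne',
      fun y => unit3_ne_nsmul e3 D _ hs p hp (fun i => not_dvd_telDeg hp _) y⟩
  obtain ⟨x, hx1, hx2⟩ := key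
  refine ⟨(loopTelStr X₀ (telDeg p)).isPLocal (exists_dvd_telDeg hp), ?_, ?_, x, hx1⟩
  · refine not_isZero_of_stablePi (H := ⊥) (k := k) (m := 3) fun hsub => ?_
    exact hx1 1 one_pos (hsub.elim _ _)
  · intro p' hp' h
    obtain ⟨y, hy⟩ := (h ⊥ k 3 p hp (Ne.symm hp')).2 x
    exact hx2 y hy

/-- The genuine `G`-spectrum `Σ^{-1} 𝕊_{(p)}`: the telescope of the loop spectrum `Ω𝕊` of the genuine sphere
spectrum, `Ω𝕊 --d 0--> Ω𝕊 --d 1--> ⋯`, in which every prime `q ≠ p` divides infinitely many `d n` and
`p` divides none. -/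
def GSpt.localSphere (G : Type) [Group G] (p : ℕ) : GSpt G G := (GSpt.sphere G).loopTel (telDeg p)

variable (G) [Finite G]

lemma card_three_mul : Nat.card (Fin 3 × G) = 3 * Nat.card G - 3 + 3 := by
  have hc : 0 < Nat.card G := Nat.card_pos
  rw [Nat.card_prod, Nat.card_fin]
  omega

/-- **`IsPLocal p` has non-zero examples among the genuine `G`-spectra, for every finite group `G`**: the
spectrum `Σ^{-1} 𝕊_{(p)}` is `p`-local (all primes `q ≠ p` act invertibly on `π_{k+2}^H(sh^m -)`, for all subgroups
`H` and all `k`, `m`), it is not a zero object of `GSH G G`, it is not `p'`-local for any `p' ≠ p`, and its group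
`π_{3|G|-1}^{1}(sh³ -) = π_{-1}` is not a torsion group. -/
theorem GSpt.localSphere_spec {p : ℕ} (hp : p.Prime) :
    (GSpt.localSphere G p).IsPLocal p ∧
      ¬ Limits.IsZero (GSH.Q.obj (GSpt.localSphere G p)) ∧
      (∀ p' : ℕ, p' ≠ p → ¬ (GSpt.localSphere G p).IsPLocal p') ∧
      ∃ x : (GSpt.stablePi (⊥ : Subgroup G) (3 * Nat.card G - 3)).obj
          ((GSpt.shIter 3).obj (GSpt.localSphere G p)), ∀ a : ℕ, 0 < a → a • x ≠ 0 := by
  have := Fintype.ofFinite G
  exact (sphereUnitData G).loopTel_spec (sphereUnitData_surjective G)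
    (Finite.equivFinOfCardEq (card_three_mul G)) hp

variable {G} (H : Subgroup G)

lemma card_three_mul_orbit :
    Nat.card (Fin 3 × Fin (orbitCount H G)) = 3 * orbitCount H G - 3 + 3 := by
  have hc : 0 < orbitCount H G := by
    have : Nonempty (MulAction.orbitRel.Quotient H G) := ⟨Quotient.mk _ 1⟩
    have : Finite (MulAction.orbitRel.Quotient H G) := Quotient.finite _
    exact Nat.card_pos
  rw [Nat.card_prod, Nat.card_fin, Nat.card_fin]
  omega

/-- **The conclusion `K(0)_*(Φ^H X) = 0` of the implications in `Statement` fails for a `p`-local `X`**: the geometric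
fixed points `Φ^H(Σ^{-1} 𝕊_{(p)})` are `p`-local and not rationally acyclic, for every subgroup `H` of `G`; so
`GeomAcyclic K 0 H` fails for the `p`-local genuine `G`-spectrum `GSpt.localSphere G p`, whatever the family `K` is. -/
theorem GSpt.geomFix_localSphere_spec {p : ℕ} (hp : p.Prime) (K : ℕ → SymRing) :
    ((GSpt.localSphere G p).geomFix H).IsPLocal p ∧
      ¬ ((GSpt.localSphere G p).geomFix H).RationallyAcyclic ∧
      ¬ GeomAcyclic K 0 H (GSpt.localSphere G p) := by
  have := Fintype.ofFinite G
  obtain ⟨h1, -, -, x, hx⟩ := (geomUnitData G H).loopTel_spec (geomUnitData_surjective G H)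
    (Finite.equivFinOfCardEq (card_three_mul_orbit H)) hp
  refine ⟨h1.of_iso (GSH.Q.mapIso ⟨geomTelF _ H _, geomTelG _ H _, geomTelF_G _ H _,
    geomTelG_F _ H _⟩), not_rationallyAcyclic_geomFix_loopTel _ H _ _ 3 x hx,
    not_geomAcyclic_zero_loopTel _ H _ K _ 3 x hx⟩

end Main4

end

end Claimed.Open.R314
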