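import Claimed.Open.R314.SanityOrbit
import Claimed.Open.R314.SanityTelescopeG

/-!
# Result 314, sanity: `p`-local orbit spectra

`SanityOrbit.lean` shows that the premise `GeomAcyclic K m A X` and the negation of the conclusion
`GeomAcyclic K 0 B X` of `AcyclicityImplication p K A m B 0` hold together for the orbit spectrum
`X = Σ^∞ (G/B)₊`, if `A` is not subconjugate to `B`; but that `X` is not `p`-local, so it is not one of the spectra over
which `Statement` quantifies.  This file repeats the computation for a **`p`-local** spectrum: the telescope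

  `GSpt.localOrbit G B p = tel (Ω Σ^∞ (G/B)₊ --d 0--> Ω Σ^∞ (G/B)₊ --d 1--> ⋯) = Σ^{-1} Σ^∞ (G/B)₊ ∧ 𝕊_{(p)}`

of `SanityTelescopeG.lean` (`GSpt.loopTel`, with the multiplicities `d = telDeg p`: every prime `q ≠ p` divides infinitely many
`d n`, and `p` divides none).

* `loopTelMap`, `loopTelMap_comp_eq_id`: the telescope `X ↦ X.loopTel d` is a functor, so it preserves retracts;
* `isTrivial_geomFix_loopTel`: if `Φ^H X` consists of points, so does `Φ^H (X.loopTel d)`;
* `stablePi_map_unit3`: naturality of the unit of the telescope (`unit3`, `SanityTelescopeG.lean`);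
* `GSpt.isPLocal_localOrbit`: `GSpt.localOrbit G B p` is `p`-local;
* `GSpt.not_isZero_localOrbit`: it is not a zero object of `GSH G G` (the map to `Σ^{-1} 𝕊_{(p)}` induced by `G/B → pt` sends the
  class of the point `B` to the unit, which has infinite order);
* `GSpt.geomAcyclic_localOrbit`: if `A` is not subconjugate to `B`, then `GeomAcyclic K i A` holds for it, for all `K`, `i`;
* `GSpt.not_geomAcyclic_zero_localOrbit`: if `A` is subconjugate to `B`, then `GeomAcyclic K 0 A` fails for it
  (`tel Ω Φ^A 𝕊` is a retract of its geometric fixed points, and has a class of infinite order);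
* `GSpt.geomAcyclic_zero_localOrbit_iff`: `K(0)_*(Φ^A -) = 0` **if and only if** `A` is not subconjugate to `B`;
* `GSpt.localOrbit_spec`: the summary: a non-zero `p`-local genuine `G`-spectrum for which the premise and the negation of
  the conclusion of `AcyclicityImplication p K A m B 0` hold together.

What is still missing for a test object of `Statement` is compactness (`IsCompactPLocal` asks for a compact object of
the `p`-local category): it is neither proved nor refuted for `GSpt.localOrbit G B p`.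
-/

open CategoryTheory Topology unitInterval
open scoped Topology.Homotopy

namespace Claimed.Open.R314

noncomputable section

set_option linter.unusedSectionVars false

/-! ## The telescope is a functor -/

section LoopTelMap

variable {G : Type} [Group G] {N : Type} [MulAction G N] {X Y : GSpt G N}

/-- The loop `f ∘ γ`. -/
def pathMapT (f : X ⟶ Y) (n : ℕ) (γ : Path (X.base n) (X.base n)) :
    Path (Y.base n) (Y.base n) where
  toFun u := f.map n (γ u)
  continuous_toFun := (f.map n).continuous.comp γ.continuous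
  source' := by rw [γ.source, f.map_base]
  target' := by rw [γ.target, f.map_base]

lemma pathMapT_apply (f : X ⟶ Y) (n : ℕ) (γ : Path (X.base n) (X.base n)) (u : I) :
    pathMapT f n γ u = f.map n (γ u) := rfl

lemma pathMapT_trans (f : X ⟶ Y) (n : ℕ) (γ γ' : Path (X.base n) (X.base n)) :
    pathMapT f n (γ.trans γ') = (pathMapT f n γ).trans (pathMapT f n γ') := by
  ext u
  rw [pathMapT_apply, Path.trans_apply, Path.trans_apply]
  split_ifs <;> rfl

lemma pathMapT_pathPow (f : X ⟶ Y) (n c : ℕ) (γ : Path (X.base n) (X.base n)) :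
    pathMapT f n (pathPow c γ) = pathPow c (pathMapT f n γ) := by
  induction c with
  | zero =>
    ext u
    exact f.map_base n
  | succ c ih =>
    show pathMapT f n (γ.trans (pathPow c γ)) = (pathMapT f n γ).trans (pathPow c (pathMapT f n γ))
    rw [pathMapT_trans, ih]

/-- The map of telescopes induced by a map of spectra. -/
def loopTelMap (f : X ⟶ Y) (d : ℕ → ℕ) : X.loopTel d ⟶ Y.loopTel d where
  map n := ⟨pathMapT f n, by
    refine Path.continuous_uncurry_iff.mp ?_
    show Continuous fun p : Path (X.base n) (X.base n) × I => f.map n (p.1 p.2)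
    exact (f.map n).continuous.comp continuous_eval⟩
  map_base n := by
    refine Path.ext (x := Y.base n) ?_
    funext u
    exact f.map_base n
  map_smul n g γ := by
    refine Path.ext (x := Y.base n) ?_
    funext u
    exact f.map_smul n g _
  comm n γ t := by
    refine Path.ext (x := Y.base (n + 1)) ?_
    funext u
    have h1 := pathMapT_pathPow f n (d n) γ
    show f.map (n + 1) (X.str n (pathPow (d n) γ u) t) =
      Y.str n (pathPow (d n) (pathMapT f n γ) u) t
    rw [f.comm]
    exact congrArg (fun δ : Path (Y.base n) (Y.base n) => Y.str n (δ u) t) h1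

/-- The telescope preserves retracts. -/
lemma loopTelMap_comp_eq_id {f : X ⟶ Y} {g : Y ⟶ X} (h : f ≫ g = 𝟙 X) (d : ℕ → ℕ) :
    loopTelMap f d ≫ loopTelMap g d = 𝟙 _ := by
  apply GSpt.Hom.ext
  funext n
  ext γ : 1
  refine Path.ext (x := X.base n) ?_
  funext u
  exact congrArg (fun φ : X ⟶ X => φ.map n ((show Path (X.base n) (X.base n) from γ) u)) h

/-- If the geometric fixed points of `X` consist of points, so do those of the telescope of `ΩX`. -/
theorem isTrivial_geomFix_loopTel [Finite N] (X : GSpt G N) (H : Subgroup G) (d : ℕ → ℕ)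
    (hX : (X.geomFix H).IsTrivial) : ((X.loopTel d).geomFix H).IsTrivial := by
  intro n
  refine ⟨fun x y => ?_⟩
  have := hX n
  have h1 : geomTelInv X H d n x = geomTelInv X H d n y := by
    ext u
    exact Subsingleton.elim _ _
  exact (geomTelFun_inv X H d n x).symm.trans
    ((congrArg (geomTelFun X H d n) h1).trans (geomTelFun_inv X H d n y))

end LoopTelMap

/-! ## Naturality of the unit of the telescope -/

section Natural3

variable {G : Type} [Group G] {N : Type} [MulAction G N] [Fintype N]
variable {k : ℕ} (e3 : Fin 3 × N ≃ Fin (k + 3))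

/-- A map of spectra which respects the cells of two structures `UnitData` sends the unit of the telescope
to the unit of the telescope. -/
lemma stablePi_map_unit3 {X Y : GSpt G N} (D : UnitData X) (D' : UnitData Y) (f : X ⟶ Y)
    (hf : ∀ n y, f.map n (D.cell n y) = D'.cell n y) (d : ℕ → ℕ) :
    ((GSpt.stablePi ⊥ k).map (loopTelMap (GSpt.sh.map f) d)).hom (unit3 e3 D d) =
      unit3 e3 D' d := by
  have h1 : Limits.colimit.ι (piSeqAdd (tel3 (X := X) d) ⊥ k) 0 ≫
        (GSpt.stablePi ⊥ k).map (loopTelMap (GSpt.sh.map f) d) =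
      (Functor.whiskerRight ((GSpt.piSeq ⊥ k).map (loopTelMap (GSpt.sh.map f) d))
        CommGrpCat.toAddCommGrp).app 0 ≫ Limits.colimit.ι (piSeqAdd (tel3 (X := Y) d) ⊥ k) 0 :=
    Limits.ι_colimMap _ 0
  have h2 := ConcreteCategory.congr_hom h1 (unit3At e3 D d 0)
  refine h2.trans (congrArg (Limits.colimit.ι (piSeqAdd (tel3 (X := Y) d) ⊥ k) 0) ?_)
  show Additive.ofMul (piMk (mapLoop (GSpt.loopFixMap (loopTelMap (GSpt.sh.map f) d) ⊥ 0)
    (GSpt.loopFixMap_base (loopTelMap (GSpt.sh.map f) d) ⊥ 0) (unit3Loop e3 D d 0))) = _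
  have h3 : mapLoop (GSpt.loopFixMap (loopTelMap (GSpt.sh.map f) d) ⊥ 0)
      (GSpt.loopFixMap_base (loopTelMap (GSpt.sh.map f) d) ⊥ 0) (unit3Loop e3 D d 0) =
      unit3Loop e3 D' d 0 := by
    ext s
    apply Subtype.ext
    ext t
    refine Path.ext (x := Y.base (0 + 1)) ?_
    funext u
    exact hf (0 + 1) _
  rw [h3]
  rfl

end Natural3

/-! ## The `p`-local orbit spectra -/

/-- The `p`-local orbit spectrum `Σ^{-1} Σ^∞ (G/B)₊ ∧ 𝕊_{(p)}`: the telescope of the loop spectrum of the orbit spectrum
`Σ^∞ (G/B)₊`, with the multiplicities `telDeg p`. -/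
def GSpt.localOrbit (G : Type) [Group G] (B : Subgroup G) (p : ℕ) : GSpt G G :=
  (GSpt.orbit G B).loopTel (telDeg p)

section LocalOrbit

variable {G : Type} [Group G] [Finite G] (A B : Subgroup G)

omit [Finite G] in
/-- The spectrum `GSpt.localOrbit G B p` is `p`-local, -/
theorem GSpt.isPLocal_localOrbit {p : ℕ} (hp : p.Prime) : (GSpt.localOrbit G B p).IsPLocal p :=
  (loopTelStr _ (telDeg p)).isPLocal (exists_dvd_telDeg hp)

/-- and it is not a zero object of `GSH G G`: the class of the point `B` in `π_{3|G|-1}^1(sh³ -) = π_{-1}` is sent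
to the unit of `Σ^{-1} 𝕊_{(p)}`, which has infinite order. -/
theorem GSpt.not_isZero_localOrbit (p : ℕ) :
    ¬ Limits.IsZero (GSH.Q.obj (GSpt.localOrbit G B p)) := by
  have := Fintype.ofFinite G
  refine not_isZero_of_stablePi (H := ⊥) (k := 3 * Nat.card G - 3) (m := 3) fun hsub => ?_
  have h1 := stablePi_map_unit3 (Finite.equivFinOfCardEq (card_three_mul G)) (orbitUnitData G B)
    (sphereUnitData G) ((GSpt.shIter 2).map (orbitToSphere G B)) (fun _ _ => rfl)
    (fun n => telDeg p (n + 3))
  have h2 : unit3 (Finite.equivFinOfCardEq (card_three_mul G)) (orbitUnitData G B)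
      (fun n => telDeg p (n + 3)) = 0 := hsub.elim _ _
  rw [h2, map_zero] at h1
  refine nsmul_unit3_ne_zero (Finite.equivFinOfCardEq (card_three_mul G)) (sphereUnitData G)
    (fun n => telDeg p (n + 3)) (sphereUnitData_surjective G) (fun i => telDeg_ne_zero p _) 1
    one_ne_zero ?_
  rw [one_smul]
  exact h1.symm

/-- If `A` is not subconjugate to `B`, then `Φ^A` of the `p`-local orbit spectrum consists of points, -/
theorem GSpt.isTrivial_geomFix_localOrbit (p : ℕ)
    (h : ¬ ∃ g : G, A.map (MulAut.conj g).toMonoidHom ≤ B) :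
    ((GSpt.localOrbit G B p).geomFix A).IsTrivial :=
  isTrivial_geomFix_loopTel _ A (telDeg p) (isTrivial_geomFix_orbit A B h)

/-- so it is `K(i)`-acyclic, for all `K` and `i`. -/
theorem GSpt.geomAcyclic_localOrbit (p : ℕ) (K : ℕ → SymRing) (i : ℕ)
    (h : ¬ ∃ g : G, A.map (MulAut.conj g).toMonoidHom ≤ B) :
    GeomAcyclic K i A (GSpt.localOrbit G B p) := by
  unfold GeomAcyclic
  split_ifs
  · exact Spt.rationallyAcyclic_of_isTrivial (GSpt.isTrivial_geomFix_localOrbit A B p h)
  · exact Spt.cohomologyVanishes_of_isTrivial (GSpt.isTrivial_geomFix_localOrbit A B p h) _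

/-- If `A` is subconjugate to `B`, then `Φ^A` of the `p`-local orbit spectrum is not rationally acyclic: it has the retract
`tel Ω Φ^A 𝕊`, which has a class of infinite order. -/
theorem GSpt.not_rationallyAcyclic_geomFix_localOrbit {p : ℕ} (hp : p.Prime)
    (h : ∃ g : G, A.map (MulAut.conj g).toMonoidHom ≤ B) :
    ¬ ((GSpt.localOrbit G B p).geomFix A).RationallyAcyclic := by
  have := Fintype.ofFinite G
  obtain ⟨-, -, -, x, hx⟩ := (geomUnitData G A).loopTel_spec (geomUnitData_surjective G A)
    (Finite.equivFinOfCardEq (card_three_mul_orbit A)) hp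
  obtain ⟨s, r, hsr⟩ := exists_retract_geomFix_orbit A B h
  have hfg : (loopTelMap s (telDeg p) ≫ geomTelF (GSpt.orbit G B) A (telDeg p)) ≫
      (geomTelG (GSpt.orbit G B) A (telDeg p) ≫ loopTelMap r (telDeg p)) = 𝟙 _ := by
    rw [Category.assoc, ← Category.assoc (geomTelF _ A _), geomTelF_G, Category.id_comp,
      loopTelMap_comp_eq_id hsr]
  exact not_rationallyAcyclic_of_retract _ _ hfg _ 3 x hx

/-- So `K(0)_*(Φ^A -) ≠ 0`. -/
theorem GSpt.not_geomAcyclic_zero_localOrbit {p : ℕ} (hp : p.Prime) (K : ℕ → SymRing)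
    (h : ∃ g : G, A.map (MulAut.conj g).toMonoidHom ≤ B) :
    ¬ GeomAcyclic K 0 A (GSpt.localOrbit G B p) := by
  unfold GeomAcyclic
  rw [if_pos rfl]
  exact GSpt.not_rationallyAcyclic_geomFix_localOrbit A B hp h

/-- **`K(0)_*(Φ^A (Σ^{-1} Σ^∞ (G/B)₊ ∧ 𝕊_{(p)})) = 0` if and only if `A` is not subconjugate to `B`.** -/
theorem GSpt.geomAcyclic_zero_localOrbit_iff {p : ℕ} (hp : p.Prime) (K : ℕ → SymRing) :
    GeomAcyclic K 0 A (GSpt.localOrbit G B p) ↔
      ¬ ∃ g : G, A.map (MulAut.conj g).toMonoidHom ≤ B :=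
  ⟨fun h h' => GSpt.not_geomAcyclic_zero_localOrbit A B hp K h' h,
    GSpt.geomAcyclic_localOrbit A B p K 0⟩

/-- **Premise and negated conclusion of `AcyclicityImplication p K A m B 0` occur together at a non-zero `p`-local
genuine `G`-spectrum**, if `A` is not subconjugate to `B` (as Corollary 7.5 predicts): `X = GSpt.localOrbit G B p` is
`p`-local, it is not a zero object of `GSH G G`, `K(m)_*(Φ^A X) = 0` for all `m` and every family `K`, and `K(0)_*(Φ^B X) ≠ 0`.
(Compactness of `X` in the `p`-local category is not proved.) -/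
theorem GSpt.localOrbit_spec {p : ℕ} (hp : p.Prime) (K : ℕ → SymRing)
    (h : ¬ ∃ g : G, A.map (MulAut.conj g).toMonoidHom ≤ B) :
    (GSpt.localOrbit G B p).IsPLocal p ∧
      ¬ Limits.IsZero (GSH.Q.obj (GSpt.localOrbit G B p)) ∧
      (∀ m, GeomAcyclic K m A (GSpt.localOrbit G B p)) ∧
      ¬ GeomAcyclic K 0 B (GSpt.localOrbit G B p) :=
  ⟨GSpt.isPLocal_localOrbit B hp, GSpt.not_isZero_localOrbit B p,
    fun m => GSpt.geomAcyclic_localOrbit A B p K m h,
    GSpt.not_geomAcyclic_zero_localOrbit B B hp K ⟨1, by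
      rintro _ ⟨b, hb, rfl⟩
      simpa [MulAut.conj_apply] using hb⟩⟩

/-- Example: for a non-trivial group `G`, the `p`-local free orbit spectrum is acyclic at `G`, at all heights, and not
at the trivial subgroup, at height `0`. -/
theorem GSpt.localOrbit_free_spec [Nontrivial G] {p : ℕ} (hp : p.Prime) (K : ℕ → SymRing) :
    (GSpt.localOrbit G ⊥ p).IsPLocal p ∧
      ¬ Limits.IsZero (GSH.Q.obj (GSpt.localOrbit G ⊥ p)) ∧
      (∀ m, GeomAcyclic K m (⊤ : Subgroup G) (GSpt.localOrbit G ⊥ p)) ∧
      ¬ GeomAcyclic K 0 (⊥ : Subgroup G) (GSpt.localOrbit G ⊥ p) := by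
  refine GSpt.localOrbit_spec ⊤ ⊥ hp K ?_
  rintro ⟨g, hg⟩
  obtain ⟨x, hx⟩ := exists_ne (1 : G)
  have h1 : g * x * g⁻¹ ∈ (⊥ : Subgroup G) := hg ⟨x, Subgroup.mem_top x, rfl⟩
  rw [Subgroup.mem_bot] at h1
  apply hx
  have h2 : x = g⁻¹ * (g * x * g⁻¹) * g := by group
  rw [h2, h1]
  group

end LocalOrbit

end

end Claimed.Open.R314
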