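import Claimed.Open.R314.SanityTelescopeG

/-!
# Result 314, sanity: the rational sphere; infinitely many objects of `GSH G G`

`SanityTelescopeG.lean` constructs the `p`-local genuine `G`-spectrum `GSpt.localSphere G p = Σ^{-1} 𝕊_{(p)}`, the telescope of
the loop spectrum `Ω𝕊` with multiplicities prime to `p`.  This file (helper267) uses the same tools for more checks of
`GSpt.IsPLocal`, `Spt.RationallyAcyclic`, `GeomAcyclic` and of the category `GSH G G`, for every finite group `G`:

* `GSpt.rationalSphere_spec`: the telescope `GSpt.rationalSphere G = Σ^{-1} 𝕊_ℚ` with the multiplicities `1, 2, 3, …` is `p`-local for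
  **every** `p` (every integer `q ≥ 1` acts invertibly on all groups `π_{k+2}^H(sh^m -)`), it is not a zero object of `GSH G G`, and none of its
  geometric fixed point spectra `Φ^H` is rationally acyclic.  So "`p`-local" does not determine `p`, and a spectrum which is `p`-local for
  all `p` need not vanish.
* `GSpt.not_geomAcyclic_zero_rationalSphere`: `K(0)_*(Φ^H Σ^{-1} 𝕊_ℚ) ≠ 0` for every subgroup `H`.
* `GSpt.localSphere_not_iso`, `GSpt.localSphere_injective`: for primes `p ≠ p'` the spectra `Σ^{-1} 𝕊_{(p)}` and `Σ^{-1} 𝕊_{(p')}` are not isomorphic in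
  `GSH G G`: the stable homotopy category has infinitely many isomorphism classes of objects;
* `GSpt.sphere_not_iso_localSphere`, `GSpt.rationalSphere_not_iso_localSphere`, `GSpt.sphere_not_iso_rationalSphere`: they are different from
  `𝕊` and from `Σ^{-1} 𝕊_ℚ`, and these two are different from each other.

(The `p`-local orbit spectra, for which `GeomAcyclic K m H X` depends on `H`, are in `SanityOrbitLocal.lean`.)

Nothing is said about compactness (`GSpt.IsCompactPLocal`) of these spectra.
-/

open CategoryTheory Topology unitInterval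
open scoped Topology.Homotopy

namespace Claimed.Open.R314

noncomputable section

set_option linter.unusedSectionVars false

section RationalSphere

/-- For any multiplicities `d n ≠ 0` the telescope of `ΩX₀` has a class of infinite order, if `sh² X₀`
"contains the sphere spectrum" in the sense of `UnitData`. -/
lemma UnitData.exists_nonTorsion_loopTel {G : Type} [Group G] {N : Type} [MulAction G N] [Fintype N]
    {X₀ : GSpt G N} (D : UnitData ((GSpt.shIter 2).obj X₀))
    (hs : ∀ n, Function.Surjective (D.cell n)) {k : ℕ} (e3 : Fin 3 × N ≃ Fin (k + 3)) (d : ℕ → ℕ)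
    (hd : ∀ i, d i ≠ 0) :
    ∃ x : (GSpt.stablePi ⊥ k).obj ((GSpt.shIter 3).obj (X₀.loopTel d)),
      ∀ a : ℕ, 0 < a → a • x ≠ 0 := by
  rw [GSpt.shIter_three_loopTel]
  exact ⟨unit3 e3 D _, fun a ha => nsmul_unit3_ne_zero e3 D _ hs (fun i => hd _) a ha.ne'⟩

lemma exists_dvd_succ (q : ℕ) (hq : 0 < q) (n : ℕ) : ∃ n', n ≤ n' ∧ q ∣ n' + 1 := by
  refine ⟨q * (n + 1) - 1, ?_, ?_⟩
  · have : n + 1 ≤ q * (n + 1) := Nat.le_mul_of_pos_left _ hq
    omega
  · have : 0 < q * (n + 1) := Nat.mul_pos hq (Nat.succ_pos n)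
    rw [Nat.sub_add_cancel this]
    exact Dvd.intro _ rfl

/-- The genuine `G`-spectrum `Σ^{-1} 𝕊_ℚ`: the telescope `Ω𝕊 --1--> Ω𝕊 --2--> Ω𝕊 --3--> ⋯` of the loop
spectrum of the genuine sphere spectrum. -/
def GSpt.rationalSphere (G : Type) [Group G] : GSpt G G := (GSpt.sphere G).loopTel (fun n => n + 1)

variable (G : Type) [Group G] [Finite G]

/-- **One spectrum can be `p`-local for all `p` without being zero**: on `Σ^{-1} 𝕊_ℚ` every integer
`q ≥ 1` acts invertibly on all groups `π_{k+2}^H(sh^m -)`, so it is `p`-local for every `p`; it is not a zero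
object of `GSH G G`, and none of its geometric fixed point spectra `Φ^H` is rationally acyclic. -/
theorem GSpt.rationalSphere_spec :
    (∀ (H : Subgroup G) (k m q : ℕ), 0 < q → Function.Bijective
      fun x : (GSpt.stablePi H k).obj ((GSpt.shIter m).obj (GSpt.rationalSphere G)) => q • x) ∧
      (∀ p : ℕ, (GSpt.rationalSphere G).IsPLocal p) ∧
      ¬ Limits.IsZero (GSH.Q.obj (GSpt.rationalSphere G)) ∧
      ∀ H : Subgroup G, ¬ ((GSpt.rationalSphere G).geomFix H).RationallyAcyclic := by
  have := Fintype.ofFinite G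
  have h1 : ∀ (H : Subgroup G) (k m q : ℕ), 0 < q → Function.Bijective
      fun x : (GSpt.stablePi H k).obj ((GSpt.shIter m).obj (GSpt.rationalSphere G)) => q • x := by
    intro H k m q hq
    refine ((loopTelStr (GSpt.sphere G) (fun n => n + 1)).shIter m).bijective_nsmul H k q fun n => ?_
    obtain ⟨n', hn, hdv⟩ := exists_dvd_succ q hq (n + m)
    exact ⟨n' - m, by omega, by
      show q ∣ n' - m + m + 1
      rwa [Nat.sub_add_cancel (by omega)]⟩
  refine ⟨h1, fun p H k m q hq _ => h1 H k m q hq.pos, ?_, fun H => ?_⟩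
  · obtain ⟨x, hx⟩ := (sphereUnitData G).exists_nonTorsion_loopTel (sphereUnitData_surjective G)
      (Finite.equivFinOfCardEq (card_three_mul G)) (fun n => n + 1) (fun i => Nat.succ_ne_zero i)
    refine not_isZero_of_stablePi (H := ⊥) (k := 3 * Nat.card G - 3) (m := 3) fun hsub => ?_
    exact hx 1 one_pos (hsub.elim _ _)
  · obtain ⟨x, hx⟩ := (geomUnitData G H).exists_nonTorsion_loopTel (geomUnitData_surjective G H)
      (Finite.equivFinOfCardEq (card_three_mul_orbit H)) (fun n => n + 1)
      (fun i => Nat.succ_ne_zero i)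
    exact not_rationallyAcyclic_geomFix_loopTel (GSpt.sphere G) H (fun n => n + 1) _ 3 x hx

/-- `K(0)_*(Φ^H Σ^{-1} 𝕊_ℚ) ≠ 0`, for every subgroup `H`. -/
theorem GSpt.not_geomAcyclic_zero_rationalSphere (H : Subgroup G) (K : ℕ → SymRing) :
    ¬ GeomAcyclic K 0 H (GSpt.rationalSphere G) := by
  simpa [GeomAcyclic] using (GSpt.rationalSphere_spec G).2.2.2 H

/-! ## Different objects of the stable homotopy category -/

/-- For primes `p ≠ p'` the spectra `Σ^{-1} 𝕊_{(p)}` and `Σ^{-1} 𝕊_{(p')}` are not isomorphic in `GSH G G`. -/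
theorem GSpt.localSphere_not_iso {p p' : ℕ} (hp : p.Prime) (hp' : p'.Prime) (h : p ≠ p') :
    IsEmpty (GSH.Q.obj (GSpt.localSphere G p) ≅ GSH.Q.obj (GSpt.localSphere G p')) :=
  ⟨fun e => (GSpt.localSphere_spec G hp').2.2.1 p h ((GSpt.localSphere_spec G hp).1.of_iso e)⟩

/-- **The category `GSH G G` has infinitely many isomorphism classes of objects**: the map which sends a prime
`p` to the isomorphism class of `Σ^{-1} 𝕊_{(p)}` is injective. -/
theorem GSpt.localSphere_injective :
    Function.Injective fun p : Nat.Primes =>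
      (Quotient.mk (isIsomorphicSetoid (GSH G G)) (GSH.Q.obj (GSpt.localSphere G p)) :
        Quotient (isIsomorphicSetoid (GSH G G))) := by
  intro p p' h
  by_contra hne
  obtain ⟨e⟩ : IsIsomorphic (GSH.Q.obj (GSpt.localSphere G p)) (GSH.Q.obj (GSpt.localSphere G p')) :=
    Quotient.exact h
  exact (GSpt.localSphere_not_iso G p.2 p'.2 fun h' => hne (Subtype.ext h')).false e

/-- The sphere spectrum is not isomorphic to `Σ^{-1} 𝕊_{(p)}` in `GSH G G`. -/
theorem GSpt.sphere_not_iso_localSphere {p : ℕ} (hp : p.Prime) :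
    IsEmpty (GSH.Q.obj (GSpt.sphere G) ≅ GSH.Q.obj (GSpt.localSphere G p)) :=
  ⟨fun e => not_isPLocal_sphere G p ((GSpt.localSphere_spec G hp).1.of_iso e.symm)⟩

/-- `Σ^{-1} 𝕊_ℚ` is not isomorphic to `Σ^{-1} 𝕊_{(p)}` in `GSH G G`. -/
theorem GSpt.rationalSphere_not_iso_localSphere {p : ℕ} (hp : p.Prime) :
    IsEmpty (GSH.Q.obj (GSpt.rationalSphere G) ≅ GSH.Q.obj (GSpt.localSphere G p)) := by
  obtain ⟨q, _, hqp⟩ := exists_prime_ne p
  exact ⟨fun e => (GSpt.localSphere_spec G hp).2.2.1 q hqp
    (((GSpt.rationalSphere_spec G).2.1 q).of_iso e)⟩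

/-- The sphere spectrum is not isomorphic to `Σ^{-1} 𝕊_ℚ` in `GSH G G`. -/
theorem GSpt.sphere_not_iso_rationalSphere :
    IsEmpty (GSH.Q.obj (GSpt.sphere G) ≅ GSH.Q.obj (GSpt.rationalSphere G)) :=
  ⟨fun e => not_isPLocal_sphere G 2 (((GSpt.rationalSphere_spec G).2.1 2).of_iso e.symm)⟩

end RationalSphere

end

end Claimed.Open.R314
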