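import Claimed.Open.R314.SanityOrbitLocal
import Claimed.Open.R314.SanityTelescopeQ

/-!
# Result 314, sanity: all telescopes of the orbit spectra; what compactness would give

`SanityOrbitLocal.lean` treats the `p`-local orbit spectra `GSpt.localOrbit G B p = (Σ^∞ (G/B)₊).loopTel (telDeg p)`.  This file (helper163)
adds the following, for all subgroups `A`, `B` of a finite group `G`.

* `GSpt.not_acyclicityImplication_of_isCompactPLocal_localOrbit`: **the necessity of subconjugacy in Corollary 7.5 is reduced to a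
  compactness statement**: if `A` is not subconjugate to `B` and `GSpt.localOrbit G B p` is compact in the `p`-local category, then
  `AcyclicityImplication p K A m B 0` fails, for all `m` and every family `K`.  (Compactness is neither proved nor refuted.)
* `geomAcyclic_zero_loopTel_orbit_iff`: for **every** telescope `X = (Σ^∞ (G/B)₊).loopTel d` with multiplicities `d n ≠ 0`,
  `K(0)_*(Φ^A X) = 0` if and only if `A` is not subconjugate to `B`; `not_isZero_loopTel_orbit`: `X` is not a zero object of `GSH G G`.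
* `GSpt.rationalOrbit_spec`: the rational orbit spectrum `Σ^{-1} Σ^∞ (G/B)₊ ∧ 𝕊_ℚ` (multiplicities `1, 2, 3, …`) is `p`-local for every `p`, not
  zero, acyclic at `A` at all heights and not acyclic at `B` at height `0`, if `A` is not subconjugate to `B`.
* `GSpt.not_isPLocal_localOrbit`, `GSpt.localOrbit_not_iso`: `GSpt.localOrbit G B p` is not `p'`-local for `p' ≠ p`, so these spectra are
  pairwise non-isomorphic in `GSH G G` for different primes.
* `GSpt.isPLocal_geomFix_localOrbit`: the geometric fixed points `Φ^A` of `GSpt.localOrbit G B p` are `p`-local spectra.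
-/

open CategoryTheory Topology unitInterval
open scoped Topology.Homotopy

namespace Claimed.Open.R314

noncomputable section

set_option linter.unusedSectionVars false

section OrbitTel

variable {G : Type} [Group G] [Finite G] (A B : Subgroup G)

/-! ## What compactness would give -/

/-- **The necessity of subconjugacy in Corollary 7.5 is reduced to a compactness statement**: if `A` is not subconjugate to `B` and
the `p`-local orbit spectrum of `G/B` is compact in the `p`-local category, then `AcyclicityImplication p K A m B 0` fails, for all `m` and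
every family `K`. -/
theorem GSpt.not_acyclicityImplication_of_isCompactPLocal_localOrbit {p : ℕ} (hp : p.Prime)
    (K : ℕ → SymRing) (m : ℕ) (h : ¬ ∃ g : G, A.map (MulAut.conj g).toMonoidHom ≤ B)
    (hc : (GSpt.localOrbit G B p).IsCompactPLocal p) : ¬ AcyclicityImplication p K A m B 0 :=
  fun hi => (GSpt.localOrbit_spec A B hp K h).2.2.2
    (hi _ hc ((GSpt.localOrbit_spec A B hp K h).2.2.1 m))

/-- In the other direction: if `AcyclicityImplication p K A m B 0` holds for some `m` and some family `K`, then `A` is subconjugate to `B`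
or the `p`-local orbit spectrum of `G/B` is not compact. -/
theorem GSpt.subconj_or_not_isCompactPLocal_localOrbit {p : ℕ} (hp : p.Prime) (K : ℕ → SymRing)
    (m : ℕ) (hi : AcyclicityImplication p K A m B 0) :
    (∃ g : G, A.map (MulAut.conj g).toMonoidHom ≤ B) ∨
      ¬ (GSpt.localOrbit G B p).IsCompactPLocal p := by
  by_cases h : ∃ g : G, A.map (MulAut.conj g).toMonoidHom ≤ B
  · exact Or.inl h
  · exact Or.inr fun hc =>
      GSpt.not_acyclicityImplication_of_isCompactPLocal_localOrbit A B hp K m h hc hi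

/-! ## All telescopes of the orbit spectra -/

/-- If `A` is not subconjugate to `B`, every telescope of `Ω Σ^∞ (G/B)₊` is `K(i)`-acyclic at `A`, for all `K` and `i`. -/
theorem geomAcyclic_loopTel_orbit (d : ℕ → ℕ) (K : ℕ → SymRing) (i : ℕ)
    (h : ¬ ∃ g : G, A.map (MulAut.conj g).toMonoidHom ≤ B) :
    GeomAcyclic K i A ((GSpt.orbit G B).loopTel d) := by
  have h1 := isTrivial_geomFix_loopTel _ A d (isTrivial_geomFix_orbit A B h)
  unfold GeomAcyclic
  split_ifs
  · exact Spt.rationallyAcyclic_of_isTrivial h1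
  · exact Spt.cohomologyVanishes_of_isTrivial h1 _

/-- If `A` is subconjugate to `B`, no telescope of `Ω Σ^∞ (G/B)₊` with multiplicities `d n ≠ 0` is `K(0)`-acyclic at `A`. -/
theorem not_geomAcyclic_zero_loopTel_orbit (d : ℕ → ℕ) (hd : ∀ i, d i ≠ 0) (K : ℕ → SymRing)
    (h : ∃ g : G, A.map (MulAut.conj g).toMonoidHom ≤ B) :
    ¬ GeomAcyclic K 0 A ((GSpt.orbit G B).loopTel d) := by
  have := Fintype.ofFinite G
  obtain ⟨x, hx⟩ := (geomUnitData G A).exists_nonTorsion_loopTel (geomUnitData_surjective G A)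
    (Finite.equivFinOfCardEq (card_three_mul_orbit A)) d hd
  obtain ⟨s, r, hsr⟩ := exists_retract_geomFix_orbit A B h
  have hfg : (loopTelMap s d ≫ geomTelF (GSpt.orbit G B) A d) ≫
      (geomTelG (GSpt.orbit G B) A d ≫ loopTelMap r d) = 𝟙 _ := by
    rw [Category.assoc, ← Category.assoc (geomTelF _ A _), geomTelF_G, Category.id_comp,
      loopTelMap_comp_eq_id hsr]
  unfold GeomAcyclic
  rw [if_pos rfl]
  exact not_rationallyAcyclic_of_retract _ _ hfg _ 3 x hx

/-- **`K(0)_*(Φ^A X) = 0` if and only if `A` is not subconjugate to `B`**, for every telescope `X` of `Ω Σ^∞ (G/B)₊` with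
multiplicities `d n ≠ 0`. -/
theorem geomAcyclic_zero_loopTel_orbit_iff (d : ℕ → ℕ) (hd : ∀ i, d i ≠ 0) (K : ℕ → SymRing) :
    GeomAcyclic K 0 A ((GSpt.orbit G B).loopTel d) ↔
      ¬ ∃ g : G, A.map (MulAut.conj g).toMonoidHom ≤ B :=
  ⟨fun h h' => not_geomAcyclic_zero_loopTel_orbit A B d hd K h' h,
    geomAcyclic_loopTel_orbit A B d K 0⟩

/-- These telescopes are not zero objects of `GSH G G`. -/
theorem not_isZero_loopTel_orbit (d : ℕ → ℕ) (hd : ∀ i, d i ≠ 0) :
    ¬ Limits.IsZero (GSH.Q.obj ((GSpt.orbit G B).loopTel d)) := by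
  have := Fintype.ofFinite G
  refine not_isZero_of_stablePi (H := ⊥) (k := 3 * Nat.card G - 3) (m := 3) fun hsub => ?_
  have h1 := stablePi_map_unit3 (Finite.equivFinOfCardEq (card_three_mul G)) (orbitUnitData G B)
    (sphereUnitData G) ((GSpt.shIter 2).map (orbitToSphere G B)) (fun _ _ => rfl)
    (fun n => d (n + 3))
  have h2 : unit3 (Finite.equivFinOfCardEq (card_three_mul G)) (orbitUnitData G B)
      (fun n => d (n + 3)) = 0 := hsub.elim _ _
  rw [h2, map_zero] at h1
  refine nsmul_unit3_ne_zero (Finite.equivFinOfCardEq (card_three_mul G)) (sphereUnitData G)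
    (fun n => d (n + 3)) (sphereUnitData_surjective G) (fun i => hd _) 1 one_ne_zero ?_
  rw [one_smul]
  exact h1.symm

/-! ## The rational orbit spectra -/

/-- The rational orbit spectrum `Σ^{-1} Σ^∞ (G/B)₊ ∧ 𝕊_ℚ`: the telescope of `Ω Σ^∞ (G/B)₊` with the multiplicities `1, 2, 3, …`. -/
def GSpt.rationalOrbit (G : Type) [Group G] (B : Subgroup G) : GSpt G G :=
  (GSpt.orbit G B).loopTel (fun n => n + 1)

omit [Finite G] in
/-- It is `p`-local for every `p`. -/
theorem GSpt.isPLocal_rationalOrbit (p : ℕ) : (GSpt.rationalOrbit G B).IsPLocal p := by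
  intro H k m q hq _
  refine ((loopTelStr (GSpt.orbit G B) (fun n => n + 1)).shIter m).bijective_nsmul H k q
    fun n => ?_
  obtain ⟨n', hn, hdv⟩ := exists_dvd_succ q hq.pos (n + m)
  exact ⟨n' - m, by omega, by
    show q ∣ n' - m + m + 1
    rwa [Nat.sub_add_cancel (by omega)]⟩

/-- **Premise and negated conclusion of `AcyclicityImplication p K A m B 0` occur together, for all primes `p` at once**, at the rational orbit
spectrum of `G/B`, if `A` is not subconjugate to `B`: it is `p`-local for every `p`, it is not a zero object of `GSH G G`,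
`K(m)_*(Φ^A -) = 0` for all `m`, and `K(0)_*(Φ^B -) ≠ 0`.  (This spectrum should not be compact in any `p`-local category; that is not proved.) -/
theorem GSpt.rationalOrbit_spec (K : ℕ → SymRing)
    (h : ¬ ∃ g : G, A.map (MulAut.conj g).toMonoidHom ≤ B) :
    (∀ p, (GSpt.rationalOrbit G B).IsPLocal p) ∧
      ¬ Limits.IsZero (GSH.Q.obj (GSpt.rationalOrbit G B)) ∧
      (∀ m, GeomAcyclic K m A (GSpt.rationalOrbit G B)) ∧
      ¬ GeomAcyclic K 0 B (GSpt.rationalOrbit G B) :=
  ⟨GSpt.isPLocal_rationalOrbit B, not_isZero_loopTel_orbit B _ fun i => Nat.succ_ne_zero i,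
    fun m => geomAcyclic_loopTel_orbit A B _ K m h,
    not_geomAcyclic_zero_loopTel_orbit B B _ (fun i => Nat.succ_ne_zero i) K ⟨1, by
      rintro _ ⟨b, hb, rfl⟩
      simpa [MulAut.conj_apply] using hb⟩⟩

/-! ## More on the `p`-local orbit spectra -/

/-- The spectrum `GSpt.localOrbit G B p` is not `p'`-local for any `p' ≠ p`: the class of the point `B` is not divisible by `p`,
as its image, the unit of `Σ^{-1} 𝕊_{(p)}`, is not. -/
theorem GSpt.not_isPLocal_localOrbit {p : ℕ} (hp : p.Prime) (p' : ℕ) (hp' : p' ≠ p) :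
    ¬ (GSpt.localOrbit G B p).IsPLocal p' := by
  have := Fintype.ofFinite G
  intro hl
  obtain ⟨y, hy⟩ := (hl ⊥ (3 * Nat.card G - 3) 3 p hp (Ne.symm hp')).2
    (unit3 (Finite.equivFinOfCardEq (card_three_mul G)) (orbitUnitData G B)
      (fun n => telDeg p (n + 3)))
  have h1 := stablePi_map_unit3 (Finite.equivFinOfCardEq (card_three_mul G)) (orbitUnitData G B)
    (sphereUnitData G) ((GSpt.shIter 2).map (orbitToSphere G B)) (fun _ _ => rfl)
    (fun n => telDeg p (n + 3))
  rw [← hy] at h1
  exact unit3_ne_nsmul (Finite.equivFinOfCardEq (card_three_mul G)) (sphereUnitData G)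
    (fun n => telDeg p (n + 3)) (sphereUnitData_surjective G) p hp
    (fun i => not_dvd_telDeg hp _) _ ((map_nsmul _ p y).symm.trans h1)

/-- For primes `p ≠ p'` the `p`-local and the `p'`-local orbit spectrum of `G/B` are not isomorphic in `GSH G G`; -/
theorem GSpt.localOrbit_not_iso {p p' : ℕ} (hp : p.Prime) (hp' : p'.Prime) (h : p ≠ p') :
    IsEmpty (GSH.Q.obj (GSpt.localOrbit G B p) ≅ GSH.Q.obj (GSpt.localOrbit G B p')) :=
  ⟨fun e => GSpt.not_isPLocal_localOrbit B hp' p h ((GSpt.isPLocal_localOrbit B hp).of_iso e)⟩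

/-- and none of them is isomorphic to the rational orbit spectrum, or to the orbit spectrum itself. -/
theorem GSpt.rationalOrbit_not_iso_localOrbit {p : ℕ} (hp : p.Prime) :
    IsEmpty (GSH.Q.obj (GSpt.rationalOrbit G B) ≅ GSH.Q.obj (GSpt.localOrbit G B p)) := by
  obtain ⟨q, _, hqp⟩ := exists_prime_ne p
  exact ⟨fun e => GSpt.not_isPLocal_localOrbit B hp q hqp
    ((GSpt.isPLocal_rationalOrbit B q).of_iso e)⟩

theorem GSpt.orbit_not_iso_localOrbit {p : ℕ} (hp : p.Prime) :
    IsEmpty (GSH.Q.obj (GSpt.orbit G B) ≅ GSH.Q.obj (GSpt.localOrbit G B p)) :=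
  ⟨fun e => not_isPLocal_orbit B p ((GSpt.isPLocal_localOrbit B hp).of_iso e.symm)⟩

/-- The geometric fixed points of the `p`-local orbit spectra are `p`-local spectra. -/
theorem GSpt.isPLocal_geomFix_localOrbit {p : ℕ} (hp : p.Prime) :
    ((GSpt.localOrbit G B p).geomFix A).IsPLocal p :=
  ((loopTelStr ((GSpt.orbit G B).geomFix A) (telDeg p)).isPLocal (exists_dvd_telDeg hp)).of_iso
    (GSH.Q.mapIso ⟨geomTelF _ A _, geomTelG _ A _, geomTelF_G _ A _, geomTelG_F _ A _⟩)

end OrbitTel

end

end Claimed.Open.R314
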