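import Claimed.Open.R314.Statement

/-!
# Result 314: `rfl` lemmas on the category of `G`-spectra of `Statement.lean`

Two unfolding lemmas (`simp` normal forms of the identity and of a composite in `GSpt G N`).  No definition of `Statement.lean` needs
them, so they live here; the other files of the folder import this file instead of `Statement.lean`.
-/

set_option autoImplicit false

namespace Claimed.Open.R314

open CategoryTheory

namespace GSpt

variable {G : Type} [Group G] {N : Type} [MulAction G N]

@[simp] lemma id_map (X : GSpt G N) (n : ℕ) : Hom.map (𝟙 X) n = ContinuousMap.id _ := rfl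
@[simp] lemma comp_map {X Y Z : GSpt G N} (f : X ⟶ Y) (g : Y ⟶ Z) (n : ℕ) :
    Hom.map (f ≫ g) n = (g.map n).comp (f.map n) := rfl

end GSpt

end Claimed.Open.R314
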