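import Claimed.Open.R314.SanityDegree2

/-!
# Result 314: non-zero `p`-local spectra

All `p`-local spectra of the other sanity files are zero objects of the stable homotopy category.  This
file constructs the `p`-localisation of a spectrum `X` as a telescope inside the structure maps
(`GSpt.tel`): the spaces are those of `X`, and the `n`-th structure map `S^{ℝ[N]} ∧ X_n → X_{n+1}` is
precomposed with a map of degree `d n` of the sphere `S^{ℝ[N]}`, the `d n`-fold concatenation in one
coordinate.  This coordinate has to be fixed by the group, so the group is trivial here: the results are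
about genuine `G`-spectra for the trivial group `G` and about the categories `Spt d` in which geometric
fixed points live.

* `GSpt.isPLocal_tel`: if every prime `q ≠ p` divides infinitely many `d n`, then `X.tel i₀ d` is
  `p`-local, for every spectrum `X`;
* `exists_isPLocal_not_isZero`: for the trivial group `G` and every prime `p` there is a genuine
  `G`-spectrum, `𝕊_{(p)}`, which is `p`-local, not a zero object of `GSH G G`, and not `p'`-local for `p' ≠ p`;
* `exists_isPLocal_not_isZero_spt`: the same for `(Φ^H 𝕊)_{(p)}` in `Spt [G : H]`, for every subgroup `H` of a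
  finite group `G`; it is not rationally acyclic.

Steps: (1) `powAt i d γ`, the `d`-fold self-concatenation of a loop, is continuous in `γ`, and its class is
the `d`-th power (`piMk_powAt`; Mathlib's `HomotopyGroup.mul_spec` allows any coordinate `i`);
(2) uncurrying `π_{k+2}(Map_*(S^{n·ℝ[N]}, X_n)) → π_m(X_n)` is injective (`uncurryPi_injective`), so
self-concatenation in an inner coordinate also induces the `d`-th power (`mapPi_powFix`, Eckmann-Hilton);
(3) the stabilisation maps of the telescope are `d n` times those of `X` (`unitSeq_tel_map_succ`);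
(4) a colimit of abelian groups along maps which are `d n` times a homomorphism
(`bijective_nsmul_colimit`); (5) the unit of the telescope, at level `j`, is `d 0 ⋯ d (j-1)` times the unit of
`X`, which has infinite order and is not divisible by `p` by `SanityDegree2.lean`.
-/

open CategoryTheory Topology unitInterval
open scoped Topology.Homotopy

namespace Claimed.Open.R314

noncomputable section

set_option linter.unusedSectionVars false

/-! ## Iterated concatenation of a loop with itself -/

section PowAt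

variable {N : Type} [DecidableEq N] {Y : Type} [TopologicalSpace Y] {y₀ : Y}

theorem transAt_apply' (i : N) (f g : Ω^ N Y y₀) (t : N → I) :
    GenLoop.transAt i f g t = if (t i : ℝ) ≤ 1 / 2
      then f (Function.update t i <| Set.projIcc 0 1 zero_le_one (2 * t i))
      else g (Function.update t i <| Set.projIcc 0 1 zero_le_one (2 * t i - 1)) := by
  simp only [GenLoop.transAt, GenLoop.coe_copy]

lemma continuous_transAt (i : N) :
    Continuous fun z : Ω^ N Y y₀ × Ω^ N Y y₀ => GenLoop.transAt i z.1 z.2 := by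
  simp only [← GenLoop.fromLoop_trans_toLoop]
  exact (GenLoop.continuous_fromLoop i).comp (Path.continuous_trans.comp
    (((GenLoop.continuous_toLoop i).comp continuous_fst).prodMk
      ((GenLoop.continuous_toLoop i).comp continuous_snd)))

/-- The `d`-fold concatenation `γ * (γ * (⋯ * const))` of a loop with itself along the `i`-th
coordinate. -/
def powAt (i : N) : ℕ → Ω^ N Y y₀ → Ω^ N Y y₀
  | 0, _ => GenLoop.const
  | d + 1, γ => GenLoop.transAt i γ (powAt i d γ)

lemma powAt_zero (i : N) (γ : Ω^ N Y y₀) : powAt i 0 γ = GenLoop.const := rfl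

lemma powAt_succ (i : N) (d : ℕ) (γ : Ω^ N Y y₀) :
    powAt i (d + 1) γ = GenLoop.transAt i γ (powAt i d γ) := rfl

lemma continuous_powAt (i : N) (d : ℕ) : Continuous (powAt (Y := Y) (y₀ := y₀) i d) := by
  induction d with
  | zero => exact continuous_const
  | succ d ih =>
    have h : Continuous fun γ : Ω^ N Y y₀ => (γ, powAt i d γ) := continuous_id.prodMk ih
    have h2 : powAt (Y := Y) (y₀ := y₀) i (d + 1) =
        (fun z : Ω^ N Y y₀ × Ω^ N Y y₀ => GenLoop.transAt i z.1 z.2) ∘
          fun γ : Ω^ N Y y₀ => (γ, powAt i d γ) := by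
      funext γ
      exact powAt_succ i d γ
    rw [h2]
    exact (continuous_transAt i).comp h

lemma powAt_const (i : N) (d : ℕ) : powAt i d (GenLoop.const : Ω^ N Y y₀) = GenLoop.const := by
  induction d with
  | zero => rfl
  | succ d ih =>
    rw [powAt_succ, ih]
    ext t
    rw [transAt_apply']
    split_ifs <;> rfl

/-- The class of `powAt i d γ` is the `d`-th power of the class of `γ`. -/
lemma piMk_powAt [Nonempty N] (i : N) (d : ℕ) (γ : Ω^ N Y y₀) :
    piMk (powAt i d γ) = piMk γ ^ d := by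
  induction d with
  | zero => exact HomotopyGroup.one_def.symm
  | succ d ih =>
    rw [powAt_succ, ← piMk_mul, ih, pow_succ]

end PowAt

/-! ## Uncurrying is injective -/

section Curry

open scoped Classical

variable {G : Type} [Group G] {N : Type} [MulAction G N] [Fintype N] {X : GSpt G N} {k n m : ℕ}

/-- The point of `I^m` with loop coordinates `u` and inner coordinates `t`. -/
def CoordSplit.glue {A B : Type} (s : CoordSplit A B m) (u : A → I) (t : B → I) : Fin m → I :=
  fun j => if h : ∃ a, s.lp a = j then u h.choose else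
    if h' : ∃ b, s.inn b = j then t h'.choose else 0

lemma CoordSplit.glue_lp {A B : Type} (s : CoordSplit A B m) (u : A → I) (t : B → I) (a : A) :
    s.glue u t (s.lp a) = u a := by
  have h : ∃ a', s.lp a' = s.lp a := ⟨a, rfl⟩
  unfold CoordSplit.glue
  rw [dif_pos h, s.inj h.choose_spec]

lemma CoordSplit.glue_inn {A B : Type} (s : CoordSplit A B m) (hi : Function.Injective s.inn)
    (u : A → I) (t : B → I) (b : B) : s.glue u t (s.inn b) = t b := by
  have h : ¬ ∃ a', s.lp a' = s.inn b := fun ⟨a', ha'⟩ => s.disj a' b ha'.symm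
  have h' : ∃ b', s.inn b' = s.inn b := ⟨b, rfl⟩
  unfold CoordSplit.glue
  rw [dif_neg h, dif_pos h', hi h'.choose_spec]

lemma CoordSplit.continuous_glue {A B : Type} (s : CoordSplit A B m) :
    Continuous fun z : (A → I) × (B → I) => s.glue z.1 z.2 := by
  refine continuous_pi fun j => ?_
  unfold CoordSplit.glue
  by_cases h : ∃ a, s.lp a = j
  · simp only [dif_pos h]
    exact (continuous_apply _).comp continuous_fst
  · simp only [dif_neg h]
    by_cases h' : ∃ b, s.inn b = j
    · simp only [dif_pos h']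
      exact (continuous_apply _).comp continuous_snd
    · simp only [dif_neg h']
      exact continuous_const

lemma uncurryLoop_glue (s : CoordSplit (Fin (k + 2)) (Fin n × N) m)
    (hi : Function.Injective s.inn)
    (γ : Ω^ (Fin (k + 2)) (X.LoopFix ⊥ n) (X.loopFixBase ⊥ n)) (u : Fin (k + 2) → I)
    (t : Fin n × N → I) : uncurryLoop s γ (s.glue u t) = (γ u).1 t := by
  rw [uncurryLoop_apply]
  simp only [s.glue_lp, s.glue_inn hi]

lemma homotopic_of_uncurryLoop (s : CoordSplit (Fin (k + 2)) (Fin n × N) m)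
    (hi : Function.Injective s.inn)
    {γ γ' : Ω^ (Fin (k + 2)) (X.LoopFix ⊥ n) (X.loopFixBase ⊥ n)}
    (h : GenLoop.Homotopic (uncurryLoop s γ) (uncurryLoop s γ')) : GenLoop.Homotopic γ γ' := by
  obtain ⟨Hh⟩ := h
  have hbl : ∀ (u : Fin (k + 2) → I) (t : Fin n × N → I), u ∈ Cube.boundary (Fin (k + 2)) →
      s.glue u t ∈ Cube.boundary (Fin m) := by
    rintro u t ⟨a, ha⟩
    exact ⟨s.lp a, by rw [s.glue_lp]; exact ha⟩
  have hbi : ∀ (u : Fin (k + 2) → I) (t : Fin n × N → I), t ∈ Cube.boundary (Fin n × N) →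
      s.glue u t ∈ Cube.boundary (Fin m) := by
    rintro u t ⟨b, hb⟩
    exact ⟨s.inn b, by rw [s.glue_inn hi]; exact hb⟩
  let K : I × (Fin (k + 2) → I) → X.LoopFix ⊥ n := fun z =>
    ⟨⟨⟨fun t => Hh (z.1, s.glue z.2 t), by
        have h1 : Continuous fun t : Fin n × N → I => (z.2, t) :=
          continuous_const.prodMk continuous_id
        exact Hh.continuous.comp (continuous_const.prodMk (s.continuous_glue.comp h1))⟩, by
      intro t ht
      show Hh (z.1, s.glue z.2 t) = _
      rw [Hh.eq_fst z.1 (hbi z.2 t ht)]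
      exact (uncurryLoop s γ).2 _ (hbi z.2 t ht)⟩, by
      intro h hh t
      rw [Subgroup.mem_bot] at hh
      subst hh
      simp⟩
  have hK : Continuous K := by
    refine Continuous.subtype_mk (Continuous.subtype_mk ?_ _) _
    refine ContinuousMap.continuous_of_continuous_uncurry _ ?_
    exact Hh.continuous.comp ((continuous_fst.comp continuous_fst).prodMk
      (s.continuous_glue.comp ((continuous_snd.comp continuous_fst).prodMk continuous_snd)))
  refine ⟨⟨⟨⟨K, hK⟩, ?_, ?_⟩, ?_⟩⟩
  · intro u
    apply Subtype.ext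
    ext t
    show Hh (0, s.glue u t) = _
    rw [Hh.apply_zero]
    exact uncurryLoop_glue s hi γ u t
  · intro u
    apply Subtype.ext
    ext t
    show Hh (1, s.glue u t) = _
    rw [Hh.apply_one]
    exact uncurryLoop_glue s hi γ' u t
  · intro τ u hu
    apply Subtype.ext
    ext t
    show Hh (τ, s.glue u t) = _
    rw [Hh.eq_fst τ (hbl u t hu)]
    exact uncurryLoop_glue s hi γ u t

lemma uncurryPi_injective [Nonempty (Fin m)] (s : CoordSplit (Fin (k + 2)) (Fin n × N) m)
    (hi : Function.Injective s.inn) : Function.Injective (uncurryPi (X := X) s) := by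
  rintro ⟨γ⟩ ⟨γ'⟩ h
  exact Quotient.sound (homotopic_of_uncurryLoop s hi (Quotient.exact h))

end Curry

/-! ## Self-concatenation in an inner coordinate is the `d`-th power -/

section PowFix

variable {G : Type} [Group G] {N : Type} [MulAction G N] [Fintype N] [DecidableEq N]
  {X : GSpt G N} {k n m : ℕ}

/-- The self-map `γ ↦ γ * (γ * ⋯)` (`d` factors, concatenated in the coordinate `b`) of
`Map_*(S^{n·ℝ[N]}, X_n)`. -/
def powFix (X : GSpt G N) (n : ℕ) (b : Fin n × N) (d : ℕ) : C(X.LoopFix ⊥ n, X.LoopFix ⊥ n) where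
  toFun γ := ⟨powAt b d γ.1, fun h hh t => by
    have h1 : h = 1 := Subgroup.mem_bot.1 hh
    rw [h1]
    simp⟩
  continuous_toFun :=
    Continuous.subtype_mk ((continuous_powAt b d).comp continuous_subtype_val) _

lemma powFix_base (b : Fin n × N) (d : ℕ) :
    powFix X n b d (X.loopFixBase ⊥ n) = X.loopFixBase ⊥ n :=
  Subtype.ext (powAt_const b d)

lemma uncurryLoop_powFix (s : CoordSplit (Fin (k + 2)) (Fin n × N) m)
    (hi : Function.Injective s.inn) (b : Fin n × N) (d : ℕ)
    (γ : Ω^ (Fin (k + 2)) (X.LoopFix ⊥ n) (X.loopFixBase ⊥ n)) :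
    uncurryLoop s (mapLoop (powFix X n b d) (powFix_base b d) γ) =
      powAt (s.inn b) d (uncurryLoop s γ) := by
  ext x
  show powAt b d (γ (fun a => x (s.lp a))).1 (fun b' => x (s.inn b')) = _
  induction d generalizing x with
  | zero => rfl
  | succ d ih =>
    have e1 : ∀ r : I, (fun a => Function.update x (s.inn b) r (s.lp a)) = fun a => x (s.lp a) := by
      intro r
      funext a
      rw [Function.update_of_ne (fun h => s.disj a b h.symm)]
    have e2 : ∀ r : I, (fun b' => Function.update x (s.inn b) r (s.inn b')) =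
        Function.update (fun b' => x (s.inn b')) b r := by
      intro r
      funext b'
      by_cases h : b' = b
      · subst h
        simp
      · rw [Function.update_of_ne h, Function.update_of_ne (fun h' => h (hi h'))]
    rw [powAt_succ, powAt_succ, transAt_apply', transAt_apply']
    split_ifs with h
    · rw [uncurryLoop_apply, e1, e2]
    · rw [← ih, e1, e2]

/-- The decomposition of the coordinates of `I^{A ⊕ B}`, numbered in some way. -/
def sumSplit (A B : Type) [Fintype A] [Fintype B] : CoordSplit A B (Fintype.card (A ⊕ B)) where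
  lp a := Fintype.equivFin (A ⊕ B) (Sum.inl a)
  inn b := Fintype.equivFin (A ⊕ B) (Sum.inr b)
  inj := fun _ _ h => Sum.inl_injective ((Fintype.equivFin _).injective h)
  disj := fun a b h => by simpa using (Fintype.equivFin _).injective h
  cov := fun j => by
    obtain ⟨x, rfl⟩ := (Fintype.equivFin (A ⊕ B)).surjective j
    cases x with
    | inl a => exact Or.inl ⟨a, rfl⟩
    | inr b => exact Or.inr ⟨b, rfl⟩

/-- **Eckmann-Hilton**: the map induced by `powFix` on `π_{k+2}` is the `d`-th power. -/
lemma mapPi_powFix (b : Fin n × N) (d : ℕ)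
    (x : HomotopyGroup (Fin (k + 2)) (X.LoopFix ⊥ n) (X.loopFixBase ⊥ n)) :
    mapPi (powFix X n b d) (powFix_base b d) x = x ^ d := by
  induction x using Quotient.inductionOn with
  | h γ =>
    let s := sumSplit (Fin (k + 2)) (Fin n × N)
    have : Nonempty (Fin (Fintype.card (Fin (k + 2) ⊕ Fin n × N))) := ⟨s.lp 0⟩
    have hi : Function.Injective s.inn :=
      fun _ _ h => Sum.inr_injective ((Fintype.equivFin _).injective h)
    apply uncurryPi_injective s hi
    show uncurryPi s (piMk (mapLoop (powFix X n b d) (powFix_base b d) γ)) =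
      uncurryPi s (piMk γ ^ d)
    rw [map_pow]
    show piMk (uncurryLoop _ (mapLoop (powFix X n b d) (powFix_base b d) γ)) =
      piMk (uncurryLoop _ γ) ^ d
    rw [uncurryLoop_powFix _ hi, piMk_powAt]

end PowFix

/-! ## The telescope of a spectrum -/

section Tel

variable {G : Type} [Group G] [Subsingleton G] {N : Type} [MulAction G N] [DecidableEq N]

/-- The spectrum with the spaces of `X` and with the structure maps `σ̃_n` of `X` replaced by their
`d n`-fold self-concatenations in the coordinate `i₀` of `S^{ℝ[N]}`, that is by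
`S^{ℝ[N]} ∧ X_n → S^{ℝ[N]} ∧ X_n → X_{n+1}`, where the first map has degree `d n` on the sphere.  It is
a model of the telescope of `X → X → ⋯` with the maps `d 0, d 1, …`.  (The group is trivial: for
`N = G` no coordinate of `S^{ℝ[G]}` is fixed by a non-trivial group.) -/
def GSpt.tel (X : GSpt G N) (i₀ : N) (d : ℕ → ℕ) : GSpt G N where
  space := X.space
  base := X.base
  smul_base := X.smul_base
  str n := ⟨fun x => powAt i₀ (d n) (X.str n x),
    (continuous_powAt i₀ (d n)).comp (X.str n).continuous⟩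
  str_base n t := by
    have h : X.str n (X.base n) = GenLoop.const := by
      ext t
      exact X.str_base n t
    show powAt i₀ (d n) (X.str n (X.base n)) t = _
    rw [h, powAt_const]
    rfl
  str_smul n g x t := by
    obtain rfl : g = 1 := Subsingleton.elim _ _
    simp

lemma GSpt.sh_tel (X : GSpt G N) (i₀ : N) (d : ℕ → ℕ) :
    GSpt.sh.obj (X.tel i₀ d) = (GSpt.sh.obj X).tel i₀ (fun n => d (n + 1)) := rfl

lemma GSpt.shIter_tel (m : ℕ) (X : GSpt G N) (i₀ : N) (d : ℕ → ℕ) :
    (GSpt.shIter m).obj (X.tel i₀ d) = ((GSpt.shIter m).obj X).tel i₀ (fun n => d (n + m)) := by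
  induction m generalizing X d with
  | zero => rfl
  | succ b ih =>
    show (GSpt.shIter b).obj (GSpt.sh.obj (X.tel i₀ d)) = _
    rw [GSpt.sh_tel, ih]
    show _ = ((GSpt.shIter b).obj (GSpt.sh.obj X)).tel i₀ _
    congr 1

variable [Fintype N]

/-- The stabilisation map of the telescope is that of `X`, followed by the `d n`-fold
self-concatenation. -/
lemma GSpt.tel_stab (X : GSpt G N) (i₀ : N) (d : ℕ → ℕ) (n : ℕ) (γ : X.LoopFix ⊥ n) :
    (X.tel i₀ d).stab ⊥ n γ = powFix X (n + 1) (0, i₀) (d n) (X.stab ⊥ n γ) := by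
  apply Subtype.ext
  ext t
  show powAt i₀ (d n) (X.str n (γ.1 (fun q => t (q.1.succ, q.2)))) (fun i => t (0, i)) =
    powAt ((0 : Fin (n + 1)), i₀) (d n) (X.stab ⊥ n γ).1 t
  generalize d n = c
  induction c generalizing t with
  | zero => rfl
  | succ c ih =>
    have e1 : ∀ r : I, (fun q : Fin n × N =>
        Function.update t ((0 : Fin (n + 1)), i₀) r (q.1.succ, q.2)) =
          fun q => t (q.1.succ, q.2) := by
      intro r
      funext q
      rw [Function.update_of_ne]
      intro h
      exact Fin.succ_ne_zero _ (congrArg Prod.fst h)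
    have e2 : ∀ r : I, (fun i => Function.update t ((0 : Fin (n + 1)), i₀) r (0, i)) =
        Function.update (fun i => t (0, i)) i₀ r := by
      intro r
      funext i
      by_cases h : i = i₀
      · subst h
        simp
      · rw [Function.update_of_ne h, Function.update_of_ne (fun h' => h (congrArg Prod.snd h'))]
    rw [powAt_succ, powAt_succ, transAt_apply', transAt_apply']
    split_ifs with h
    · show _ = X.str n (γ.1 _) _
      rw [e1, e2]
    · rw [← ih, e1, e2]

end Tel

/-! ## A sequence of abelian groups whose maps are divisible -/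

section Colim

open Limits

variable (F : ℕ ⥤ AddCommGrpCat.{0})

lemma colimit_ι_map {n n' : ℕ} (f : n ⟶ n') (x : F.obj n) :
    colimit.ι F n' (F.map f x) = colimit.ι F n x := by
  rw [← ConcreteCategory.comp_apply, colimit.w]

variable (d : ℕ → ℕ) (φ : ∀ n, F.obj n →+ F.obj (n + 1))
  (hF : ∀ n (x : F.obj n), F.map (homOfLE (Nat.le_succ n)) x = d n • φ n x)

include hF in
/-- If the `n`-th map of the sequence is `d n` times a homomorphism, and `q` divides infinitely many
of the `d n`, then `q` acts invertibly on the colimit. -/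
theorem bijective_nsmul_colimit (q : ℕ) (hq : ∀ n, ∃ n', n ≤ n' ∧ q ∣ d n') :
    Function.Bijective fun y : ↑(colimit F) => q • y := by
  constructor
  · intro y y' h
    have h0 : q • (y - y') = 0 := by
      rw [smul_sub]
      exact sub_eq_zero.2 h
    obtain ⟨j, z, hz⟩ := Concrete.colimit_exists_rep F (y - y')
    rw [← hz, ← map_nsmul] at h0
    have h1 : colimit.ι F j (q • z) = colimit.ι F j 0 := by rw [h0, map_zero]
    obtain ⟨j', f, g, hfg⟩ := (Concrete.colimit_rep_eq_iff_exists F _ _).1 h1
    rw [map_nsmul, map_zero] at hfg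
    obtain ⟨n', hn', c, hc⟩ := hq j'
    have h2 : q • F.map (f ≫ homOfLE hn') z = 0 := by
      rw [F.map_comp, ConcreteCategory.comp_apply, ← map_nsmul, hfg, map_zero]
    have h3 : F.map (homOfLE (Nat.le_succ n')) (F.map (f ≫ homOfLE hn') z) = 0 := by
      rw [hF, hc, mul_comm, mul_smul, ← map_nsmul, h2, map_zero, smul_zero]
    have h4 : y - y' = 0 := by
      rw [← hz, ← colimit_ι_map F (f ≫ homOfLE hn'), ← colimit_ι_map F (homOfLE (Nat.le_succ n')),
        h3, map_zero]
    exact sub_eq_zero.1 h4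
  · intro y
    obtain ⟨j, z, rfl⟩ := Concrete.colimit_exists_rep F y
    obtain ⟨n', hn', c, hc⟩ := hq j
    refine ⟨colimit.ι F (n' + 1) (c • φ n' (F.map (homOfLE hn') z)), ?_⟩
    show q • _ = _
    rw [← map_nsmul, ← mul_smul, ← hc, ← hF, colimit_ι_map, colimit_ι_map]

end Colim

/-! ## The homotopy groups of the telescope -/

section TelPi

variable {G : Type} [Group G] [Subsingleton G] {N : Type} [MulAction G N] [DecidableEq N]
  [Fintype N] (X : GSpt G N) (i₀ : N) (d : ℕ → ℕ) (k : ℕ)

/-- The stabilisation maps of `X`, between the groups of the sequence of the telescope (which has the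
same spaces). -/
def telPhi (n : ℕ) : (unitSeq (X.tel i₀ d) k).obj n →+ (unitSeq (X.tel i₀ d) k).obj (n + 1) :=
  (MonoidHom.toAdditive (mapPiHom (N := Fin (k + 2)) (X.stab ⊥ n) (X.stab_base ⊥ n)) :
    Additive (HomotopyGroup (Fin (k + 2)) (X.LoopFix ⊥ n) (X.loopFixBase ⊥ n)) →+
      Additive (HomotopyGroup (Fin (k + 2)) (X.LoopFix ⊥ (n + 1)) (X.loopFixBase ⊥ (n + 1))))

lemma unitSeq_tel_map_succ (n : ℕ) (x : (unitSeq (X.tel i₀ d) k).obj n) :
    (unitSeq (X.tel i₀ d) k).map (homOfLE (Nat.le_succ n)) x = d n • telPhi X i₀ d k n x := by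
  have h : ((GSpt.piSeq ⊥ k).obj (X.tel i₀ d)).map (homOfLE (Nat.le_succ n)) =
      CommGrpCat.ofHom (mapPiHom ((X.tel i₀ d).stab ⊥ n) ((X.tel i₀ d).stab_base ⊥ n)) :=
    Functor.ofSequence_map_homOfLE_succ _ n
  show (CommGrpCat.toAddCommGrp.map
    (((GSpt.piSeq ⊥ k).obj (X.tel i₀ d)).map (homOfLE (Nat.le_succ n)))) x = _
  rw [h]
  obtain ⟨γ, rfl⟩ : ∃ γ : Ω^ (Fin (k + 2)) (X.LoopFix ⊥ n) (X.loopFixBase ⊥ n),
      (Additive.ofMul (piMk γ) : Additive (HomotopyGroup (Fin (k + 2)) (X.LoopFix ⊥ n)
        (X.loopFixBase ⊥ n))) = x := Quotient.exists_rep x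
  show Additive.ofMul (piMk (mapLoop ((X.tel i₀ d).stab ⊥ n) ((X.tel i₀ d).stab_base ⊥ n) γ)) =
    Additive.ofMul (piMk (mapLoop (X.stab ⊥ n) (X.stab_base ⊥ n) γ) ^ d n)
  rw [← mapPi_powFix ((0 : Fin (n + 1)), i₀) (d n)]
  refine congrArg (fun z => Additive.ofMul (piMk z)) ?_
  ext u
  exact GSpt.tel_stab X i₀ d n (γ u)

/-- **The telescope is local**: if every prime `q ≠ p` divides infinitely many of the `d n`, then
`X.tel i₀ d` is `p`-local, for every spectrum `X`. -/
theorem GSpt.isPLocal_tel (p : ℕ)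
    (hd : ∀ q : ℕ, q.Prime → q ≠ p → ∀ n, ∃ n', n ≤ n' ∧ q ∣ d n') : (X.tel i₀ d).IsPLocal p := by
  intro H k m q hq hqp
  rw [Subsingleton.elim H ⊥, GSpt.shIter_tel]
  refine bijective_nsmul_colimit (unitSeq _ k) _ (telPhi _ i₀ _ k)
    (unitSeq_tel_map_succ _ i₀ _ k) q ?_
  intro n
  obtain ⟨n', hn', h⟩ := hd q hq hqp (n + m)
  exact ⟨n' - m, by omega, by rwa [Nat.sub_add_cancel (by omega)]⟩

end TelPi

/-! ## The unit of the telescope -/

section TelUnit

open Limits

variable {G : Type} [Group G] [Subsingleton G] {N : Type} [MulAction G N] [DecidableEq N]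
  [Fintype N] {k : ℕ} (e : Fin 2 × N ≃ Fin (k + 2)) {X : GSpt G N} (D : UnitData X) (i₀ : N)
  (d : ℕ → ℕ)

/-- The class of `unitLoop e D j` in the `j`-th group of the sequence of the telescope. -/
def telUnitAt (j : ℕ) : (unitSeq (X.tel i₀ d) k).obj j := unitAt e D j

lemma telPhi_telUnitAt (j : ℕ) :
    telPhi X i₀ d k j (telUnitAt e D i₀ d j) = telUnitAt e D i₀ d (j + 1) := by
  show Additive.ofMul (piMk (mapLoop (X.stab ⊥ j) (X.stab_base ⊥ j) (unitLoop e D j))) = _
  rw [mapLoop_stab_unitLoop]
  rfl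

lemma unitSeq_tel_map (j : ℕ) (f : 0 ⟶ j) :
    (unitSeq (X.tel i₀ d) k).map f (telUnitAt e D i₀ d 0) =
      (∏ i ∈ Finset.range j, d i) • telUnitAt e D i₀ d j := by
  induction j with
  | zero =>
    rw [Subsingleton.elim f (𝟙 0), (unitSeq (X.tel i₀ d) k).map_id]
    simp
  | succ j ih =>
    rw [Subsingleton.elim f (homOfLE (Nat.zero_le j) ≫ homOfLE (Nat.le_succ j)),
      (unitSeq (X.tel i₀ d) k).map_comp]
    show (unitSeq (X.tel i₀ d) k).map (homOfLE (Nat.le_succ j))
      ((unitSeq (X.tel i₀ d) k).map (homOfLE (Nat.zero_le j)) (telUnitAt e D i₀ d 0)) = _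
    rw [ih, map_nsmul, unitSeq_tel_map_succ, telPhi_telUnitAt, ← mul_smul, Finset.prod_range_succ]

variable (hs : ∀ n, Function.Surjective (D.cell n))

include hs in
/-- The unit of the telescope has infinite order, if no `d n` is zero. -/
theorem colimit_tel_nsmul_unit_ne_zero (hd : ∀ i, d i ≠ 0) (a : ℕ) (ha : a ≠ 0) :
    a • colimit.ι (unitSeq (X.tel i₀ d) k) 0 (telUnitAt e D i₀ d 0) ≠ 0 := by
  intro h
  have h0 : colimit.ι (unitSeq (X.tel i₀ d) k) 0 (a • telUnitAt e D i₀ d 0) =
      colimit.ι (unitSeq (X.tel i₀ d) k) 0 0 := by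
    rw [map_nsmul, h, map_zero]
  obtain ⟨j, f, g, hfg⟩ :=
    (Concrete.colimit_rep_eq_iff_exists (unitSeq (X.tel i₀ d) k) _ _).1 h0
  rw [map_nsmul, unitSeq_tel_map, ← mul_smul] at hfg
  exact nsmul_unitAt_ne_zero e D hs j _
    (mul_ne_zero ha (Finset.prod_ne_zero_iff.2 fun i _ => hd i)) (hfg.trans (map_zero _))

include hs in
/-- The unit of the telescope is not divisible by a prime `p` which divides no `d n`. -/
theorem colimit_tel_unit_ne_nsmul (p : ℕ) (hp : p.Prime) (hd : ∀ i, ¬ p ∣ d i)
    (y : ↑(colimit (unitSeq (X.tel i₀ d) k))) :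
    p • y ≠ colimit.ι (unitSeq (X.tel i₀ d) k) 0 (telUnitAt e D i₀ d 0) := by
  intro h
  obtain ⟨j, yj, rfl⟩ := Concrete.colimit_exists_rep (unitSeq (X.tel i₀ d) k) y
  rw [← map_nsmul] at h
  obtain ⟨j', f, g, hfg⟩ :=
    (Concrete.colimit_rep_eq_iff_exists (unitSeq (X.tel i₀ d) k) _ _).1 h
  rw [unitSeq_tel_map, map_nsmul] at hfg
  set P := ∏ i ∈ Finset.range j', d i with hP
  have hcop : Nat.Coprime P p := by
    refine ((Nat.Prime.coprime_iff_not_dvd hp).2 fun h => ?_).symm
    obtain ⟨i, _, hi⟩ := (Prime.dvd_finsetProd_iff hp.prime _).1 h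
    exact hd i hi
  obtain ⟨a, b, hab⟩ := Nat.isCoprime_iff_coprime.2 hcop
  set z : (unitSeq X k).obj j' := (unitSeq (X.tel i₀ d) k).map f yj with hz
  have hfg' : p • z = P • unitAt e D j' := hfg
  refine unitAt_ne_nsmul e D hs j' p hp (a • z + b • unitAt e D j') ?_
  have h1 : unitAt e D j' = (a * (P : ℤ) + b * (p : ℤ)) • unitAt e D j' := by rw [hab, one_smul]
  rw [add_smul, mul_smul, mul_smul, natCast_zsmul, natCast_zsmul, ← hfg'] at h1
  rw [smul_add, smul_comm p a, smul_comm p b]
  exact h1.symm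

end TelUnit

/-! ## The `p`-local sphere -/

section TelSphere

/-- The degrees of the structure maps of the `p`-local sphere: `n + 1` if this is prime to `p`. -/
def telDeg (p n : ℕ) : ℕ := if p ∣ n + 1 then 1 else n + 1

lemma telDeg_ne_zero (p n : ℕ) : telDeg p n ≠ 0 := by
  unfold telDeg
  split_ifs <;> omega

lemma not_dvd_telDeg {p : ℕ} (hp : p.Prime) (n : ℕ) : ¬ p ∣ telDeg p n := by
  unfold telDeg
  split_ifs with h
  · exact hp.one_lt.ne' ∘ Nat.dvd_one.1
  · exact h

lemma exists_dvd_telDeg {p : ℕ} (hp : p.Prime) (q : ℕ) (hq : q.Prime) (hqp : q ≠ p) (n : ℕ) :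
    ∃ n', n ≤ n' ∧ q ∣ telDeg p n' := by
  have h1 : n + 1 < q ^ (n + 1) := Nat.lt_pow_self hq.one_lt
  refine ⟨q ^ (n + 1) - 1, by omega, ?_⟩
  have h2 : q ^ (n + 1) - 1 + 1 = q ^ (n + 1) := by omega
  unfold telDeg
  rw [h2, if_neg]
  · exact dvd_pow_self q (Nat.succ_ne_zero n)
  · intro h
    exact hqp ((Nat.prime_dvd_prime_iff_eq hp hq).1 (hp.dvd_of_dvd_pow h)).symm

variable {G : Type} [Group G] [Subsingleton G] {N : Type} [MulAction G N] [DecidableEq N]
  [Fintype N]

/-- **Criterion**: if `sh² X₀` "contains the sphere spectrum" in the sense of `UnitData`, with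
surjective maps `cell n`, then the telescope of `X₀` with the degrees `telDeg p` is `p`-local, it is not
a zero object of the stable homotopy category, it is not `p'`-local for any prime `p' ≠ p`, and its
group `π_{k+2}^{1}(sh² -)`, `k + 2 = 2|N|`, is not a torsion group. -/
theorem UnitData.tel_spec {X₀ : GSpt G N} (D : UnitData ((GSpt.shIter 2).obj X₀))
    (hs : ∀ n, Function.Surjective (D.cell n)) {k : ℕ} (e : Fin 2 × N ≃ Fin (k + 2)) (i₀ : N)
    {p : ℕ} (hp : p.Prime) :
    (X₀.tel i₀ (telDeg p)).IsPLocal p ∧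
      ¬ Limits.IsZero (GSH.Q.obj (X₀.tel i₀ (telDeg p))) ∧
      (∀ p' : ℕ, p' ≠ p → ¬ (X₀.tel i₀ (telDeg p)).IsPLocal p') ∧
      ∃ x : (GSpt.stablePi ⊥ k).obj ((GSpt.shIter 2).obj (X₀.tel i₀ (telDeg p))),
        ∀ a : ℕ, 0 < a → a • x ≠ 0 := by
  have key : ∃ x : (GSpt.stablePi ⊥ k).obj ((GSpt.shIter 2).obj (X₀.tel i₀ (telDeg p))),
      (∀ a : ℕ, 0 < a → a • x ≠ 0) ∧ ∀ y, p • y ≠ x := by
    rw [GSpt.shIter_tel]
    exact ⟨Limits.colimit.ι (unitSeq _ k) 0 (telUnitAt e D i₀ _ 0),
      fun a ha => colimit_tel_nsmul_unit_ne_zero e D i₀ _ hs (fun i => telDeg_ne_zero p _) a ha.ne',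
      fun y => colimit_tel_unit_ne_nsmul e D i₀ _ hs p hp (fun i => not_dvd_telDeg hp _) y⟩
  obtain ⟨x, hx1, hx2⟩ := key
  refine ⟨GSpt.isPLocal_tel X₀ i₀ _ p (exists_dvd_telDeg hp), ?_, ?_, x, hx1⟩
  · refine not_isZero_of_stablePi (H := ⊥) (k := k) (m := 2) fun hsub => ?_
    exact hx1 1 one_pos (hsub.elim _ _)
  · intro p' hp' h
    obtain ⟨y, hy⟩ := (h ⊥ k 2 p hp (Ne.symm hp')).2 x
    exact hx2 y hy

end TelSphere

/-! ## The theorems -/

section Main3

/-- **`IsPLocal p` has non-zero examples**: for the trivial group `G` and every prime `p` there is a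
genuine `G`-spectrum (the telescope `𝕊_{(p)}` of the sphere spectrum) which is `p`-local, which is not a
zero object of `GSH G G`, and which is not `p'`-local for any `p' ≠ p`.  So the predicates `IsPLocal p` for
different `p` are different, and none of them only holds for zero objects. -/
theorem exists_isPLocal_not_isZero (G : Type) [Group G] [Subsingleton G] {p : ℕ} (hp : p.Prime) :
    ∃ X : GSpt G G, X.IsPLocal p ∧ ¬ Limits.IsZero (GSH.Q.obj X) ∧
      ∀ p' : ℕ, p' ≠ p → ¬ X.IsPLocal p' := by
  classical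
  have := Fintype.ofFinite G
  have hcard : Nat.card (Fin 2 × G) = 0 + 2 := by
    rw [Nat.card_prod, Nat.card_fin, Nat.card_of_subsingleton (1 : G)]
  obtain ⟨h1, h2, h3, -⟩ := (sphereUnitData G).tel_spec (sphereUnitData_surjective G)
    (Finite.equivFinOfCardEq hcard) 1 hp
  exact ⟨_, h1, h2, h3⟩

/-- The same in the categories `Spt d`, `d = [G : H]`, in which the geometric fixed points `Φ^H X` live:
the telescope `(Φ^H 𝕊)_{(p)}` is `p`-local, not zero, not `p'`-local for `p' ≠ p`, and not rationally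
acyclic. -/
theorem exists_isPLocal_not_isZero_spt {G : Type} [Group G] [Finite G] (H : Subgroup G) {p : ℕ}
    (hp : p.Prime) :
    ∃ A : Spt (orbitCount H G), A.IsPLocal p ∧ ¬ Limits.IsZero (GSH.Q.obj A) ∧
      (∀ p' : ℕ, p' ≠ p → ¬ A.IsPLocal p') ∧ ¬ A.RationallyAcyclic := by
  have := Fintype.ofFinite G
  have hc : 0 < orbitCount H G := by
    have : Nonempty (MulAction.orbitRel.Quotient H G) := ⟨Quotient.mk _ 1⟩
    have : Finite (MulAction.orbitRel.Quotient H G) := Quotient.finite _
    exact Nat.card_pos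
  have hcard : Nat.card (Fin 2 × Fin (orbitCount H G)) = 2 * orbitCount H G - 2 + 2 := by
    rw [Nat.card_prod, Nat.card_fin, Nat.card_fin]
    omega
  obtain ⟨h1, h2, h3, x, hx⟩ := (geomUnitData G H).tel_spec (geomUnitData_surjective G H)
    (Finite.equivFinOfCardEq hcard) ⟨0, hc⟩ hp
  refine ⟨_, h1, h2, h3, fun h => ?_⟩
  have h' := h (2 * orbitCount H G - 2) 2
  rw [Subsingleton.elim (⊤ : Subgroup PUnit.{1}) ⊥] at h'
  obtain ⟨a, ha, hax⟩ := h' x
  exact hx a ha hax

end Main3

end

end Claimed.Open.R314
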