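import Claimed.Open.R314.SanityOmega
import Claimed.Open.R314.SanityOrbit

/-!
# Result 314: `GeomAcyclic K i H 𝕊_G` fails for all Morava `K`-theories

`SanityEvery.lean` shows that `GeomAcyclic K i H 𝕊_G`, `i ≥ 1`, fails if `K i` is the sphere ring spectrum.  This file
shows it **for the theories about which `Statement` speaks**: for every family `K` with `(K i).IsMoravaK p i`, `i ≥ 1`,
every finite group `G`, every subgroup `H` and every height `i`.

* `unitHom R : 𝕊 → R`: the unit map of the underlying spectra of a symmetric ring spectrum `R`,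
  `[z_0, …, z_{n-1}] ↦ ι(z_0) ⋯ ι(z_{n-1})` (`unitProd`); it commutes with the structure maps;
* `everyMapHom f d : every d X → every d Y`: `Spt.every d` on maps of spectra (`map_strIter`);
* `not_homotopic_unitGen`: if `R` is an `Ω`-spectrum and `π_0(R_0) ≠ 0`, the unit maps `S^M → R_M` are essential, for all `M`
  (they are the iterated suspensions of `1 ∈ R_0`, `unitProd_eq_sigDiag`, which reflect homotopies by `SanityOmega.lean`; and
  `1` is not in the path component of the base point, because `x = x·1`: `subsingleton_pi_zero_of_homotopic`);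
* `exists_homotopic_const_of_map_unit_eq_zero`: a map of spectra which kills the unit of a structure `UnitData` is
  null-homotopic on a cell at some level;
* `geomUnitHom_unit_ne_zero`: the map `Φ^H 𝕊_G ≅ every [G:H] 𝕊 → every [G:H] R` does not kill the unit of `π_0(Φ^H 𝕊_G)`;
* `not_cohomologyVanishes_geomFix_sphere_of_isOmega`: `R^*(Φ^H 𝕊_G) ≠ 0` for every ring `Ω`-spectrum `R` with `π_0(R_0) ≠ 0`;
* `not_geomAcyclic_sphere_of_isMoravaK`: **`GeomAcyclic K i H 𝕊_G` fails for all `i`, `H`**, for Morava `K`-theories `K i`;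
* `geomAcyclic_orbit_iff_of_isMoravaK`: **`GeomAcyclic K i A (Σ^∞ (G/B)₊)` holds iff `A` is not subconjugate to `B`**, at every height
  `i`;
* `premise_and_not_conclusion_orbit_of_isMoravaK`: if `A` is not subconjugate to `B`, the premise `GeomAcyclic K m A X` and the negation
  of the conclusion `GeomAcyclic K n B X` of `AcyclicityImplication p K A m B n` hold together for `X = Σ^∞ (G/B)₊`, for all `m`, `n`.
  (`𝕊_G` and `Σ^∞ (G/B)₊` are not `p`-local, so they are not test objects of `Statement`.)
-/

open CategoryTheory Topology unitInterval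
open scoped Topology.Homotopy

namespace Claimed.Open.R314

noncomputable section

set_option linter.unusedSectionVars false

open SphereRing

/-! ## The unit map `𝕊 → R` of a symmetric ring spectrum -/

section UnitMap

variable (R : SymRing)

/-- `(z_0, …, z_{n-1}) ↦ ι(z_0) ⋯ ι(z_{n-1})`. -/
def unitProd : ∀ n : ℕ, (Fin n → I) → R.space n
  | 0, _ => R.one
  | n + 1, z => R.mul n 1 (unitProd n (Fin.init z)) (R.ι (z (Fin.last n)))

lemma continuous_unitProd (n : ℕ) : Continuous (unitProd R n) := by
  induction n with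
  | zero => exact continuous_const
  | succ n ih =>
    have h1 : Continuous fun z : Fin (n + 1) → I => (Fin.init z : Fin n → I) :=
      continuous_pi fun i => continuous_apply _
    exact (R.str_cont n).comp ((ih.comp h1).prodMk (continuous_apply _))

lemma unitProd_boundary (n : ℕ) (z : Fin n → I) (hz : ∃ i, z i = 0 ∨ z i = 1) :
    unitProd R n z = R.base n := by
  induction n with
  | zero => exact hz.choose.elim0
  | succ n ih =>
    obtain ⟨i, hi⟩ := hz
    show R.mul n 1 (unitProd R n (Fin.init z)) (R.ι (z (Fin.last n))) = _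
    induction i using Fin.lastCases with
    | last =>
      rcases hi with hi | hi
      · rw [hi, R.ι.source, R.mul_base_right]
      · rw [hi, R.ι.target, R.mul_base_right]
    | cast i => rw [ih (Fin.init z) ⟨i, hi⟩, R.mul_base_left]

/-- On representatives. -/
def unitRep (n : ℕ) (p : Rep n) : R.space n := if p.2 = true then unitProd R n p.1 else R.base n

lemma unitRep_isB (n : ℕ) {p : Rep n} (h : IsB p) : unitRep R n p = R.base n := by
  obtain ⟨z, b⟩ := p
  cases b
  · rfl
  · rcases h with h | h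
    · exact unitProd_boundary R n z h
    · exact absurd h (by simp)

lemma continuous_unitRep (n : ℕ) : Continuous (unitRep R n) := by
  show Continuous fun p : (Fin n → I) × Bool => unitRep R n p
  rw [continuous_prod_of_discrete_right]
  intro b
  cases b
  · exact continuous_const
  · exact continuous_unitProd R n

/-- The unit map in level `n`. -/
def unitMap (n : ℕ) : C(SymRing.sphere.toSpt.space n, R.toSpt.space n) where
  toFun := Quot.lift (unitRep R n) (fun p q h => by rw [unitRep_isB R n h.1, unitRep_isB R n h.2])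
  continuous_toFun := continuous_quot_lift _ (continuous_unitRep R n)

lemma unitMap_mk (n : ℕ) (z : Fin n → I) :
    unitMap R n (SphereRing.mk (z, true)) = unitProd R n z := rfl

/-- **The unit map `𝕊 → R`** of underlying spectra. -/
def unitHom : SymRing.sphere.toSpt ⟶ R.toSpt where
  map := unitMap R
  map_base _ := rfl
  map_smul _ _ _ := rfl
  comm n x t := by
    induction x using Quot.ind with
    | mk p =>
      obtain ⟨z, b⟩ := p
      cases b
      · exact (R.mul_base_left n 1 _).symm
      · show unitProd R (n + 1) (Fin.append z (fun _ : Fin 1 => t 0)) =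
          R.mul n 1 (unitProd R n z) (R.ι (t 0))
        show R.mul n 1 (unitProd R n (Fin.init (Fin.append z (fun _ : Fin 1 => t 0))))
          (R.ι (Fin.append z (fun _ : Fin 1 => t 0) (Fin.last n))) = _
        rw [Fin.append_right_eq_snoc, Fin.init_snoc, Fin.snoc_last]

end UnitMap

/-! ## `Spt.every d` on maps -/

section EveryMap

variable {X Y : Spt 1} (f : X ⟶ Y)

lemma map_strIter (m j : ℕ) (x : X.space m) (t : Fin j → I) :
    f.map (m + j) (Spt.strIter X m j x t) = Spt.strIter Y m j (f.map m x) t := by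
  induction j with
  | zero => rfl
  | succ j ih =>
    show f.map (m + j + 1) (X.str (m + j) (Spt.strIter X m j x (Fin.tail t)) (fun _ => t 0)) =
      Y.str (m + j) (Spt.strIter Y m j (f.map m x) (Fin.tail t)) (fun _ => t 0)
    rw [f.comm, ih]

/-- `Spt.every d` on maps of spectra. -/
def everyMapHom (d : ℕ) : Spt.every d X ⟶ Spt.every d Y where
  map n := f.map (d * n)
  map_base n := f.map_base (d * n)
  map_smul _ _ _ := rfl
  comm n x t := map_strIter f (d * n) d x t

end EveryMap

/-! ## The unit maps `S^M → R_M` are essential -/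

/-- Renumbering the coordinates does not change null-homotopy. -/
lemma homotopic_const_of_reindex {M m : ℕ} (π : Fin M ≃ Fin m) {Y : Type} [TopologicalSpace Y]
    {y₀ : Y} (V : Ω^ (Fin M) Y y₀) (L : Ω^ (Fin m) Y y₀) (hL : ∀ x, L x = V (fun i => x (π i)))
    (h : GenLoop.Homotopic L GenLoop.const) : GenLoop.Homotopic V GenLoop.const := by
  obtain ⟨Hh⟩ := h
  have hz : ∀ z : Fin M → I, (fun i => z (π.symm (π i))) = z := fun z => by simp
  refine ⟨⟨⟨⟨fun a => Hh (a.1, fun j => a.2 (π.symm j)), ?_⟩, ?_, ?_⟩, ?_⟩⟩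
  · exact Hh.continuous.comp (continuous_fst.prodMk
      (continuous_pi fun j => (continuous_apply _).comp continuous_snd))
  · intro z
    show Hh (0, fun j => z (π.symm j)) = _
    rw [Hh.apply_zero]
    show L (fun j => z (π.symm j)) = V z
    rw [hL, hz]
  · intro z
    show Hh (1, fun j => z (π.symm j)) = _
    rw [Hh.apply_one]
    rfl
  · rintro τ z ⟨i, hi⟩
    show Hh (τ, fun j => z (π.symm j)) = V z
    have hb : (fun j => z (π.symm j)) ∈ Cube.boundary (Fin m) := ⟨π i, by simpa using hi⟩
    rw [Hh.eq_fst τ hb]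
    show L (fun j => z (π.symm j)) = V z
    rw [hL, hz]

section Essential

variable (R : SymRing)

/-- A point of `R_0` as a `0`-fold loop. -/
def pointLoop (x : R.space 0) : Ω^ (Fin 0) (R.toSpt.space 0) (R.toSpt.base 0) :=
  ⟨ContinuousMap.const _ x, fun _ ht => ht.choose.elim0⟩

lemma sigDiag_base (j : ℕ) : sigDiag R.toSpt (pointLoop R (R.base 0)) j = GenLoop.const := by
  induction j with
  | zero => rfl
  | succ j ih =>
    ext x
    show R.toSpt.str j (sigDiag R.toSpt (pointLoop R (R.base 0)) j (fun i => x i.succ))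
      (fun _ => x 0) = _
    rw [ih]
    exact R.toSpt.str_base j _

/-- The unit map `I^M → R_M` is the iterated suspension of `1 ∈ R_0`, with the coordinates in the reverse
order. -/
lemma unitProd_eq_sigDiag (M : ℕ) (z : Fin M → I) :
    unitProd R M z = sigDiag R.toSpt (pointLoop R R.one) M (fun i => z (Fin.rev i)) := by
  induction M with
  | zero => rfl
  | succ M ih =>
    show R.mul M 1 (unitProd R M (Fin.init z)) (R.ι (z (Fin.last M))) =
      R.mul M 1 (sigDiag R.toSpt (pointLoop R R.one) M (fun i => z (Fin.rev i.succ)))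
        (R.ι (z (Fin.rev 0)))
    rw [ih, Fin.rev_zero]
    congr 2
    funext i
    rw [Fin.rev_succ]
    rfl

/-- If `1` and the base point of `R_0` are in the same path component, then `π_0(R_0)` is trivial. -/
lemma subsingleton_pi_zero_of_homotopic
    (h : GenLoop.Homotopic (pointLoop R R.one) (pointLoop R (R.base 0))) :
    Subsingleton (HomotopyGroup (Fin 0) (R.space 0) (R.base 0)) := by
  obtain ⟨Hh⟩ := h
  have key : ∀ Γ : Ω^ (Fin 0) (R.space 0) (R.base 0),
      GenLoop.Homotopic Γ (pointLoop R (R.base 0)) := by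
    intro Γ
    refine ⟨⟨⟨⟨fun a => R.mul 0 0 (Γ a.2) (Hh a), ?_⟩, ?_, ?_⟩, ?_⟩⟩
    · have h1 : (fun a : I × (Fin 0 → I) => R.mul 0 0 (Γ a.2) (Hh a)) =
          fun a => R.mul 0 0 (Γ default) (Hh a) := by
        funext a
        rw [Subsingleton.elim a.2 default]
      rw [h1]
      exact (R.mul_cont_right 0 0 (Γ default)).comp Hh.continuous
    · intro z
      show R.mul 0 0 (Γ z) (Hh (0, z)) = Γ z
      rw [Hh.apply_zero]
      exact R.mul_one 0 (Γ z)
    · intro z
      show R.mul 0 0 (Γ z) (Hh (1, z)) = _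
      rw [Hh.apply_one]
      exact R.mul_base_right 0 0 (Γ z)
    · rintro τ z ⟨i, -⟩
      exact i.elim0
  refine ⟨?_⟩
  rintro ⟨Γ⟩ ⟨Γ'⟩
  exact Quotient.sound ((key Γ).trans (key Γ').symm)

/-- The unit map `I^M/∂ → R_M` as a loop. -/
def unitGen (M : ℕ) : Ω^ (Fin M) (R.toSpt.space M) (R.toSpt.base M) :=
  ⟨⟨unitProd R M, continuous_unitProd R M⟩, fun z hz => unitProd_boundary R M z hz⟩

/-- **The unit maps `S^M → R_M` of a non-zero ring `Ω`-spectrum are essential.** -/
theorem not_homotopic_unitGen (hΩ : R.toSpt.IsOmega)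
    (h0 : ¬ Subsingleton (HomotopyGroup (Fin 0) (R.space 0) (R.base 0))) (M : ℕ) :
    ¬ GenLoop.Homotopic (unitGen R M) GenLoop.const := by
  intro h
  have h1 : GenLoop.Homotopic (sigDiag R.toSpt (pointLoop R R.one) M) GenLoop.const :=
    homotopic_const_of_reindex Fin.revPerm _ (unitGen R M)
      (fun x => unitProd_eq_sigDiag R M x) h
  rw [← sigDiag_base R M] at h1
  exact h0 (subsingleton_pi_zero_of_homotopic R (homotopic_of_sigDiag R.toSpt hΩ M h1))

end Essential

/-! ## Detection of a map of spectra on the unit -/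

section Detect

variable {G : Type} [Group G] {N : Type} [MulAction G N] [Fintype N]
variable {k : ℕ} (e : Fin 2 × N ≃ Fin (k + 2))

/-- If a map of spectra `f : X → Y` kills the unit of a structure `UnitData` on `X` in `π_{k+2}^1`, then at some
level `j` the composite `I^{(j+2)·N} → X_j → Y_j` of the cell with `f` is null-homotopic. -/
lemma exists_homotopic_const_of_map_unit_eq_zero {X Y : GSpt G N} (D : UnitData X) (f : X ⟶ Y)
    (h : ((GSpt.stablePi ⊥ k).map f).hom (Limits.colimit.ι (unitSeq X k) 0 (unitAt e D 0)) = 0) :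
    ∃ j : ℕ, ∀ (m : ℕ) (ε : Fin (j + 1 + 1) × N ≃ Fin m),
      GenLoop.Homotopic (mapLoop (f.map j) (f.map_base j)
        (uncurryLoop (unitSplit e j ε) (unitLoop e D j))) GenLoop.const := by
  let α : unitSeq X k ⟶ unitSeq Y k :=
    Functor.whiskerRight ((GSpt.piSeq ⊥ k).map f) CommGrpCat.toAddCommGrp
  have h1 : Limits.colimit.ι (unitSeq X k) 0 ≫ (GSpt.stablePi ⊥ k).map f =
      α.app 0 ≫ Limits.colimit.ι (unitSeq Y k) 0 := Limits.ι_colimMap _ 0
  have h2 := ConcreteCategory.congr_hom h1 (unitAt e D 0)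
  have h3 : Limits.colimit.ι (unitSeq Y k) 0 (α.app 0 (unitAt e D 0)) =
      Limits.colimit.ι (unitSeq Y k) 0 0 := by
    rw [map_zero]
    exact h2.symm.trans h
  obtain ⟨j, φ, ψ, hφ⟩ := (Limits.Concrete.colimit_rep_eq_iff_exists (unitSeq Y k) _ _).1 h3
  have h4 : (unitSeq Y k).map φ (α.app 0 (unitAt e D 0)) = α.app j (unitAt e D j) := by
    have := ConcreteCategory.congr_hom (α.naturality φ) (unitAt e D 0)
    rw [← unitSeq_map e D j φ]
    exact this.symm
  rw [h4, map_zero] at hφ
  have h5 : piMk (mapLoop (GSpt.loopFixMap f ⊥ j) (GSpt.loopFixMap_base f ⊥ j) (unitLoop e D j)) =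
      piMk GenLoop.const := hφ
  refine ⟨j, fun m ε => ?_⟩
  exact uncurryLoop_homotopic (unitSplit e j ε) (Quotient.exact h5)

end Detect

/-! ## `R^*(Φ^H 𝕊_G) ≠ 0` -/

section Main

variable (G : Type) [Group G] [Fintype G] (H : Subgroup G)

lemma everyInv_geomCell (n : ℕ) (y : Fin n × Fin (orbitCount H G) → I) :
    (everyInv G H).map n (geomCell G H n y) =
      SphereRing.mk (fun i => y ((tauEquiv _ n).symm i), true) := by
  refine (everyHomeo G H n).symm_apply_eq.2 ?_
  refine Subtype.ext (congrArg (Quot.mk _) (Prod.ext ?_ rfl))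
  funext q
  show y (q.1, orbIdx G H q.2) = y ((tauEquiv _ n).symm (tauEquiv _ n (q.1, orbIdx G H q.2)))
  rw [Equiv.symm_apply_apply]

variable (R : SymRing)

/-- The map `Φ^H 𝕊_G ≅ every [G:H] 𝕊 → every [G:H] R` induced by the unit of `R`. -/
def geomUnitHom : (GSpt.sphere G).geomFix H ⟶ Spt.every (orbitCount H G) R.toSpt :=
  everyInv G H ≫ everyMapHom (unitHom R) (orbitCount H G)

lemma geomUnitHom_geomCell (n : ℕ) (y : Fin n × Fin (orbitCount H G) → I) :
    (geomUnitHom G H R).map n (geomCell G H n y) =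
      unitProd R (orbitCount H G * n) (fun i => y ((tauEquiv _ n).symm i)) := by
  show unitMap R (orbitCount H G * n) ((everyInv G H).map n (geomCell G H n y)) = _
  rw [everyInv_geomCell]
  rfl

/-- The unit of `Φ^H 𝕊_G` is not killed by the map to `every [G:H] R`, if `R` is a non-zero ring
`Ω`-spectrum. -/
theorem geomUnitHom_unit_ne_zero (hΩ : R.toSpt.IsOmega)
    (h0 : ¬ Subsingleton (HomotopyGroup (Fin 0) (R.space 0) (R.base 0))) {k : ℕ}
    (e : Fin 2 × Fin (orbitCount H G) ≃ Fin (k + 2)) :
    ((GSpt.stablePi ⊥ k).map ((GSpt.shIter 2).map (geomUnitHom G H R))).hom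
      (Limits.colimit.ι (unitSeq _ k) 0 (unitAt e (geomUnitData G H) 0)) ≠ 0 := by
  intro h
  obtain ⟨j, hj⟩ := exists_homotopic_const_of_map_unit_eq_zero e (geomUnitData G H)
    ((GSpt.shIter 2).map (geomUnitHom G H R)) h
  let ε := Fintype.equivFin (Fin (j + 1 + 1) × Fin (orbitCount H G))
  refine not_homotopic_unitGen R hΩ h0 (orbitCount H G * (j + 1 + 1))
    (homotopic_const_of_reindex ((tauEquiv _ (j + 1 + 1)).symm.trans ε) _ _ (fun x => ?_) (hj _ ε))
  show (geomUnitHom G H R).map (j + 1 + 1)
    (uncurryLoop (unitSplit e j ε) (unitLoop e (geomUnitData G H) j) x) = _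
  rw [uncurryLoop_unitLoop]
  exact geomUnitHom_geomCell G H R (j + 1 + 1) _

end Main

section Main2

variable {G : Type} [Group G] [Finite G] (H : Subgroup G)

/-- A map of spectra which factors through the point spectrum induces `0` on the groups `stablePi`. -/
lemma stablePi_map_through_pt {G' : Type} [Group G'] {N : Type} [MulAction G' N] {X Y : GSpt G' N}
    (L : Subgroup G') (k m : ℕ) (x : (GSpt.stablePi L k).obj ((GSpt.shIter m).obj X)) :
    ((GSpt.stablePi L k).map ((GSpt.shIter m).map
      (GSpt.toTrivial (GSpt.isTrivial_pt (G := G') (N := N)) X ≫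
        GSpt.fromTrivial (GSpt.isTrivial_pt (G := G') (N := N)) Y))).hom x = 0 := by
  have hs : Subsingleton ((GSpt.stablePi L k).obj ((GSpt.shIter m).obj (GSpt.pt G' N))) :=
    ((GSpt.isTrivial_pt (G := G') (N := N)).shIter m).subsingleton_stablePi L k
  rw [CategoryTheory.Functor.map_comp, CategoryTheory.Functor.map_comp]
  show ((GSpt.stablePi L k).map ((GSpt.shIter m).map (GSpt.fromTrivial _ Y))).hom
    (((GSpt.stablePi L k).map ((GSpt.shIter m).map (GSpt.toTrivial _ X))).hom x) = 0
  rw [hs.elim (((GSpt.stablePi L k).map ((GSpt.shIter m).map (GSpt.toTrivial _ X))).hom x) 0,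
    map_zero]

/-- **`R^*(Φ^H 𝕊_G) ≠ 0` for every non-zero ring `Ω`-spectrum `R`**, every finite group `G` and every subgroup
`H`: the unit of `R` is a non-zero class in `R^0(Φ^H 𝕊_G)`. -/
theorem not_cohomologyVanishes_geomFix_sphere_of_isOmega (R : SymRing) (hΩ : R.toSpt.IsOmega)
    (h0 : ¬ Subsingleton (HomotopyGroup (Fin 0) (R.space 0) (R.base 0))) :
    ¬ ((GSpt.sphere G).geomFix H).CohomologyVanishes R.toSpt := by
  have := Fintype.ofFinite G
  intro hv
  have hc : 0 < orbitCount H G := orbitCount_pos H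
  have hcard : Nat.card (Fin 2 × Fin (orbitCount H G)) = 2 * orbitCount H G - 2 + 2 := by
    rw [Nat.card_prod, Nat.card_fin, Nat.card_fin]
    omega
  have hQ : GSH.Q.map (geomUnitHom G H R) = GSH.Q.map
      (GSpt.toTrivial (GSpt.isTrivial_pt (G := PUnit.{1}) (N := Fin (orbitCount H G))) _ ≫
        GSpt.fromTrivial (GSpt.isTrivial_pt (G := PUnit.{1}) (N := Fin (orbitCount H G))) _) :=
    (hv 0).elim _ _
  have hπ := congrArg (GSH.pi (⊥ : Subgroup PUnit.{1}) (2 * orbitCount H G - 2) 2).map hQ
  have hπ' : (GSpt.stablePi ⊥ (2 * orbitCount H G - 2)).map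
      ((GSpt.shIter 2).map (geomUnitHom G H R)) =
      (GSpt.stablePi ⊥ (2 * orbitCount H G - 2)).map ((GSpt.shIter 2).map
        (GSpt.toTrivial (GSpt.isTrivial_pt (G := PUnit.{1}) (N := Fin (orbitCount H G))) _ ≫
          GSpt.fromTrivial (GSpt.isTrivial_pt (G := PUnit.{1}) (N := Fin (orbitCount H G))) _)) :=
    hπ
  refine geomUnitHom_unit_ne_zero G H R hΩ h0 (Finite.equivFinOfCardEq hcard) ?_
  rw [hπ']
  exact stablePi_map_through_pt _ _ _ _

/-- **`K(i)^*(Φ^H 𝕊_G) ≠ 0` for every Morava `K`-theory.** -/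
theorem SymRing.IsMoravaK.not_cohomologyVanishes_geomFix_sphere {R : SymRing} {p n : ℕ}
    (h : R.IsMoravaK p n) (hp : p.Prime) :
    ¬ ((GSpt.sphere G).geomFix H).CohomologyVanishes R.toSpt := by
  refine not_cohomologyVanishes_geomFix_sphere_of_isOmega H R h.1 ?_
  intro hs
  have h1 := Finite.card_le_one_iff_subsingleton.mpr hs
  have h2 := hp.two_le
  have h3 := h.2.1
  omega

/-- **`GeomAcyclic K i H 𝕊_G` fails for every family `K` of Morava `K`-theories as in `Statement`, at every
height `i` and for every subgroup `H`.** -/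
theorem not_geomAcyclic_sphere_of_isMoravaK {p : ℕ} (hp : p.Prime) (K : ℕ → SymRing)
    (hK : ∀ i, 1 ≤ i → (K i).IsMoravaK p i) (i : ℕ) : ¬ GeomAcyclic K i H (GSpt.sphere G) := by
  by_cases hi : i = 0
  · subst hi
    exact not_geomAcyclic_zero_sphere H K
  · unfold GeomAcyclic
    rw [if_neg hi]
    exact (hK i (Nat.one_le_iff_ne_zero.2 hi)).not_cohomologyVanishes_geomFix_sphere H hp

/-- **`GeomAcyclic K i A (Σ^∞ (G/B)₊)` holds iff `A` is not subconjugate to `B`**, at every height `i`, for every
family `K` of Morava `K`-theories as in `Statement`. -/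
theorem geomAcyclic_orbit_iff_of_isMoravaK {p : ℕ} (hp : p.Prime) (K : ℕ → SymRing)
    (hK : ∀ i, 1 ≤ i → (K i).IsMoravaK p i) (i : ℕ) (A B : Subgroup G) :
    GeomAcyclic K i A (GSpt.orbit G B) ↔ ¬ ∃ g : G, A.map (MulAut.conj g).toMonoidHom ≤ B := by
  refine ⟨fun h h' => ?_, geomAcyclic_orbit A B K i⟩
  obtain ⟨j, r, hjr⟩ := exists_retract_geomFix_orbit A B h'
  refine not_geomAcyclic_sphere_of_isMoravaK A hp K hK i ?_
  unfold GeomAcyclic at h ⊢
  by_cases hi : i = 0
  · rw [if_pos hi] at h ⊢
    exact h.of_retract j r hjr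
  · rw [if_neg hi] at h ⊢
    exact h.of_retract j r hjr

/-- Premise and negated conclusion of `AcyclicityImplication p K A m B n` hold together for the orbit spectrum
`Σ^∞ (G/B)₊`, for all heights `m`, `n`, if `A` is not subconjugate to `B`. -/
theorem premise_and_not_conclusion_orbit_of_isMoravaK {p : ℕ} (hp : p.Prime) (K : ℕ → SymRing)
    (hK : ∀ i, 1 ≤ i → (K i).IsMoravaK p i) (m n : ℕ) (A B : Subgroup G)
    (h : ¬ ∃ g : G, A.map (MulAut.conj g).toMonoidHom ≤ B) :
    GeomAcyclic K m A (GSpt.orbit G B) ∧ ¬ GeomAcyclic K n B (GSpt.orbit G B) :=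
  ⟨geomAcyclic_orbit A B K m h, fun h' =>
    (geomAcyclic_orbit_iff_of_isMoravaK hp K hK n B B).1 h' ⟨1, by
      rintro _ ⟨b, hb, rfl⟩
      simpa [MulAut.conj_apply] using hb⟩⟩

end Main2

end

end Claimed.Open.R314
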