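import Claimed.Open.R314.SanityRfl

/-!
# Result 314: the space-level form of the statement

This file is **not** part of `Statement`.  It contains an elementary form of Theorem 1.1 and
Corollary 7.5 of the paper, in which

* the test objects are finite pointed `G`-CW complexes `X` (for their suspension spectra one has
  `Φ^H Σ^∞ X = Σ^∞ X^H`), instead of all finite `p`-local genuine `G`-spectra, and
* Morava `K`-theories are multiplicative cohomology theories on spaces with the standard properties
  (coefficient ring `𝔽_p[v_n^{±1}]`, complex oriented, `[p](x) = v_n x^{p^n}`).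

This is the classical form of the "chromatic Smith problem" (Kuhn–Lloyd).  `CLAIM.md` explains why
`SpaceLevelStatement` is equivalent to `Statement`; this equivalence is not proved here.  The file is
kept because many more consequences of the definitions can be checked for it
(`SpaceLevelSanity.lean`, `SpaceLevelGCW.lean`, `SanityCohomology.lean`).

1. unreduced mapping cones, linear embeddings of projective spaces;
2. multiplicative generalized cohomology theories (`MultCohomologyTheory`);
3. Morava `K`-theories (`MultCohomologyTheory.IsMoravaK`);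
4. finite pointed `G`-CW complexes and their fixed point spaces;
5. the space-level statement.
-/

namespace Claimed.Open.R314

open Topology Metric

noncomputable section

/-! ## 1. Mapping cones and linear embeddings of projective spaces -/

section Spaces

variable {X Y : Type} [TopologicalSpace X] [TopologicalSpace Y]

/-- The relation which generates the unreduced mapping cone of `f : X → Y` on the disjoint union
`pt ⊔ (X × [0,1]) ⊔ Y`: `(x, 0) ∼ pt` and `(x, 1) ∼ f x`. -/
inductive MappingCone.Rel (f : C(X, Y)) :
    (Unit ⊕ (X × unitInterval) ⊕ Y) → (Unit ⊕ (X × unitInterval) ⊕ Y) → Prop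
  | apex (x : X) : MappingCone.Rel f (.inr (.inl (x, 0))) (.inl ())
  | base (x : X) : MappingCone.Rel f (.inr (.inl (x, 1))) (.inr (.inr (f x)))

/-- The unreduced mapping cone `C_f = pt ∪ (X × [0,1]) ∪_f Y` with the quotient topology, that is
the double mapping cylinder of `pt ← X → Y`.  Pointed at its apex it is the reduced mapping cone of
`f₊ : X₊ → Y₊`.  (For `X = ∅` it is `Y₊`.) -/
def MappingCone (f : C(X, Y)) : Type := Quot (MappingCone.Rel f)

instance MappingCone.instTopologicalSpace (f : C(X, Y)) : TopologicalSpace (MappingCone f) :=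
  inferInstanceAs (TopologicalSpace (Quot (MappingCone.Rel f)))

/-- The apex of the mapping cone, as a map from the one-point space. -/
def MappingCone.apex (f : C(X, Y)) : C(Unit, MappingCone f) :=
  ContinuousMap.const Unit (Quot.mk _ (.inl ()))

/-- The inclusion `Y → C_f` of the base of the mapping cone. -/
def MappingCone.incl (f : C(X, Y)) : C(Y, MappingCone f) where
  toFun y := Quot.mk _ (.inr (.inr y))
  continuous_toFun := continuous_quot_mk.comp (continuous_inr.comp continuous_inr)

/-- The linear embedding `CP ι → CP κ` (extension of a vector by zero) which belongs to an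
injection `ι ↪ κ` of coordinate sets.  It pulls `𝒪(1)` back to `𝒪(1)`. -/
def CP.incl {ι κ : Type} (e : ι ↪ κ) : C(CP ι, CP κ) where
  toFun := Quotient.map'
    (fun v : {v : ι → ℂ // v ≠ 0} => (⟨Function.extend e v.1 0, fun h => v.2 (by
      funext i
      have := congrFun h (e i)
      simpa [e.injective.extend_apply] using this)⟩ : {w : κ → ℂ // w ≠ 0}))
    (by
      rintro ⟨v, hv⟩ ⟨w, hw⟩ ⟨u, hu⟩
      refine ⟨u, ?_⟩
      simp only at hu ⊢
      rw [← hu]
      funext k
      by_cases hk : ∃ i, e i = k
      · obtain ⟨i, rfl⟩ := hk
        simp [e.injective.extend_apply]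
      · simp [Function.extend_apply' _ _ _ hk])
  continuous_toFun := by
    refine Continuous.quotient_map' ?_ _
    refine Continuous.subtype_mk ?_ _
    refine continuous_pi fun k => ?_
    by_cases hk : ∃ i, e i = k
    · obtain ⟨i, rfl⟩ := hk
      simp only [e.injective.extend_apply]
      exact (continuous_apply i).comp continuous_subtype_val
    · simpa [Function.extend_apply' _ _ _ hk] using continuous_const

end Spaces

/-! ## 2. Multiplicative generalized cohomology theories -/

/-- A multiplicative generalized cohomology theory `h^*`, in unreduced form, on topological spaces.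

In terms of a reduced theory `h̃^*` on pointed spaces, `h^*(X) = h̃^*(X₊)`.
The data are the total cohomology rings `H X = ⨁_k h^k(X)` (associative and unital, not
necessarily commutative) with their grading `gr X k = h^k(X)`, the induced ring homomorphisms, and
the suspension class `σ ∈ h̃^1(S^1)`.  The conditions are those of Eilenberg and Steenrod without
the dimension condition, in the form for single spaces:

* homotopy invariance;
* exactness of `h̃^*(C_f) → h^*(Y) → h^*(X)` for every map `f : X → Y`, where `C_f` is the
  unreduced mapping cone pointed at its apex (the cofibre of `f₊`);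
* additivity for `X ⊔ Y`;
* the suspension isomorphism `h^k(X) = h̃^k(X₊) ≅ h̃^{k+1}(S^1 ∧ X₊) =
  ker (h^{k+1}(S^1 × X) → h^{k+1}(pt × X))`, which in a multiplicative theory is the product
  with `σ`; and `σ`, which comes from the sphere spectrum, is central in the graded sense.

If `E` is a homotopy associative ring spectrum (with a model by an `Ω`-spectrum of countable CW
complexes `E_k`), then `X ↦ ⨁_k [X, E_k]` is such a theory, on all topological spaces. -/
structure MultCohomologyTheory where
  /-- The total cohomology `H X = ⨁_k h^k(X)` of a space `X`. -/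
  H : (X : Type) → [TopologicalSpace X] → Type
  /-- The cup product makes `H X` an associative unital ring. -/
  [ring : ∀ (X : Type) [TopologicalSpace X], Ring (H X)]
  /-- `gr X k = h^k(X)`, the classes of degree `k`. -/
  gr : (X : Type) → [TopologicalSpace X] → ℤ → AddSubgroup (H X)
  /-- `H X` is the direct sum of the `h^k(X)`, and `h^i(X) · h^j(X) ⊆ h^{i+j}(X)`. -/
  [graded : ∀ (X : Type) [TopologicalSpace X], GradedRing (gr X)]
  /-- The ring homomorphism `f^* : H Y → H X` induced by `f : X → Y`. -/
  map : ∀ {X Y : Type} [TopologicalSpace X] [TopologicalSpace Y], C(X, Y) → (H Y →+* H X)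
  map_id : ∀ (X : Type) [TopologicalSpace X], map (ContinuousMap.id X) = RingHom.id (H X)
  map_comp : ∀ {X Y Z : Type} [TopologicalSpace X] [TopologicalSpace Y] [TopologicalSpace Z]
    (f : C(X, Y)) (g : C(Y, Z)), map (g.comp f) = (map f).comp (map g)
  /-- `f^*` preserves degrees. -/
  map_mem : ∀ {X Y : Type} [TopologicalSpace X] [TopologicalSpace Y] (f : C(X, Y)) (k : ℤ)
    (a : H Y), a ∈ gr Y k → map f a ∈ gr X k
  /-- Homotopy invariance. -/
  map_homotopic : ∀ {X Y : Type} [TopologicalSpace X] [TopologicalSpace Y] (f g : C(X, Y)),
    f.Homotopic g → map f = map g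
  /-- Exactness: a class `b` on `Y` restricts to zero along `f : X → Y` if and only if it extends
  to a class on the mapping cone `C_f` which vanishes at the apex. -/
  exact_cone : ∀ {X Y : Type} [TopologicalSpace X] [TopologicalSpace Y] (f : C(X, Y)) (b : H Y),
    map f b = 0 ↔
      ∃ c : H (MappingCone f), map (MappingCone.apex f) c = 0 ∧ map (MappingCone.incl f) c = b
  /-- Additivity: `H (X ⊔ Y) = H X × H Y`. -/
  additive : ∀ (X Y : Type) [TopologicalSpace X] [TopologicalSpace Y],
    Function.Bijective fun c : H (X ⊕ Y) =>
      (map (⟨Sum.inl, continuous_inl⟩ : C(X, X ⊕ Y)) c,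
        map (⟨Sum.inr, continuous_inr⟩ : C(Y, X ⊕ Y)) c)
  /-- The suspension class `σ ∈ h̃^1(S^1)`, the suspension of `1 ∈ h^0(pt)`. -/
  σ : H Circle
  σ_mem : σ ∈ gr Circle 1
  /-- `σ` is a reduced class. -/
  σ_base : map (ContinuousMap.const Unit (1 : Circle)) σ = 0
  /-- `σ` is central in the graded sense: `a × σ = (-1)^k σ × a` for `a ∈ h^k(X)`. -/
  σ_comm : ∀ (X : Type) [TopologicalSpace X] (k : ℤ) (a : H X), a ∈ gr X k →
    map (ContinuousMap.snd : C(Circle × X, X)) a *
        map (ContinuousMap.fst : C(Circle × X, Circle)) σ =
      (k.negOnePow : ℤ) • (map (ContinuousMap.fst : C(Circle × X, Circle)) σ *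
        map (ContinuousMap.snd : C(Circle × X, X)) a)
  /-- Suspension isomorphism, injectivity: `a ↦ σ × a` is injective on `H X`. -/
  susp_injective : ∀ (X : Type) [TopologicalSpace X],
    Function.Injective fun a : H X =>
      map (ContinuousMap.fst : C(Circle × X, Circle)) σ *
        map (ContinuousMap.snd : C(Circle × X, X)) a
  /-- Suspension isomorphism, surjectivity: every class on `S^1 × X` which vanishes on `1 × X` is
  of the form `σ × a`. -/
  susp_surjective : ∀ (X : Type) [TopologicalSpace X] (b : H (Circle × X)),
    map ((ContinuousMap.const X (1 : Circle)).prodMk (ContinuousMap.id X)) b = 0 →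
      ∃ a : H X, map (ContinuousMap.fst : C(Circle × X, Circle)) σ *
        map (ContinuousMap.snd : C(Circle × X, X)) a = b

attribute [instance] MultCohomologyTheory.ring MultCohomologyTheory.graded

namespace MultCohomologyTheory

variable (K : MultCohomologyTheory)

/-- Restriction of a cohomology class to a point `x` of `X`. -/
def atPt {X : Type} [TopologicalSpace X] (x : X) : K.H X →+* K.H Unit :=
  K.map (ContinuousMap.const Unit x)

/-- The ring homomorphism `h^*(pt) → h^*(X)` which makes `h^*(X)` an algebra over the coefficient
ring `h^*(pt) = K.H Unit`. -/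
def fromPt (X : Type) [TopologicalSpace X] : K.H Unit →+* K.H X :=
  K.map (ContinuousMap.const X ())

/-- The pointed space `(X, x₀)` is acyclic for the theory: its reduced cohomology
`h̃^*(X) = ker (h^*(X) → h^*(x₀))` vanishes. -/
def Acyclic (X : Type) [TopologicalSpace X] (x₀ : X) : Prop :=
  ∀ a : K.H X, K.atPt x₀ a = 0 → a = 0

/-! ## 3. Morava `K`-theories -/

/-- A complex orientation of the theory (Adams, *Stable homotopy and generalised homology*,
II.2): a class `x ∈ h̃^2(ℂP^∞)`, given as a compatible family of classes
`x ι ∈ h̃^2(CP ι)` on the finite projective spaces, whose restriction to `ℂP^1` generates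
`h̃^*(ℂP^1)` freely as a module over the coefficient ring `h^*(pt)`. -/
structure ComplexOrientation where
  /-- The restriction of the orientation class to `CP ι`. -/
  x : (ι : Type) → [Finite ι] → K.H (CP ι)
  /-- It has degree `2`, -/
  x_mem : ∀ (ι : Type) [Finite ι], x ι ∈ K.gr (CP ι) 2
  /-- it is a reduced class, -/
  x_atPt : ∀ (ι : Type) [Finite ι] (q : CP ι), K.atPt q (x ι) = 0
  /-- the classes are compatible with the linear embeddings, -/
  x_incl : ∀ (ι κ : Type) [Finite ι] [Finite κ] (e : ι ↪ κ), K.map (CP.incl e) (x κ) = x ι
  /-- and `h̃^*(ℂP^1)` is free over `h^*(pt)` on the generator `x`. -/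
  x_generates : ∀ a : K.H (CP (Fin 2)), (∀ q : CP (Fin 2), K.atPt q a = 0) →
    ∃! c : K.H Unit, K.fromPt (CP (Fin 2)) c * x (Fin 2) = a

open LaurentPolynomial in
/-- `K` is a Morava `K`-theory `K(n)` at the prime `p`, of height `n ≥ 1`:

* the coefficient ring is `K(n)^*(pt) = 𝔽_p[v_n, v_n⁻¹]`, with `v_n` (the element which corresponds
  to the variable `T`) in homological degree `2(p^n - 1)`, that is in cohomological degree
  `-2(p^n - 1)`;
* `K` is complex oriented and the `p`-series of its formal group law is `[p](x) = v_n x^{p^n}`
  (the Honda formal group law of height `n`). -/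
def IsMoravaKPos (p n : ℕ) : Prop :=
  ∃ (e : K.H Unit ≃+* (ZMod p)[T;T⁻¹]) (o : K.ComplexOrientation),
    (∀ (k : ℤ) (c : K.H Unit), c ∈ K.gr Unit k ↔
      ∀ m : ℤ, (e c).coeff m ≠ 0 → -(2 * ((p : ℤ) ^ n - 1)) * m = k) ∧
    ∀ (ι : Type) [Finite ι],
      K.map (CP.powMap p ι) (o.x ι) = K.fromPt (CP ι) (e.symm (T 1)) * o.x ι ^ p ^ n

/-- `K` is ordinary rational cohomology `Hℚ`: the coefficient ring is `ℚ`, in degree `0`. -/
def IsRational : Prop :=
  Nonempty (K.H Unit ≃+* ℚ) ∧ ∀ k : ℤ, k ≠ 0 → K.gr Unit k = ⊥

/-- `K` is (a model of) the `n`-th Morava `K`-theory `K(n)` at the prime `p`, where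
`K(0) = Hℚ`. -/
def IsMoravaK (p n : ℕ) : Prop :=
  if n = 0 then K.IsRational else K.IsMoravaKPos p n

end MultCohomologyTheory

/-! ## 4. Finite pointed `G`-CW complexes -/

/-- A finite pointed `G`-CW complex, for a discrete group `G`: a Hausdorff space with a finite
CW structure (Mathlib's `Topology.CWComplex`) and an action of `G` which permutes the cells
compatibly with the characteristic maps, `g • Φ_i(t) = Φ_{g • i}(t)`.  Decomposing the `G`-sets
of `n`-cells into orbits `G/K` shows that this is the same as a space built by attaching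
finitely many equivariant cells `G/K × D^n`.  The base point is a `G`-fixed vertex. -/
structure PointedFiniteGCW (G : Type) [Group G] where
  /-- The underlying space. -/
  carrier : Type
  [top : TopologicalSpace carrier]
  [t2 : T2Space carrier]
  /-- The CW structure, -/
  [cw : CWComplex (Set.univ : Set carrier)]
  /-- with finitely many cells. -/
  [finite : CWComplex.Finite (Set.univ : Set carrier)]
  /-- The action of `G` on the space, -/
  [action : MulAction G carrier]
  /-- by homeomorphisms. -/
  [continuous : ContinuousConstSMul G carrier]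
  /-- The action of `G` on the set of `n`-cells. -/
  [cellAction : ∀ n : ℕ, MulAction G (RelCWComplex.cell (Set.univ : Set carrier) n)]
  /-- The characteristic maps are equivariant (`G` acts trivially on the disc). -/
  smul_map : ∀ (g : G) (n : ℕ) (i : RelCWComplex.cell (Set.univ : Set carrier) n) (t : Fin n → ℝ),
    t ∈ closedBall (0 : Fin n → ℝ) 1 → g • RelCWComplex.map n i t = RelCWComplex.map n (g • i) t
  /-- The base point, -/
  base : carrier
  /-- which is fixed by `G`, -/
  smul_base : ∀ g : G, g • base = base
  /-- and is a vertex. -/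
  base_vertex : ∃ i : RelCWComplex.cell (Set.univ : Set carrier) 0, RelCWComplex.map 0 i 0 = base

attribute [instance] PointedFiniteGCW.top PointedFiniteGCW.t2 PointedFiniteGCW.cw
  PointedFiniteGCW.finite PointedFiniteGCW.action PointedFiniteGCW.continuous
  PointedFiniteGCW.cellAction

section Main

variable {G : Type} [Group G]

/-- The space `X^H` of `H`-fixed points, a subspace of `X`. -/
def PointedFiniteGCW.fixedPoints (X : PointedFiniteGCW G) (H : Subgroup G) : Type :=
  ↥(MulAction.fixedPoints H X.carrier)

instance PointedFiniteGCW.instTopologicalSpaceFixedPoints (X : PointedFiniteGCW G)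
    (H : Subgroup G) : TopologicalSpace (X.fixedPoints H) :=
  inferInstanceAs (TopologicalSpace ↥(MulAction.fixedPoints H X.carrier))

/-- The base point of `X^H`. -/
def PointedFiniteGCW.fixedBase (X : PointedFiniteGCW G) (H : Subgroup G) : X.fixedPoints H :=
  ⟨X.base, fun h => X.smul_base h⟩

/-! ## 5. The space-level statement -/

/-- The space-level form of the inclusion `𝒫_m^G(A) ⊆ 𝒫_n^G(B)`, for the theories `K i = K(i)`:
`K̃(m)^*(X^A) = 0 ⟹ K̃(n)^*(X^B) = 0` for all finite pointed `G`-CW complexes `X`. -/
def SpaceAcyclicityImplication (K : ℕ → MultCohomologyTheory) (A : Subgroup G) (m : ℕ)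
    (B : Subgroup G) (n : ℕ) : Prop :=
  ∀ X : PointedFiniteGCW G,
    (K m).Acyclic (X.fixedPoints A) (X.fixedBase A) →
      (K n).Acyclic (X.fixedPoints B) (X.fixedBase B)

/-- The space-level form of the implication (1.1) of the paper:
`K̃(n+r)^*(X^H) = 0 ⟹ K̃(n)^*(X^G) = 0` for all finite pointed `G`-CW complexes `X`. -/
def SpaceFixedPointImplication (K : ℕ → MultCohomologyTheory) (H : Subgroup G) (n r : ℕ) : Prop :=
  SpaceAcyclicityImplication K H (n + r) ⊤ n

end Main

/-- The space-level form of `Statement`. -/
def SpaceLevelStatement : Prop :=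
  (∀ p : ℕ, p.Prime → ∀ n : ℕ, ∃ K : MultCohomologyTheory, K.IsMoravaK p n) ∧
  (∀ p : ℕ, p.Prime → ∀ (G : Type) [Group G] [Finite G], IsPGroup p G →
    ∀ (H : Subgroup G) (n : ℕ) (K : ℕ → MultCohomologyTheory), (∀ i, (K i).IsMoravaK p i) →
      IsLeast {r : ℕ | SpaceFixedPointImplication K H n r} (cyclicLength H)) ∧
  ∀ p : ℕ, p.Prime → ∀ (G : Type) [Group G] [Finite G] (A B : Subgroup G) (m n : ℕ)
    (K : ℕ → MultCohomologyTheory), (∀ i, (K i).IsMoravaK p i) →
      (SpaceAcyclicityImplication K A m B n ↔ GeneralGroupTest p A m B n)

end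

end Claimed.Open.R314
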