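import Claimed.Open.R314.SpaceLevelSanity

/-!
# Result 314: a positive-dimensional example of a finite pointed `G`-CW complex

For a finite `G`-set `S` we construct the unreduced suspension of `S`
(two poles, joined by one arc for each element of `S`; `G` permutes the arcs) as a
`PointedFiniteGCW G`.  For `G = C_2 = S` this is the sphere of the sign representation.
-/

namespace Claimed.Open.R314

open Topology Metric Set

noncomputable section

namespace SuspGSet

variable (S : Type)

/-- The point at height `t` on the arc which belongs to `s`. -/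
def arc [DecidableEq S] (s : S) (t : ℝ) : (S → ℝ) × ℝ := ((1 - |t|) • Pi.single s 1, t)

/-- The two poles. -/
def pole (b : Bool) : (S → ℝ) × ℝ := (0, if b then 1 else -1)

open Classical in
/-- The unreduced suspension of the finite set `S`, as a subset of `ℝ^S × ℝ`. -/
def carrierSet : Set ((S → ℝ) × ℝ) :=
  {x | ∃ s t, t ∈ Icc (-1 : ℝ) 1 ∧ x = arc S s t} ∪ range (pole S)

/-- The unreduced suspension of the finite set `S`. -/
def Carrier : Type := ↥(carrierSet S)

instance instTopologicalSpaceCarrier : TopologicalSpace (Carrier S) :=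
  inferInstanceAs (TopologicalSpace ↥(carrierSet S))

instance instT2SpaceCarrier : T2Space (Carrier S) :=
  inferInstanceAs (T2Space ↥(carrierSet S))

variable {S}

open Classical in
theorem arc_one (s : S) : arc S s 1 = pole S true := by
  simp [arc, pole]

open Classical in
theorem arc_neg_one (s : S) : arc S s (-1) = pole S false := by
  simp [arc, pole]

/-- clamp to `[-1,1]` -/
def clamp (t : ℝ) : ℝ := max (-1) (min 1 t)

theorem clamp_mem (t : ℝ) : clamp t ∈ Icc (-1 : ℝ) 1 :=
  ⟨le_max_left _ _, max_le (by norm_num) (min_le_left _ _)⟩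

theorem clamp_of_mem {t : ℝ} (h : t ∈ Icc (-1 : ℝ) 1) : clamp t = t := by
  rw [clamp, min_eq_right h.2, max_eq_right h.1]

theorem continuous_clamp : Continuous clamp :=
  continuous_const.max (continuous_const.min continuous_id)

open Classical in
/-- The characteristic map of the arc of `s`. -/
def arcMap (s : S) (τ : Fin 1 → ℝ) : Carrier S :=
  ⟨arc S s (clamp (τ 0)), Or.inl ⟨s, _, clamp_mem _, rfl⟩⟩

/-- The poles as points of the suspension. -/
def polePt (b : Bool) : Carrier S := ⟨pole S b, Or.inr ⟨b, rfl⟩⟩

theorem mem_ball_iff (τ : Fin 1 → ℝ) : τ ∈ ball (0 : Fin 1 → ℝ) 1 ↔ |τ 0| < 1 := by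
  rw [mem_ball_zero_iff, pi_norm_lt_iff one_pos]
  simp [Real.norm_eq_abs]

theorem mem_closedBall_iff (τ : Fin 1 → ℝ) : τ ∈ closedBall (0 : Fin 1 → ℝ) 1 ↔ |τ 0| ≤ 1 := by
  rw [mem_closedBall_zero_iff, pi_norm_le_iff_of_nonneg zero_le_one]
  simp [Real.norm_eq_abs]

theorem mem_sphere_iff (τ : Fin 1 → ℝ) : τ ∈ sphere (0 : Fin 1 → ℝ) 1 ↔ |τ 0| = 1 := by
  have h1 := mem_ball_iff τ
  have h2 := mem_closedBall_iff τ
  rw [← closedBall_sdiff_ball, mem_sdiff, h1, h2]
  constructor
  · rintro ⟨a, b⟩; exact le_antisymm a (not_lt.mp b)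
  · intro h; rw [h]; simp

theorem arcMap_height (s : S) (τ : Fin 1 → ℝ) (h : |τ 0| ≤ 1) : (arcMap s τ).1.2 = τ 0 := by
  classical
  show clamp (τ 0) = τ 0
  exact clamp_of_mem (abs_le.mp h)

/-- The characteristic map of the arc of `s`, as a partial equivalence. -/
def arcEquiv (s : S) : PartialEquiv (Fin 1 → ℝ) (Carrier S) where
  toFun := arcMap s
  invFun x := fun _ => x.1.2
  source := ball 0 1
  target := arcMap s '' ball 0 1
  map_source' _ h := mem_image_of_mem _ h
  map_target' := by
    rintro _ ⟨τ, hτ, rfl⟩
    have : (fun _ : Fin 1 => (arcMap s τ).1.2) = τ := by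
      funext i
      rw [arcMap_height s τ ((mem_ball_iff τ).mp hτ).le, Subsingleton.elim i 0]
    rwa [this]
  left_inv' τ hτ := by
    funext i
    rw [arcMap_height s τ ((mem_ball_iff τ).mp hτ).le, Subsingleton.elim i 0]
  right_inv' := by
    rintro _ ⟨τ, hτ, rfl⟩
    congr 1
    funext i
    rw [arcMap_height s τ ((mem_ball_iff τ).mp hτ).le, Subsingleton.elim i 0]

theorem continuous_arcMap (s : S) : Continuous (arcMap s) := by
  classical
  refine Continuous.subtype_mk ?_ _
  have h : Continuous fun τ : Fin 1 → ℝ => clamp (τ 0) := continuous_clamp.comp (continuous_apply 0)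
  exact ((continuous_const.sub h.abs).smul continuous_const).prodMk h

variable (S) in
/-- The cells: two vertices, one edge for each element of `S`. -/
def Cell : ℕ → Type
  | 0 => Bool
  | 1 => S
  | _ + 2 => PEmpty

/-- The characteristic maps. -/
def cellMap : (n : ℕ) → Cell S n → PartialEquiv (Fin n → ℝ) (Carrier S)
  | 0, b => PartialEquiv.single ![] (polePt b)
  | 1, s => arcEquiv s
  | _ + 2, i => PEmpty.elim i

theorem arcMap_eq_polePt_true (s : S) (τ : Fin 1 → ℝ) (h : τ 0 = 1) :
    arcMap s τ = polePt true := by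
  classical
  refine Subtype.ext ?_
  show arc S s (clamp (τ 0)) = pole S true
  rw [h, clamp_of_mem (by norm_num), arc_one]

theorem arcMap_eq_polePt_false (s : S) (τ : Fin 1 → ℝ) (h : τ 0 = -1) :
    arcMap s τ = polePt false := by
  classical
  refine Subtype.ext ?_
  show arc S s (clamp (τ 0)) = pole S false
  rw [h, clamp_of_mem (by norm_num), arc_neg_one]

theorem polePt_height (b : Bool) : |(polePt b : Carrier S).1.2| = 1 := by
  cases b <;> simp [polePt, pole]

theorem polePt_injective : Function.Injective (polePt : Bool → Carrier S) := by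
  intro b b' h
  have h2 : (if b then (1 : ℝ) else -1) = if b' then 1 else -1 :=
    congrArg (fun x : Carrier S => x.1.2) h
  cases b <;> cases b' <;> first | rfl | (norm_num at h2)

theorem arcMap_injective_index {s s' : S} {τ τ' : Fin 1 → ℝ} (hτ : |τ 0| < 1)
    (h : arcMap s τ = arcMap s' τ') : s = s' := by
  classical
  by_contra hne
  have h1 : arc S s (clamp (τ 0)) = arc S s' (clamp (τ' 0)) := congrArg Subtype.val h
  have h2 := congrFun (congrArg Prod.fst h1) s
  rw [clamp_of_mem (abs_le.mp hτ.le)] at h2
  simp only [arc, Pi.smul_apply, Pi.single_eq_same, smul_eq_mul, mul_one,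
    Pi.single_eq_of_ne hne, mul_zero] at h2
  linarith

theorem cellMap_zero_image (b : Bool) (A : Set (Fin 0 → ℝ)) (hA : A.Nonempty) :
    (cellMap 0 b : (Fin 0 → ℝ) → Carrier S) '' A = {polePt b} := by
  ext x
  constructor
  · rintro ⟨_, _, rfl⟩; rfl
  · rintro rfl
    obtain ⟨a, ha⟩ := hA
    exact ⟨a, ha, rfl⟩

variable (S) in
/-- The CW structure of the unreduced suspension of a finite set. -/
@[reducible] def cwComplex [Finite S] : CWComplex (univ : Set (Carrier S)) :=
  CWComplex.mkFinite (univ : Set (Carrier S)) (Cell S) cellMap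
    (by
      refine Filter.eventually_atTop.mpr ⟨2, fun n hn => ?_⟩
      obtain ⟨m, rfl⟩ : ∃ m, n = m + 2 := ⟨n - 2, by omega⟩
      exact inferInstanceAs (IsEmpty PEmpty))
    (fun n => match n with
      | 0 => inferInstanceAs (Finite Bool)
      | 1 => inferInstanceAs (Finite S)
      | _ + 2 => inferInstanceAs (Finite PEmpty))
    (fun n i => match n, i with
      | 0, _ => by
        ext x
        simp [cellMap, Subsingleton.elim x ![]]
      | 1, _ => rfl
      | _ + 2, i => PEmpty.elim i)
    (fun n i => match n, i with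
      | 0, _ => continuousOn_const
      | 1, s => (continuous_arcMap s).continuousOn
      | _ + 2, i => PEmpty.elim i)
    (fun n i => match n, i with
      | 0, _ => continuousOn_const
      | 1, _ => (continuous_pi fun _ =>
          continuous_snd.comp continuous_subtype_val).continuousOn
      | _ + 2, i => PEmpty.elim i)
    (by
      rintro ⟨n, i⟩ - ⟨m, j⟩ - hne
      rw [Function.onFun, Set.disjoint_left]
      match n, i, m, j, hne with
      | 0, b, 0, b', hne =>
        rintro x ⟨_, _, rfl⟩ ⟨_, _, h⟩
        apply hne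
        have h' : (polePt b' : Carrier S) = polePt b := h
        rw [polePt_injective h']
      | 0, b, 1, s, _ =>
        rintro x ⟨_, _, rfl⟩ ⟨τ, hτ, h⟩
        have h1 : |(arcMap s τ).1.2| = 1 := by
          have h' : arcMap s τ = polePt b := h
          rw [h']; exact polePt_height b
        rw [arcMap_height s τ ((mem_ball_iff τ).mp hτ).le] at h1
        exact absurd h1 ((mem_ball_iff τ).mp hτ).ne
      | 1, s, 0, b, _ =>
        rintro x ⟨τ, hτ, rfl⟩ ⟨_, _, h⟩
        have h1 : |(arcMap s τ).1.2| = 1 := by
          have h' : polePt b = arcMap s τ := h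
          rw [← h']; exact polePt_height b
        rw [arcMap_height s τ ((mem_ball_iff τ).mp hτ).le] at h1
        exact absurd h1 ((mem_ball_iff τ).mp hτ).ne
      | 1, s, 1, s', hne =>
        rintro x ⟨τ, hτ, rfl⟩ ⟨τ', _, h⟩
        apply hne
        have h' : arcMap s' τ' = arcMap s τ := h
        rw [arcMap_injective_index ((mem_ball_iff τ).mp hτ) h'.symm]
      | _ + 2, i, _, _, _ => exact PEmpty.elim i
      | _, _, _ + 2, j, _ => exact PEmpty.elim j)
    (fun n i => match n, i with
      | 0, _ => by
        intro x hx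
        simp [sphere_eq_empty_of_subsingleton] at hx
      | 1, s => by
        intro τ hτ
        have h1 := (mem_sphere_iff τ).mp hτ
        simp only [mem_iUnion]
        rcases (abs_eq zero_le_one).mp h1 with h | h
        · exact ⟨0, one_pos, true, ![], by simp, (arcMap_eq_polePt_true s τ h).symm⟩
        · exact ⟨0, one_pos, false, ![], by simp, (arcMap_eq_polePt_false s τ h).symm⟩
      | _ + 2, i => PEmpty.elim i)
    (by
      classical
      refine eq_univ_of_forall fun x => ?_
      simp only [mem_iUnion]
      obtain ⟨x, hx⟩ := x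
      rcases hx with ⟨s, t, ht, rfl⟩ | ⟨b, rfl⟩
      · refine ⟨1, s, fun _ => t, (mem_closedBall_iff _).mpr (abs_le.mpr ht), ?_⟩
        refine Subtype.ext ?_
        show arc S s (clamp t) = arc S s t
        rw [clamp_of_mem ht]
      · exact ⟨0, b, ![], by simp, rfl⟩)

/-! ### The action -/

variable {G : Type} [Group G] [MulAction G S]

/-- `G` permutes the coordinates of `ℝ^S`. -/
def smulFun (g : G) (x : (S → ℝ) × ℝ) : (S → ℝ) × ℝ := (fun s => x.1 (g⁻¹ • s), x.2)

open Classical in
theorem smulFun_arc (g : G) (s : S) (t : ℝ) : smulFun g (arc S s t) = arc S (g • s) t := by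
  refine Prod.ext ?_ rfl
  funext s'
  by_cases h : s' = g • s
  · subst h
    simp [smulFun, arc]
  · have h' : g⁻¹ • s' ≠ s := fun e => h (by rw [← e, smul_inv_smul])
    simp [smulFun, arc, Pi.single_eq_of_ne h, Pi.single_eq_of_ne h']

theorem smulFun_pole (g : G) (b : Bool) : smulFun g (pole S b) = pole S b := rfl

theorem smulFun_mem (g : G) {x : (S → ℝ) × ℝ} (hx : x ∈ carrierSet S) :
    smulFun g x ∈ carrierSet S := by
  classical
  rcases hx with ⟨s, t, ht, rfl⟩ | ⟨b, rfl⟩
  · exact Or.inl ⟨g • s, t, ht, smulFun_arc g s t⟩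
  · exact Or.inr ⟨b, (smulFun_pole g b).symm⟩

/-- The action of `G` on the unreduced suspension of `S`. -/
instance instMulActionCarrier : MulAction G (Carrier S) where
  smul g x := ⟨smulFun g x.1, smulFun_mem g x.2⟩
  one_smul x := Subtype.ext (by
    show smulFun (1 : G) x.1 = x.1
    simp [smulFun])
  mul_smul g h x := Subtype.ext (by
    show smulFun (g * h) x.1 = smulFun g (smulFun h x.1)
    simp [smulFun, mul_smul])

theorem smul_arcMap (g : G) (s : S) (τ : Fin 1 → ℝ) : g • arcMap s τ = arcMap (g • s) τ := by
  classical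
  exact Subtype.ext (smulFun_arc g s _)

theorem smul_polePt (g : G) (b : Bool) : g • (polePt b : Carrier S) = polePt b := rfl

instance instContinuousConstSMulCarrier : ContinuousConstSMul G (Carrier S) where
  continuous_const_smul g := by
    refine Continuous.subtype_mk ?_ _
    exact (continuous_pi fun s => (continuous_apply _).comp
      (continuous_fst.comp continuous_subtype_val)).prodMk
        (continuous_snd.comp continuous_subtype_val)

end SuspGSet

open SuspGSet in
/-- The unreduced suspension of a finite `G`-set `S`, pointed at a pole, as a finite pointed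
`G`-CW complex: two fixed vertices and the `G`-set `S` of edges. -/
def suspGSet (G S : Type) [Group G] [Finite S] [inst : MulAction G S] : PointedFiniteGCW G where
  carrier := Carrier S
  cw := cwComplex S
  finite := CWComplex.finite_mkFinite ..
  cellAction := fun n => match n with
    | 0 => trivialAction G Bool
    | 1 => inst
    | _ + 2 => mulActionPEmpty
  smul_map := fun g n i τ _ => match n, i with
    | 0, b => smul_polePt (S := S) g b
    | 1, s => smul_arcMap (S := S) g s τ
    | _ + 2, i => PEmpty.elim i
  base := polePt true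
  smul_base := fun g => smul_polePt g true
  base_vertex := ⟨(true : Bool), rfl⟩

open SuspGSet in
/-- If `H` has no fixed point on `S`, the only `H`-fixed points of the suspension are the poles. -/
theorem suspGSet_fixedPoints_eq_pole {G S : Type} [Group G] [Finite S] [MulAction G S]
    (H : Subgroup G) (hS : ∀ s : S, ∃ g ∈ H, g • s ≠ s) (x : (suspGSet G S).fixedPoints H) :
    ∃ b : Bool, x.1 = (polePt b : Carrier S) := by
  classical
  obtain ⟨⟨x, hx⟩, hfix⟩ := x
  rcases hx with ⟨s, t, ht, rfl⟩ | ⟨b, rfl⟩
  · by_cases h1 : |t| < 1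
    · exfalso
      obtain ⟨g, hg, hgs⟩ := hS s
      have h2 : arcMap (g • s) (fun _ => t) = arcMap s (fun _ => t) := by
        rw [← smul_arcMap]
        have h3 : arcMap s (fun _ => t) = (⟨arc S s t, Or.inl ⟨s, t, ht, rfl⟩⟩ : Carrier S) :=
          Subtype.ext (by show arc S s (clamp t) = arc S s t; rw [clamp_of_mem ht])
        rw [h3]
        exact hfix ⟨g, hg⟩
      exact hgs (arcMap_injective_index (τ := fun _ => t) h1 h2)
    · have h2 : |t| = 1 := le_antisymm (abs_le.mpr ht) (not_lt.mp h1)
      rcases (abs_eq zero_le_one).mp h2 with rfl | rfl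
      · exact ⟨true, Subtype.ext (arc_one s)⟩
      · exact ⟨false, Subtype.ext (arc_neg_one s)⟩
  · exact ⟨b, rfl⟩

open SuspGSet in
/-- If `H` has no fixed point on `S`, the `H`-fixed points of the suspension of `S` form an
`S⁰`. -/
def suspGSetFixedPoints {G S : Type} [Group G] [Finite S] [MulAction G S]
    (H : Subgroup G) (hS : ∀ s : S, ∃ g ∈ H, g • s ≠ s) :
    (Unit ⊕ Unit) ≃ₜ (suspGSet G S).fixedPoints H :=
  let e : (Unit ⊕ Unit) ≃ (suspGSet G S).fixedPoints H :=
    Equiv.ofBijective
      (fun u => ⟨(polePt (Sum.isLeft u) : Carrier S), fun g => smul_polePt (g : G) _⟩)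
      ⟨fun u v h => by
        have h1 := polePt_injective (congrArg Subtype.val h)
        rcases u with ⟨⟩ | ⟨⟩ <;> rcases v with ⟨⟩ | ⟨⟩ <;> simp_all,
      fun x => by
        obtain ⟨b, hb⟩ := suspGSet_fixedPoints_eq_pole H hS x
        cases b
        · exact ⟨Sum.inr (), Subtype.ext hb.symm⟩
        · exact ⟨Sum.inl (), Subtype.ext hb.symm⟩⟩
  haveI : Finite ((suspGSet G S).fixedPoints H) := Finite.of_equiv _ e
  haveI : T2Space ((suspGSet G S).fixedPoints H) :=
    inferInstanceAs (T2Space ↥(MulAction.fixedPoints H (Carrier S)))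
  Homeomorph.ofDiscrete e

/-- So for a Morava `K`-theory the `H`-fixed points of the suspension of an `H`-fixed-point free
finite `G`-set are not acyclic.  For example `S = G/L` with `H` not subconjugate to `L`. -/
theorem not_acyclic_suspGSet {G S : Type} [Group G] [Finite S] [MulAction G S]
    {K : MultCohomologyTheory} {p n : ℕ} (hp : p.Prime) (hK : K.IsMoravaK p n)
    (H : Subgroup G) (hS : ∀ s : S, ∃ g ∈ H, g • s ≠ s) :
    ¬ K.Acyclic ((suspGSet G S).fixedPoints H) ((suspGSet G S).fixedBase H) := by
  intro h
  have := MultCohomologyTheory.IsMoravaK.nontrivial hp hK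
  have h1 := h.of_homeomorph K (suspGSetFixedPoints H hS).symm
  have h2 : (suspGSetFixedPoints H hS).symm ((suspGSet G S).fixedBase H) = Sum.inl () := by
    rw [Homeomorph.symm_apply_eq]
    rfl
  rw [h2] at h1
  exact K.not_acyclic_sphereZero h1

end

end Claimed.Open.R314
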