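import Claimed.Open.R314.SpaceLevel
import Claimed.Open.R314.SanityGeneral

/-!
# Result 314: checked examples and non-examples for the definitions of `SpaceLevel.lean`

2. Finite pointed `G`-CW complexes: every finite pointed `G`-set, for instance the point, `S⁰` and
   `(G/H)₊`.
3. Cohomology theories: the zero theory satisfies the conditions of `MultCohomologyTheory` and is
   not a Morava `K`-theory; consequences of the conditions (`h^*(∅) = 0`, contractible spaces are
   acyclic, `S⁰` and `S¹` are not acyclic for a nonzero theory).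
4. Projective spaces: `CP ∅ = ∅`, `CP pt = pt`, `powMap 1 = id`.
5. The second part of `SpaceLevelStatement` holds for `H = G` (both numbers are `0`); the test
   objects make the premise true (point) and the conclusion false (`S⁰`); the third part contains
   the second.
6. Two easy cases of the third part: `𝒫_m(A) ⊆ 𝒫_n(B)` forces `A` to be subconjugate to `B`
   (test object `(G/B)₊`), and `𝒫_n(A) = 𝒫_n(g A g⁻¹)`.
-/

namespace Claimed.Open.R314

open Topology Metric

/-! ## 2. Finite pointed `G`-CW complexes -/

section GCW
variable {G : Type} [Group G]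

@[reducible] def mulActionUniv (S : Type) [MulAction G S] : MulAction G (Set.univ : Set S) where
  smul g x := ⟨g • x.1, trivial⟩
  one_smul x := Subtype.ext (one_smul G x.1)
  mul_smul g h x := Subtype.ext (mul_smul g h x.1)

@[reducible] def mulActionPEmpty : MulAction G PEmpty.{1} where
  smul _ x := x
  one_smul x := x.elim
  mul_smul _ _ x := x.elim

noncomputable def PointedFiniteGCW.ofFiniteGSet (S : Type) [Finite S] [MulAction G S] (s₀ : S)
    (h₀ : ∀ g : G, g • s₀ = s₀) : PointedFiniteGCW G :=
  letI : TopologicalSpace S := ⊥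
  haveI : DiscreteTopology S := ⟨rfl⟩
  { carrier := S
    cw := CWComplex.ofDiscreteTopology
    finite :=
      { eventually_isEmpty_cell := by
          refine Filter.eventually_atTop.mpr ⟨1, fun n hn => ?_⟩
          obtain ⟨m, rfl⟩ : ∃ m, n = m + 1 := ⟨n - 1, by omega⟩
          exact inferInstanceAs (IsEmpty PEmpty)
        finite_cell := fun n => by
          cases n with
          | zero => exact inferInstanceAs (Finite (Set.univ : Set S))
          | succ m => exact inferInstanceAs (Finite PEmpty) }
    continuous := ⟨fun _ => continuous_of_discreteTopology⟩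
    cellAction := fun n =>
      match n with
      | 0 => mulActionUniv S
      | _ + 1 => mulActionPEmpty
    smul_map := fun g n i t _ =>
      match n, i with
      | 0, _ => rfl
      | _ + 1, i => PEmpty.elim i
    base := s₀
    smul_base := h₀
    base_vertex := ⟨(⟨s₀, trivial⟩ : (Set.univ : Set S)), rfl⟩ }

instance discreteTopology_ofFiniteGSet (S : Type) [Finite S] [MulAction G S] (s₀ : S)
    (h₀ : ∀ g : G, g • s₀ = s₀) (H : Subgroup G) :
    DiscreteTopology ((PointedFiniteGCW.ofFiniteGSet S s₀ h₀).fixedPoints H) := by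
  letI : TopologicalSpace S := ⊥
  haveI : DiscreteTopology S := ⟨rfl⟩
  exact inferInstanceAs (DiscreteTopology ↥(MulAction.fixedPoints H S))

/-- The trivial action. -/
@[reducible] def trivialAction (G S : Type) [Group G] : MulAction G S where
  smul _ s := s
  one_smul _ := rfl
  mul_smul _ _ _ := rfl

/-- `S⁰` with the trivial action -/
noncomputable def sphereZero (G : Type) [Group G] : PointedFiniteGCW G :=
  letI := trivialAction G (Unit ⊕ Unit)
  PointedFiniteGCW.ofFiniteGSet (Unit ⊕ Unit) (Sum.inl ()) (fun _ => rfl)

/-- all fixed point spaces of `S⁰` are `S⁰`. -/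
noncomputable def sphereZeroFixedPoints (H : Subgroup G) :
    (Unit ⊕ Unit) ≃ₜ (sphereZero G).fixedPoints H :=
  letI := trivialAction G (Unit ⊕ Unit)
  haveI : DiscreteTopology ((sphereZero G).fixedPoints H) :=
    discreteTopology_ofFiniteGSet (Unit ⊕ Unit) (Sum.inl ()) (fun _ => rfl) H
  Homeomorph.ofDiscrete
    { toFun := fun s => ⟨s, fun _ => rfl⟩
      invFun := fun s => s.1
      left_inv := fun _ => rfl
      right_inv := fun _ => rfl }

/-- the point -/
noncomputable def point (G : Type) [Group G] : PointedFiniteGCW G :=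
  letI := trivialAction G Unit
  PointedFiniteGCW.ofFiniteGSet Unit () (fun _ => rfl)

noncomputable def pointFixedPoints (H : Subgroup G) : Unit ≃ₜ (point G).fixedPoints H :=
  letI := trivialAction G Unit
  haveI : DiscreteTopology ((point G).fixedPoints H) :=
    discreteTopology_ofFiniteGSet Unit () (fun _ => rfl) H
  Homeomorph.ofDiscrete
    { toFun := fun s => ⟨s, fun _ => rfl⟩
      invFun := fun s => s.1
      left_inv := fun _ => rfl
      right_inv := fun _ => rfl }

/-- `(G/H)₊` : the orbit with a disjoint base point -/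
noncomputable def orbitPlus [Finite G] (H : Subgroup G) : PointedFiniteGCW G :=
  letI : MulAction G (Option (G ⧸ H)) :=
    { smul := fun g => Option.map (g • ·)
      one_smul := fun x => by
        cases x with
        | none => rfl
        | some y => exact congrArg some (one_smul G y)
      mul_smul := fun g h x => by
        cases x with
        | none => rfl
        | some y => exact congrArg some (mul_smul g h y) }
  PointedFiniteGCW.ofFiniteGSet (Option (G ⧸ H)) none (fun _ => rfl)

end GCW

/-! ## 3. Cohomology theories -/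

section Zero

set_option synthInstance.maxHeartbeats 400000 in
/-- grading of the zero ring -/
noncomputable instance gradedRingPUnit : GradedRing (fun _ : ℤ => (⊤ : AddSubgroup PUnit.{1})) where
  one_mem := trivial
  mul_mem := fun _ _ _ _ _ _ => trivial
  decompose' := fun _ => (0 : DirectSum ℤ fun _ : ℤ => ↥(⊤ : AddSubgroup PUnit.{1}))
  left_inv := fun _ => rfl
  right_inv := fun x => by
    refine DFinsupp.ext fun i => ?_
    exact Subsingleton.elim _ _

/-- The zero theory satisfies all conditions of `MultCohomologyTheory`. -/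
noncomputable def zeroTheory : MultCohomologyTheory where
  H := fun _ _ => PUnit.{1}
  ring := fun _ _ => inferInstance
  gr := fun _ _ _ => ⊤
  graded := fun _ _ => gradedRingPUnit
  map := fun _ => RingHom.id _
  map_id := fun _ _ => rfl
  map_comp := fun _ _ => rfl
  map_mem := fun _ _ _ _ => trivial
  map_homotopic := fun _ _ _ => rfl
  exact_cone := fun _ _ => ⟨fun _ => ⟨PUnit.unit, rfl, rfl⟩, fun _ => rfl⟩
  additive := fun _ _ _ _ => ⟨fun _ _ _ => rfl, fun _ => ⟨PUnit.unit, rfl⟩⟩
  σ := PUnit.unit
  σ_mem := trivial
  σ_base := rfl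
  σ_comm := fun _ _ _ _ _ => rfl
  susp_injective := fun _ _ _ _ _ => rfl
  susp_surjective := fun _ _ _ _ => ⟨PUnit.unit, rfl⟩

end Zero

namespace MultCohomologyTheory
variable (K : MultCohomologyTheory)

theorem map_comp_apply {X Y Z : Type} [TopologicalSpace X] [TopologicalSpace Y]
    [TopologicalSpace Z] (f : C(X, Y)) (g : C(Y, Z)) (a : K.H Z) :
    K.map f (K.map g a) = K.map (g.comp f) a := by
  rw [K.map_comp]; rfl

/-- the one point space is acyclic -/
theorem acyclic_unit : K.Acyclic Unit () := by
  intro a ha
  have : K.atPt () = RingHom.id (K.H Unit) := K.map_id Unit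
  rwa [this] at ha

/-- acyclicity is invariant under pointed homeomorphisms -/
theorem Acyclic.of_homeomorph {X Y : Type} [TopologicalSpace X] [TopologicalSpace Y] {x₀ : X}
    (h : K.Acyclic X x₀) (e : X ≃ₜ Y) : K.Acyclic Y (e x₀) := by
  intro a ha
  have h1 : K.map (e : C(X, Y)) a = 0 := by
    apply h
    rw [atPt, map_comp_apply]
    exact ha
  have h2 : K.map (e.symm : C(Y, X)) (K.map (e : C(X, Y)) a) = a := by
    rw [map_comp_apply]
    have : (e : C(X, Y)).comp (e.symm : C(Y, X)) = ContinuousMap.id Y := by
      ext y; simp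
    rw [this, K.map_id]; rfl
  rw [← h2, h1, map_zero]

/-- more generally: pointed contractible spaces are acyclic -/
theorem acyclic_of_contractible {X : Type} [TopologicalSpace X] [ContractibleSpace X] (x₀ : X) :
    K.Acyclic X x₀ := by
  intro a ha
  have hh : (ContinuousMap.id X).Homotopic (ContinuousMap.const X x₀) := by
    obtain ⟨y, hy⟩ := (contractible_iff_id_nullhomotopic X).mp inferInstance
    refine hy.trans ?_
    have := (hy.comp (ContinuousMap.Homotopic.refl (ContinuousMap.const X x₀)))
    simpa using this.symm
  have h1 := K.map_homotopic _ _ hh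
  have h2 : ContinuousMap.const X x₀ =
      (ContinuousMap.const Unit x₀).comp (ContinuousMap.const X ()) := rfl
  have : a = K.map (ContinuousMap.const X x₀) a := by
    rw [← h1, K.map_id]; rfl
  rw [this, h2, ← map_comp_apply]
  have : K.map (ContinuousMap.const Unit x₀) a = 0 := ha
  rw [this, map_zero]

/-- `S⁰ = pt ⊔ pt` is not acyclic for a nonzero theory -/
theorem not_acyclic_sphereZero [Nontrivial (K.H Unit)] :
    ¬ K.Acyclic (Unit ⊕ Unit) (Sum.inl ()) := by
  intro h
  obtain ⟨c, hc⟩ := (K.additive Unit Unit).2 (0, 1)
  simp only [Prod.mk.injEq] at hc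
  have h0 : c = 0 := h c hc.1
  rw [h0] at hc
  exact zero_ne_one ((map_zero _).symm.trans hc.2)

/-- A Morava K-theory has a nonzero coefficient ring. -/
theorem IsMoravaK.nontrivial {K : MultCohomologyTheory} {p n : ℕ} (hp : p.Prime)
    (h : K.IsMoravaK p n) : Nontrivial (K.H Unit) := by
  have : Fact p.Prime := ⟨hp⟩
  unfold IsMoravaK at h
  split_ifs at h with hn
  · obtain ⟨⟨e⟩, -⟩ := h
    exact e.toEquiv.nontrivial
  · obtain ⟨e, -⟩ := h
    exact e.toEquiv.nontrivial

/-- `σ × a` vanishes on `1 × X`. -/
theorem susp_restrict (X : Type) [TopologicalSpace X] (a : K.H X) :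
    K.map ((ContinuousMap.const X (1 : Circle)).prodMk (ContinuousMap.id X))
      (K.map (ContinuousMap.fst : C(Circle × X, Circle)) K.σ *
        K.map (ContinuousMap.snd : C(Circle × X, X)) a) = 0 := by
  rw [map_mul, map_comp_apply]
  have : (ContinuousMap.fst : C(Circle × X, Circle)).comp
      ((ContinuousMap.const X (1 : Circle)).prodMk (ContinuousMap.id X)) =
      (ContinuousMap.const Unit (1 : Circle)).comp (ContinuousMap.const X ()) := rfl
  rw [this, ← map_comp_apply, K.σ_base, map_zero, zero_mul]

/-- The cohomology of the empty space vanishes. -/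
theorem subsingleton_empty : Subsingleton (K.H Empty) := by
  have key : ∀ a : K.H Empty, K.map (ContinuousMap.fst : C(Circle × Empty, Circle)) K.σ *
      K.map (ContinuousMap.snd : C(Circle × Empty, Empty)) a = 0 := by
    intro a
    have h1 : ((ContinuousMap.const Empty (1 : Circle)).prodMk (ContinuousMap.id Empty)).comp
        (ContinuousMap.snd : C(Circle × Empty, Empty)) = ContinuousMap.id _ := by
      ext x
      · exact x.2.elim
      · exact x.2.elim
    have h2 : ∀ c : K.H (Circle × Empty), c = K.map (ContinuousMap.snd : C(Circle × Empty, Empty))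
        (K.map ((ContinuousMap.const Empty (1 : Circle)).prodMk (ContinuousMap.id Empty)) c) := by
      intro c
      rw [map_comp_apply, h1, K.map_id]; rfl
    rw [h2 (_ * _), susp_restrict, map_zero]
  refine ⟨fun a b => K.susp_injective Empty ?_⟩
  simp only
  rw [key a, key b]

/-- the circle is not acyclic for a nonzero theory: `σ ≠ 0`. -/
theorem not_acyclic_circle [Nontrivial (K.H Unit)] : ¬ K.Acyclic Circle 1 := by
  intro h
  have h0 : K.σ = 0 := h K.σ K.σ_base
  have := @K.susp_injective Unit _ 0 1 (by simp [h0])
  exact zero_ne_one this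

end MultCohomologyTheory

/-- The zero theory is not a Morava `K`-theory. -/
theorem not_isMoravaK_zeroTheory {p : ℕ} (hp : p.Prime) (n : ℕ) : ¬ zeroTheory.IsMoravaK p n := by
  intro h
  have := MultCohomologyTheory.IsMoravaK.nontrivial hp h
  exact not_subsingleton (zeroTheory.H Unit) (inferInstanceAs (Subsingleton PUnit))

/-! ## 4. Projective spaces -/

section CPsanity

/-- `CP pt` has at most one point, -/
instance CP.subsingleton_unit : Subsingleton (CP Unit) := by
  refine ⟨fun a b => ?_⟩
  induction a using Quotient.inductionOn' with | _ v => ?_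
  induction b using Quotient.inductionOn' with | _ w => ?_
  refine Quotient.sound' ?_
  have hv : v.1 () ≠ 0 := fun h => v.2 (funext fun _ => h)
  have hw : w.1 () ≠ 0 := fun h => w.2 (funext fun _ => h)
  refine ⟨Units.mk0 (v.1 () / w.1 ()) (div_ne_zero hv hw), ?_⟩
  funext i
  simp [Units.smul_def, div_mul_cancel₀ _ hw]

/-- and it has a point. -/
instance CP.nonempty_unit : Nonempty (CP Unit) :=
  ⟨Projectivization.mk ℂ (fun _ => 1) (fun h => one_ne_zero (congrFun h ()))⟩

/-- `CP ∅` is empty. -/
instance CP.isEmpty_empty : IsEmpty (CP Empty) := by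
  refine ⟨fun a => ?_⟩
  induction a using Quotient.inductionOn' with | _ v => ?_
  exact v.2 (funext fun i => i.elim)

/-- The first power map is the identity. -/
theorem CP.powMap_one (ι : Type) : CP.powMap 1 ι = ContinuousMap.id _ := by
  ext a
  induction a using Quotient.inductionOn' with | _ v => ?_
  show Quotient.mk'' _ = Quotient.mk'' v
  congr 1
  ext i
  simp

end CPsanity

/-! ## 5. The statement -/

section Statement

variable {G : Type} [Group G]

/-- The point is acyclic at all subgroups: the premise of the implication can be met. -/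
theorem acyclic_point (K : MultCohomologyTheory) (H : Subgroup G) :
    K.Acyclic ((point G).fixedPoints H) ((point G).fixedBase H) :=
  K.acyclic_unit.of_homeomorph K (pointFixedPoints H)

/-- `S⁰` is not acyclic at any subgroup for a Morava `K`-theory: the conclusion of the implication
can fail. -/
theorem not_acyclic_sphereZero {K : MultCohomologyTheory} {p n : ℕ} (hp : p.Prime)
    (hK : K.IsMoravaK p n) (H : Subgroup G) :
    ¬ K.Acyclic ((sphereZero G).fixedPoints H) ((sphereZero G).fixedBase H) := by
  intro h
  have := MultCohomologyTheory.IsMoravaK.nontrivial hp hK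
  exact K.not_acyclic_sphereZero (h.of_homeomorph K (sphereZeroFixedPoints H).symm)

/-- The number `r_n(G, H)`, as the infimum of the set of all `r` for which the implication holds. -/
noncomputable def chromaticLoss (K : ℕ → MultCohomologyTheory) (H : Subgroup G) (n : ℕ) : ℕ :=
  sInf {r | SpaceFixedPointImplication K H n r}

/-- The form `IsLeast … (cyclicLength H)` used in `Statement` gives the equation
`r_n(G, H) = ℓ(G, H)`. -/
theorem chromaticLoss_eq_of_isLeast (K : ℕ → MultCohomologyTheory) (H : Subgroup G) (n : ℕ)
    (h : IsLeast {r : ℕ | SpaceFixedPointImplication K H n r} (cyclicLength H)) :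
    chromaticLoss K H n = cyclicLength H :=
  h.csInf_eq

/-- For `H = G` the second part of `Statement` holds: both numbers are `0`. -/
theorem isLeast_top (K : ℕ → MultCohomologyTheory) (n : ℕ) :
    IsLeast {r : ℕ | SpaceFixedPointImplication K (⊤ : Subgroup G) n r}
      (cyclicLength (⊤ : Subgroup G)) := by
  rw [cyclicLength_top]
  exact ⟨fun _ h => h, fun _ _ => Nat.zero_le _⟩

end Statement

/-- The third part of `SpaceLevelStatement` contains the second part. -/
theorem space_isLeast_of_generalGroupTest {G : Type} [Group G] [Finite G] {p : ℕ} (hp : p.Prime)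
    (hG : IsPGroup p G) (K : ℕ → MultCohomologyTheory) (H : Subgroup G) (n : ℕ)
    (h : ∀ m : ℕ, SpaceAcyclicityImplication K H m ⊤ n ↔ GeneralGroupTest p H m ⊤ n) :
    IsLeast {r : ℕ | SpaceFixedPointImplication K H n r} (cyclicLength H) :=
  isLeast_of_forall_iff_generalGroupTest hp hG H n (fun m => SpaceAcyclicityImplication K H m ⊤ n) h

/-! ## 6. Two easy cases of the third part of `SpaceLevelStatement` -/

namespace MultCohomologyTheory

variable (K : MultCohomologyTheory)

/-- A pointed retract of an acyclic space is acyclic. -/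
theorem Acyclic.of_retract {X Y : Type} [TopologicalSpace X] [TopologicalSpace Y] {x₀ : X}
    (h : K.Acyclic X x₀) (i : C(Y, X)) (r : C(X, Y)) (hri : r.comp i = ContinuousMap.id Y) :
    K.Acyclic Y (r x₀) := by
  intro a ha
  have h1 : K.map r a = 0 := by
    apply h
    rw [atPt, map_comp_apply]
    exact ha
  have h2 : K.map i (K.map r a) = a := by
    rw [map_comp_apply, hri, K.map_id]; rfl
  rw [← h2, h1, map_zero]

/-- A discrete space with at least two points is not acyclic for a nonzero theory. -/
theorem not_acyclic_of_discrete [Nontrivial (K.H Unit)] {X : Type} [TopologicalSpace X]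
    [DiscreteTopology X] {x₀ x₁ : X} (hx : x₁ ≠ x₀) : ¬ K.Acyclic X x₀ := by
  classical
  intro h
  let r : C(X, Unit ⊕ Unit) :=
    ⟨fun x => if x = x₀ then Sum.inl () else Sum.inr (), continuous_of_discreteTopology⟩
  let i : C(Unit ⊕ Unit, X) := ⟨Sum.elim (fun _ => x₀) (fun _ => x₁), continuous_of_discreteTopology⟩
  have hri : r.comp i = ContinuousMap.id _ := by
    ext x
    rcases x with ⟨⟩ | ⟨⟩
    · simp [r, i]
    · simp [r, i, hx]
  have := h.of_retract K i r hri
  have hr : r x₀ = Sum.inl () := by simp [r]
  rw [hr] at this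
  exact K.not_acyclic_sphereZero this

/-- A one-point space is acyclic. -/
theorem acyclic_of_subsingleton {X : Type} [TopologicalSpace X] [Subsingleton X] (x₀ : X) :
    K.Acyclic X x₀ := by
  have : Unique X := ⟨⟨x₀⟩, fun _ => Subsingleton.elim _ _⟩
  have := K.acyclic_unit.of_homeomorph K (Homeomorph.homeomorphOfUnique Unit X)
  rwa [Subsingleton.elim (Homeomorph.homeomorphOfUnique Unit X ()) x₀] at this

end MultCohomologyTheory

section Easy

variable {G : Type} [Group G]

/-- If `𝒫_m(A) ⊆ 𝒫_n(B)` then `A` is conjugate to a subgroup of `B`; the test object is `(G/B)₊`.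
This is the first condition in the test of Corollary 7.5. -/
theorem SpaceAcyclicityImplication.exists_conj_le [Finite G] {K : ℕ → MultCohomologyTheory}
    {A B : Subgroup G} {m n : ℕ} [Nontrivial ((K n).H Unit)]
    (h : SpaceAcyclicityImplication K A m B n) :
    ∃ g : G, A.map (MulAut.conj g).toMonoidHom ≤ B := by
  by_contra hcon
  push Not at hcon
  have hdisc : ∀ H : Subgroup G, DiscreteTopology ((orbitPlus B).fixedPoints H) := fun H =>
    discreteTopology_ofFiniteGSet _ _ _ H
  -- the `B`-fixed points contain the coset `B`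
  have hB : ¬ (K n).Acyclic ((orbitPlus B).fixedPoints B) ((orbitPlus B).fixedBase B) := by
    have := hdisc B
    refine (K n).not_acyclic_of_discrete
      (x₁ := ⟨(some (QuotientGroup.mk 1 : G ⧸ B) : Option (G ⧸ B)), ?_⟩) ?_
    · rintro ⟨b, hb⟩
      change Option.map (b • ·) (some (QuotientGroup.mk 1 : G ⧸ B)) = _
      simp only [Option.map_some]
      congr 1
      change (QuotientGroup.mk (b * 1) : G ⧸ B) = QuotientGroup.mk 1
      rw [QuotientGroup.eq]
      simpa using hb
    · intro heq
      have := congrArg Subtype.val heq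
      exact Option.some_ne_none _ this
  -- the `A`-fixed points are the base point
  refine hB (h (orbitPlus B) ?_)
  have : Subsingleton ((orbitPlus B).fixedPoints A) := by
    have key : ∀ x : (orbitPlus B).fixedPoints A, x.1 = (none : Option (G ⧸ B)) := by
      rintro ⟨x, hx⟩
      rcases x with _ | q
      · rfl
      · exfalso
        obtain ⟨g, rfl⟩ := QuotientGroup.mk_surjective q
        refine hcon g⁻¹ ?_
        rintro _ ⟨a, ha, rfl⟩
        have h1 := hx ⟨a, ha⟩
        change Option.map (a • ·) (some (QuotientGroup.mk g : G ⧸ B)) = _ at h1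
        simp only [Option.map_some, Option.some.injEq] at h1
        change (QuotientGroup.mk (a * g) : G ⧸ B) = QuotientGroup.mk g at h1
        rw [QuotientGroup.eq] at h1
        have h2 := B.inv_mem h1
        simpa [mul_assoc] using h2
    exact ⟨fun x y => Subtype.ext ((key x).trans (key y).symm)⟩
  exact (K m).acyclic_of_subsingleton _

theorem smul_mem_fixedPoints_conj (X : PointedFiniteGCW G) (A : Subgroup G) (g : G)
    {x : X.carrier} (hx : x ∈ MulAction.fixedPoints A X.carrier) :
    g • x ∈ MulAction.fixedPoints (A.map (MulAut.conj g).toMonoidHom) X.carrier := by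
  rintro ⟨b, hb⟩
  obtain ⟨a, ha, rfl⟩ := hb
  change (g * a * g⁻¹) • g • x = g • x
  rw [smul_smul, inv_mul_cancel_right, mul_smul]
  exact congrArg (g • ·) (hx ⟨a, ha⟩)

theorem inv_smul_mem_fixedPoints (X : PointedFiniteGCW G) (A : Subgroup G) (g : G)
    {x : X.carrier}
    (hx : x ∈ MulAction.fixedPoints (A.map (MulAut.conj g).toMonoidHom) X.carrier) :
    g⁻¹ • x ∈ MulAction.fixedPoints A X.carrier := by
  rintro ⟨a, ha⟩
  change a • g⁻¹ • x = g⁻¹ • x
  have := hx ⟨g * a * g⁻¹, a, ha, rfl⟩
  change (g * a * g⁻¹) • x = x at this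
  rw [eq_inv_smul_iff, smul_smul, smul_smul]
  exact this

/-- Translation by `g` is a homeomorphism `X^A ≅ X^{g A g⁻¹}`. -/
noncomputable def PointedFiniteGCW.fixedPointsConj (X : PointedFiniteGCW G) (A : Subgroup G)
    (g : G) : X.fixedPoints A ≃ₜ X.fixedPoints (A.map (MulAut.conj g).toMonoidHom) where
  toFun x := ⟨g • x.1, smul_mem_fixedPoints_conj X A g x.2⟩
  invFun x := ⟨g⁻¹ • x.1, inv_smul_mem_fixedPoints X A g x.2⟩
  left_inv x := Subtype.ext (inv_smul_smul g x.1)
  right_inv x := Subtype.ext (smul_inv_smul g x.1)
  continuous_toFun := ((continuous_const_smul g).comp continuous_subtype_val).subtype_mk _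
  continuous_invFun := ((continuous_const_smul g⁻¹).comp continuous_subtype_val).subtype_mk _

/-- `𝒫_n(A) ⊆ 𝒫_n(g A g⁻¹)`: the case `A' = B`, `m = n` of Corollary 7.5. -/
theorem spaceAcyclicityImplication_conj (K : ℕ → MultCohomologyTheory) (A : Subgroup G) (g : G)
    (n : ℕ) : SpaceAcyclicityImplication K A n (A.map (MulAut.conj g).toMonoidHom) n := by
  intro X hX
  have := hX.of_homeomorph (K n) (X.fixedPointsConj A g)
  have hb : X.fixedPointsConj A g (X.fixedBase A) = X.fixedBase _ := Subtype.ext (X.smul_base g)
  rwa [hb] at this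

end Easy

end Claimed.Open.R314
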