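import Mathlib

/-!
# Result 314.  Cyclic length and chromatic fixed-point loss

Paper: *Cyclic length and chromatic fixed-point loss* (September 24, 2026), Theorem 1.1
(`thm:main`):

> For every prime `p`, finite `p`-group `G`, subgroup `H ≤ G` and integer `n ≥ 0`,
> `r_n(G, H) = ℓ(G, H)`.

and its Corollary 7.5 (`cor:general-groups`), the resulting description of all inclusions
`𝒫_m^G(K) ⊆ 𝒫_n^G(H)` for an arbitrary finite group `G`.

* `ℓ(G, H)` is the least length of a subnormal chain `H = G₀ ⊴ G₁ ⊴ ⋯ ⊴ G_s = G` with cyclic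
  quotients (`cyclicLength`).
* `r_n(G, H)` is the least `r ≥ 0` such that `K(n+r)_*(Φ^H X) = 0 ⟹ K(n)_*(Φ^G X) = 0` for every
  finite `p`-local genuine `G`-spectrum `X` (compact retracts included); `Φ^H X` is the underlying
  spectrum of the geometric fixed points and `K(i)` is the `i`-th Morava `K`-theory at `p`,
  `K(0) = Hℚ`.

Mathlib has no spectra, no equivariant stable homotopy theory and no Morava `K`-theory.
Everything which the statement needs is defined below, from Mathlib's topological spaces,
homotopy groups, group actions and localisations of categories: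

1. the cyclic length;
2. maps induced on homotopy groups;
3. genuine `G`-spectra (`GSpt G G`): sequential spectra of pointed `G`-spaces with structure maps
   `X_n → Ω^ρ X_{n+1}` for the regular representation `ρ`; non-equivariant spectra are the case of
   the trivial group (`Spt d`);
4. equivariant stable homotopy groups `π_k^H`, stable equivalences, and the genuine stable homotopy
   category `GSH G G` as the localisation at the stable equivalences;
5. `p`-local objects and compact objects of the `p`-local category;
6. geometric fixed points `Φ^H`;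
7. symmetric ring spectra, Morava `K`-theories, `K(i)`-acyclicity;
8. `O^p` and the test of Corollary 7.5;
9. the statement.

`CLAIM.md` gives the sources of all definitions and the known deviations.
-/

set_option autoImplicit false

namespace Claimed.Open.R314

open CategoryTheory Topology unitInterval
open scoped Topology.Homotopy

noncomputable section

/-! ## 1. The cyclic length `ℓ(G, H)` -/

section CyclicLength

variable {G : Type} [Group G]

/-- One step `A ⊴ B` of a subnormal chain, with cyclic quotient `B / A`. -/
structure CyclicStep (A B : Subgroup G) : Prop where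
  /-- `A` is contained in `B`, -/
  le : A ≤ B
  /-- `A` is normal in `B`, -/
  normal : (A.subgroupOf B).Normal
  /-- and `B / A` is cyclic. -/
  cyclic : letI := normal; IsCyclic (B ⧸ A.subgroupOf B)

/-- `HasCyclicChain H s`: there is a subnormal chain `H = G₀ ⊴ G₁ ⊴ ⋯ ⊴ G_s = G` of length `s`
all of whose successive quotients are cyclic.  (Only `c 0, …, c s` matter.) -/
def HasCyclicChain (H : Subgroup G) (s : ℕ) : Prop :=
  ∃ c : ℕ → Subgroup G, c 0 = H ∧ c s = ⊤ ∧ ∀ i < s, CyclicStep (c i) (c (i + 1))

/-- The cyclic length `ℓ(G, H)`: the least length of a subnormal chain from `H` to `G` with cyclic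
quotients.  In a finite `p`-group such chains exist (`Sanity.lean`), so the infimum is attained;
`ℓ(G, G) = 0`. -/
def cyclicLength (H : Subgroup G) : ℕ := sInf {s | HasCyclicChain H s}

end CyclicLength

/-! ## 2. Maps induced on homotopy groups

Mathlib has the generalised loop spaces `Ω^ N X x` (maps `I^N → X` which send the boundary of the
cube to `x`, with the compact-open topology) and the homotopy groups
`HomotopyGroup N X x = π_0 (Ω^ N X x)`, but not yet the induced homomorphisms. -/

section Loops

variable {A B : Type} [TopologicalSpace A] [TopologicalSpace B]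

/-- Push-forward of a generalised loop along a pointed map. -/
def mapLoop {N : Type} (g : C(A, B)) {a : A} {b : B} (h : g a = b) (γ : Ω^ N A a) : Ω^ N B b :=
  ⟨g.comp γ.1, fun y hy => by
    have := γ.2 y hy
    simp only [ContinuousMap.comp_apply]
    rw [this, h]⟩

lemma mapLoop_homotopic {N : Type} (g : C(A, B)) {a : A} {b : B} (h : g a = b)
    {γ γ' : Ω^ N A a} (H : GenLoop.Homotopic γ γ') :
    GenLoop.Homotopic (mapLoop g h γ) (mapLoop g h γ') :=
  ContinuousMap.HomotopicRel.comp_continuousMap H g

/-- The map induced on homotopy groups by a pointed map. -/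
def mapPi {N : Type} (g : C(A, B)) {a : A} {b : B} (h : g a = b) :
    HomotopyGroup N A a → HomotopyGroup N B b :=
  Quotient.map (mapLoop g h) (fun _ _ H => mapLoop_homotopic g h H)

lemma mapLoop_transAt {N : Type} [DecidableEq N] (g : C(A, B)) {a : A} {b : B} (h : g a = b)
    (i : N) (γ γ' : Ω^ N A a) :
    mapLoop g h (GenLoop.transAt i γ γ') = GenLoop.transAt i (mapLoop g h γ) (mapLoop g h γ') := by
  ext t
  simp only [mapLoop, GenLoop.transAt, GenLoop.coe_copy, GenLoop.mk_apply,
    ContinuousMap.comp_apply, GenLoop.coe_coe]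
  split_ifs <;> rfl

/-- The class of a generalised loop in the homotopy group. -/
def piMk {N : Type} {a : A} (γ : Ω^ N A a) : HomotopyGroup N A a := Quotient.mk _ γ

lemma piMk_mul {N : Type} [DecidableEq N] [Nonempty N] {a : A} (i : N) (p q : Ω^ N A a) :
    piMk p * piMk q = piMk (GenLoop.transAt i q p) :=
  HomotopyGroup.mul_spec

/-- `mapPi` as a group homomorphism. -/
def mapPiHom {N : Type} [DecidableEq N] [Nonempty N] (g : C(A, B)) {a : A} {b : B}
    (h : g a = b) : HomotopyGroup N A a →* HomotopyGroup N B b :=
  MonoidHom.mk' (mapPi g h) (by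
    rintro ⟨γ⟩ ⟨γ'⟩
    change mapPi g h (piMk γ * piMk γ') = piMk (mapLoop g h γ) * piMk (mapLoop g h γ')
    rw [piMk_mul (Classical.arbitrary N), piMk_mul (Classical.arbitrary N), ← mapLoop_transAt]
    rfl)

/-- A map of spaces is a weak homotopy equivalence if it induces bijections on `π_j`, `j ≥ 0`, for
all base points (and the source is nonempty if the target is). -/
def IsWeakEquiv (g : C(A, B)) : Prop :=
  (Nonempty B → Nonempty A) ∧
    ∀ (a : A) (j : ℕ), Function.Bijective (mapPi (N := Fin j) g (rfl : g a = g a))

end Loops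

/-! ## 3. Equivariant spectra -/

/-- A sequential `G`-spectrum indexed on the multiples `n · ℝ[N]` of the permutation representation
`ℝ[N]` of a `G`-set `N` (a `G`-prespectrum in the sense of Lewis–May–Steinberger and Mandell–May,
indexed on this cofinal sequence): pointed `G`-spaces `X_n` with pointed `G`-maps
`S^{ℝ[N]} ∧ X_n → X_{n+1}`, written in adjoint form `X_n → Ω^{ℝ[N]} X_{n+1}`.

The representation sphere `S^{ℝ[N]}`, the one-point compactification of `ℝ^N`, is the cube `I^N`
modulo its boundary, and `G` permutes the coordinates: `(g · t)(i) = t(g⁻¹ i)`.  So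
`Ω^{ℝ[N]} Y = Map_*(S^{ℝ[N]}, Y)` is Mathlib's `Ω^ N Y y₀`, with `G` acting by conjugation,
`(g · γ)(t) = g · γ(g⁻¹ · t)`; this is the condition `str_smul`.

* For `N = G` with the left translation action, `ℝ[N]` is the regular representation `ρ_G`, whose
  multiples are cofinal in a complete universe: `GSpt G G` is a model for **genuine `G`-spectra**.
* For the trivial group and `N = Fin d` these are non-equivariant spectra with structure
  maps `X_n → Ω^d X_{n+1}` (`Spt d` below); `Spt 1` are the usual sequential spectra. -/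
structure GSpt (G : Type) [Group G] (N : Type) [MulAction G N] : Type 1 where
  /-- The spaces `X_n`, -/
  space : ℕ → Type
  [top : ∀ n, TopologicalSpace (space n)]
  /-- with an action of `G` -/
  [act : ∀ n, MulAction G (space n)]
  /-- by homeomorphisms, -/
  [cont : ∀ n, ContinuousConstSMul G (space n)]
  /-- and with base points -/
  base : ∀ n, space n
  /-- fixed by `G`. -/
  smul_base : ∀ n (g : G), g • base n = base n
  /-- The adjoint structure maps `σ̃_n : X_n → Ω^{ℝ[N]} X_{n+1}`; -/
  str : ∀ n, C(space n, Ω^ N (space (n + 1)) (base (n + 1)))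
  /-- they are pointed -/
  str_base : ∀ n (t : N → I), str n (base n) t = base (n + 1)
  /-- and equivariant: `σ̃(g x) = g · σ̃(x)`, that is `σ̃(g x)(t) = g · (σ̃(x)(g⁻¹ · t))`. -/
  str_smul : ∀ n (g : G) (x : space n) (t : N → I),
    str n (g • x) t = g • str n x (fun i => t (g • i))

attribute [instance] GSpt.top GSpt.act GSpt.cont

namespace GSpt

variable {G : Type} [Group G] {N : Type} [MulAction G N]

/-- A map of `G`-spectra: pointed `G`-maps `X_n → Y_n` which commute with the structure maps. -/
@[ext]
structure Hom (X Y : GSpt G N) where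
  map : ∀ n, C(X.space n, Y.space n)
  map_base : ∀ n, map n (X.base n) = Y.base n
  map_smul : ∀ n (g : G) (x : X.space n), map n (g • x) = g • map n x
  comm : ∀ n (x : X.space n) (t : N → I), map (n + 1) (X.str n x t) = Y.str n (map n x) t

instance category : Category (GSpt G N) where
  Hom := Hom
  id X :=
    { map := fun _ => ContinuousMap.id _
      map_base := fun _ => rfl
      map_smul := fun _ _ _ => rfl
      comm := fun _ _ _ => rfl }
  comp f g :=
    { map := fun n => (g.map n).comp (f.map n)
      map_base := fun n => by simp [f.map_base, g.map_base]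
      map_smul := fun n a x => by simp [f.map_smul, g.map_smul]
      comm := fun n x t => by simp [f.comm, g.comm] }

/-! ## 4. Equivariant stable homotopy groups and the stable homotopy category -/

/-- The space `Map_*^H(S^{n·ℝ[N]}, X_n) = (Ω^{n·ℝ[N]} X_n)^H` of pointed `H`-equivariant maps from
the representation sphere `S^{n·ℝ[N]} = I^{Fin n × N}/∂` to `X_n`, a subspace of the space of all
maps with the compact-open topology. -/
def LoopFix (X : GSpt G N) (H : Subgroup G) (n : ℕ) : Type :=
  {γ : Ω^ (Fin n × N) (X.space n) (X.base n) //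
    ∀ h ∈ H, ∀ t : Fin n × N → I, γ t = h • γ (fun q => t (q.1, h • q.2))}

instance loopFixTop (X : GSpt G N) (H : Subgroup G) (n : ℕ) : TopologicalSpace (X.LoopFix H n) :=
  inferInstanceAs (TopologicalSpace {γ : Ω^ (Fin n × N) (X.space n) (X.base n) //
    ∀ h ∈ H, ∀ t : Fin n × N → I, γ t = h • γ (fun q => t (q.1, h • q.2))})

/-- The constant map, the base point of `Map_*^H(S^{n·ℝ[N]}, X_n)`. -/
def loopFixBase (X : GSpt G N) (H : Subgroup G) (n : ℕ) : X.LoopFix H n :=
  ⟨GenLoop.const, fun h _ _ => (X.smul_base n h).symm⟩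

/-- The stabilisation map `Map_*^H(S^{n·ℝ[N]}, X_n) → Map_*^H(S^{(n+1)·ℝ[N]}, X_{n+1})`, which sends
`γ` to the adjoint of `σ̃_n ∘ γ`: `(t₀, t₁, …, t_n) ↦ σ̃_n(γ(t₁, …, t_n))(t₀)`, `t_j ∈ I^N`. -/
def stab (X : GSpt G N) (H : Subgroup G) (n : ℕ) : C(X.LoopFix H n, X.LoopFix H (n + 1)) where
  toFun γ := ⟨⟨⟨fun t => X.str n (γ.1 (fun q => t (q.1.succ, q.2))) (fun i => t (0, i)),
      by fun_prop⟩, by
        rintro t ⟨⟨j, i⟩, hji⟩
        show X.str n (γ.1 (fun q => t (q.1.succ, q.2))) (fun i => t (0, i)) = _
        induction j using Fin.cases with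
        | zero => exact (X.str n _).2 _ ⟨i, hji⟩
        | succ j =>
          have : γ.1 (fun q => t (q.1.succ, q.2)) = X.base n := γ.1.2 _ ⟨(j, i), hji⟩
          rw [this, X.str_base]⟩, by
        intro h hh t
        show X.str n (γ.1 (fun q => t (q.1.succ, q.2))) (fun i => t (0, i)) =
          h • X.str n (γ.1 (fun q => t (q.1.succ, h • q.2))) (fun i => t (0, h • i))
        rw [γ.2 h hh, X.str_smul]⟩
  continuous_toFun := by
    refine Continuous.subtype_mk (Continuous.subtype_mk ?_ _) _
    refine ContinuousMap.continuous_of_continuous_uncurry _ ?_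
    show Continuous fun z : X.LoopFix H n × (Fin (n + 1) × N → I) =>
      X.str n (z.1.1 (fun q => z.2 (q.1.succ, q.2))) (fun i => z.2 (0, i))
    have h1 : Continuous fun z : X.LoopFix H n × (Fin (n + 1) × N → I) => z.1.1 :=
      continuous_subtype_val.comp continuous_fst
    fun_prop

lemma stab_base (X : GSpt G N) (H : Subgroup G) (n : ℕ) :
    X.stab H n (X.loopFixBase H n) = X.loopFixBase H (n + 1) := by
  apply Subtype.ext
  ext t
  exact X.str_base n _

/-- The map `Map_*^H(S^{n·ℝ[N]}, X_n) → Map_*^H(S^{n·ℝ[N]}, Y_n)` induced by a map of spectra. -/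
def loopFixMap {X Y : GSpt G N} (f : X ⟶ Y) (H : Subgroup G) (n : ℕ) :
    C(X.LoopFix H n, Y.LoopFix H n) where
  toFun γ := ⟨mapLoop (f.map n) (f.map_base n) γ.1, by
    intro h hh t
    show f.map n (γ.1 t) = h • f.map n (γ.1 _)
    rw [γ.2 h hh t, f.map_smul]⟩
  continuous_toFun := by
    refine Continuous.subtype_mk (Continuous.subtype_mk ?_ _) _
    exact (ContinuousMap.continuous_postcomp (f.map n)).comp
      (continuous_subtype_val.comp continuous_subtype_val)

lemma loopFixMap_base {X Y : GSpt G N} (f : X ⟶ Y) (H : Subgroup G) (n : ℕ) :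
    loopFixMap f H n (X.loopFixBase H n) = Y.loopFixBase H n := by
  apply Subtype.ext
  ext t
  exact f.map_base n

lemma loopFixMap_stab {X Y : GSpt G N} (f : X ⟶ Y) (H : Subgroup G) (n : ℕ)
    (γ : X.LoopFix H n) :
    loopFixMap f H (n + 1) (X.stab H n γ) = Y.stab H n (loopFixMap f H n γ) := by
  apply Subtype.ext
  ext t
  exact f.comm n _ _

instance finNontrivial (k : ℕ) : Nontrivial (Fin (k + 2)) :=
  Fin.nontrivial_iff_two_le.mpr (by omega)

/-- The sequence of abelian groups
`π_{k+2}(Map_*^H(S^{n·ℝ[N]}, X_n)) = [S^{k+2} ∧ S^{n·ℝ[N]}, X_n]^H_*`, `n ≥ 0`, functorially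
in `X`. -/
def piSeq (H : Subgroup G) (k : ℕ) : GSpt G N ⥤ (ℕ ⥤ CommGrpCat.{0}) where
  obj X := Functor.ofSequence
    (X := fun n => CommGrpCat.of (HomotopyGroup (Fin (k + 2)) (X.LoopFix H n) (X.loopFixBase H n)))
    (fun n => CommGrpCat.ofHom (mapPiHom (X.stab H n) (X.stab_base H n)))
  map {X Y} f := NatTrans.ofSequence
    (fun n => CommGrpCat.ofHom (mapPiHom (loopFixMap f H n) (loopFixMap_base f H n)))
    (fun n => by
      rw [Functor.ofSequence_map_homOfLE_succ, Functor.ofSequence_map_homOfLE_succ]
      ext x
      induction x using Quotient.inductionOn with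
      | h γ =>
        refine congrArg piMk ?_
        ext t
        exact loopFixMap_stab f H n _)
  map_id X := by
    ext n x
    induction x using Quotient.inductionOn with
    | h γ => rfl
  map_comp f g := by
    ext n x
    induction x using Quotient.inductionOn with
    | h γ => rfl

/-- The equivariant stable homotopy group
`π_{k+2}^H(X) = colim_n [S^{k+2} ∧ S^{n·ℝ[N]}, X_n]^H_*`, as an additive group. -/
def stablePi (H : Subgroup G) (k : ℕ) : GSpt G N ⥤ AddCommGrpCat.{0} :=
  piSeq H k ⋙ (Functor.whiskeringRight ℕ _ _).obj CommGrpCat.toAddCommGrp ⋙ Limits.colim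

/-- The shift functor `(sh X)_n = X_{n+1}`; it models the suspension `Σ^{ℝ[N]}`:
`π_j^H(sh^m X) = colim_n [S^j ∧ S^{n·ℝ[N]}, X_{n+m}]^H_* = π^H_{j - m·ℝ[N]}(X)`. -/
def sh : GSpt G N ⥤ GSpt G N where
  obj X :=
    { space := fun n => X.space (n + 1)
      base := fun n => X.base (n + 1)
      smul_base := fun n => X.smul_base (n + 1)
      str := fun n => X.str (n + 1)
      str_base := fun n => X.str_base (n + 1)
      str_smul := fun n => X.str_smul (n + 1) }
  map f :=
    { map := fun n => f.map (n + 1)
      map_base := fun n => f.map_base (n + 1)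
      map_smul := fun n => f.map_smul (n + 1)
      comm := fun n => f.comm (n + 1) }

/-- Iterated shift. -/
def shIter : ℕ → (GSpt G N ⥤ GSpt G N)
  | 0 => 𝟭 _
  | b + 1 => sh ⋙ shIter b

/-- The stable equivalences (`π_*`-isomorphisms): the maps which induce isomorphisms on the groups
`π_{k+2}^H(sh^m X) = π^H_{k+2-m·ℝ[N]}(X)` for all subgroups `H` and all `k, m ≥ 0`.

If `N` is nonempty, these are the maps which induce isomorphisms on `π_j^H` for all `H ≤ G` and all
`j ∈ ℤ`: the sphere `S^{j + m·ℝ[N]}` is a finite `H`-CW complex whose cells other than the base point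
have dimension `≥ j + m`, so that the groups `π_i^L(Σ^{m·ℝ[N]} C)`, `i ≥ 3`, `L ≤ H`, `m ≥ 3 - j`, of
the cofibre `C` control `π_j^H(C) = [S^{j + m·ℝ[N]}, Σ^{m·ℝ[N]} C]^H` (see `CLAIM.md`). -/
def stableEquiv : MorphismProperty (GSpt G N) := fun _ _ f =>
  ∀ (H : Subgroup G) (k m : ℕ), IsIso ((stablePi H k).map ((shIter m).map f))

end GSpt

/-- The stable homotopy category of `G`-spectra indexed on the multiples of `ℝ[N]`: the localisation
of `GSpt G N` at the stable equivalences.  `GSH G G` is the genuine `G`-equivariant stable homotopy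
category (the homotopy category of the category `Sp^G` of the paper, before `p`-localisation). -/
abbrev GSH (G : Type) [Group G] (N : Type) [MulAction G N] : Type 1 :=
  (GSpt.stableEquiv (G := G) (N := N)).Localization

/-- The localisation functor. -/
abbrev GSH.Q {G : Type} [Group G] {N : Type} [MulAction G N] : GSpt G N ⥤ GSH G N :=
  (GSpt.stableEquiv (G := G) (N := N)).Q

/-! ## 5. `p`-local and compact objects -/

section Compact

variable {G : Type} [Group G] {N : Type} [MulAction G N]

/-- `X` is `p`-local: every prime `q ≠ p` acts invertibly on the equivariant stable homotopy groups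
of `X` (equivalently, `q : X → X` is an isomorphism in the stable homotopy category). -/
def GSpt.IsPLocal (p : ℕ) (X : GSpt G N) : Prop :=
  ∀ (H : Subgroup G) (k m q : ℕ), q.Prime → q ≠ p →
    Function.Bijective fun x : (GSpt.stablePi H k).obj ((GSpt.shIter m).obj X) => q • x

open Limits in
/-- `X` is a **finite `p`-local `G`-spectrum**, in the sense of the paper ("finite spectra include
compact retracts"; "its compact objects are retracts of `p`-local finite genuine `G`-CW spectra"):
a compact object of the `p`-local stable homotopy category, the full subcategory of `GSH G N` on the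
`p`-local objects.

Compactness of `X` in a triangulated category with coproducts means that
`⨁_i Hom(X, Y_i) → Hom(X, ∐_i Y_i)` is bijective for all families `(Y_i)`.  This map is always
injective, and it is surjective if and only if every map `X → ∐_i Y_i` factors through the coproduct
of a finite subfamily; this is the form used here, as it needs no additive structure.
(A coproduct in `GSH G N` of `p`-local objects is `p`-local, so it is their coproduct in the
`p`-local category.) -/
def GSpt.IsCompactPLocal (p : ℕ) (X : GSpt G N) : Prop :=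
  X.IsPLocal p ∧
  ∀ (ι : Type) (Y : ι → GSpt G N), (∀ i, (Y i).IsPLocal p) →
    ∀ (c : Cofan fun i => GSH.Q.obj (Y i)), IsColimit c → ∀ f : GSH.Q.obj X ⟶ c.pt,
      ∃ (S : Finset ι) (c' : Cofan fun i : S => GSH.Q.obj (Y i)) (hc' : IsColimit c')
        (g : GSH.Q.obj X ⟶ c'.pt), f = g ≫ Cofan.IsColimit.desc hc' (fun i => c.inj i)

end Compact

/-! ## 6. Geometric fixed points -/

/-- The trivial action of the trivial group. -/
instance trivAct (α : Type) : MulAction PUnit.{1} α where
  smul _ a := a
  one_smul _ := rfl
  mul_smul _ _ _ := rfl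

instance trivAct_continuous (α : Type) [TopologicalSpace α] : ContinuousConstSMul PUnit.{1} α :=
  ⟨fun _ => continuous_id⟩

/-- Non-equivariant spectra with structure maps `X_n → Ω^d X_{n+1}`: `G`-spectra for the trivial
group.  `Spt 1` is the category of ordinary sequential spectra; for `d ≥ 1` the stable homotopy
category `GSH PUnit (Fin d)` of `Spt d` is equivalent to the one of `Spt 1` (see `Spt.every`). -/
abbrev Spt (d : ℕ) : Type 1 := GSpt PUnit.{1} (Fin d)

section GeomFix

variable {G : Type} [Group G]

/-- The number of `H`-orbits on `N`, which is the dimension of `ℝ[N]^H`.  For `N = G` this is the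
index of `H`. -/
def orbitCount (H : Subgroup G) (N : Type) [MulAction G N] : ℕ :=
  Nat.card (MulAction.orbitRel.Quotient H N)

/-- An enumeration of the `H`-orbits on `N`, that is a basis of `ℝ[N]^H`. -/
def orbitEnum (H : Subgroup G) (N : Type) [MulAction G N] [Finite N] :
    MulAction.orbitRel.Quotient H N ≃ Fin (orbitCount H N) :=
  Finite.equivFin _

/-- The homeomorphism of the cube `I^d`, `d = dim ℝ[N]^H`, onto the `H`-fixed points of the cube
`I^N`, which are the functions on `N` that are constant on the `H`-orbits. -/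
def orbitCube (H : Subgroup G) (N : Type) [MulAction G N] [Finite N]
    (t : Fin (orbitCount H N) → I) : N → I :=
  fun i => t (orbitEnum H N (Quotient.mk _ i))

lemma orbitCube_smul (H : Subgroup G) (N : Type) [MulAction G N] [Finite N]
    (t : Fin (orbitCount H N) → I) (h : G) (hh : h ∈ H) (i : N) :
    orbitCube H N t (h • i) = orbitCube H N t i := by
  unfold orbitCube
  congr 2
  exact Quotient.sound ⟨⟨h, hh⟩, rfl⟩

variable {N : Type} [MulAction G N]

/-- The **geometric fixed point spectrum** `Φ^H X` (its underlying non-equivariant spectrum):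
`(Φ^H X)_n = X_n^H`, with the structure maps
`X_n^H → (Ω^{ℝ[N]} X_{n+1})^H → Ω^{ℝ[N]^H} (X_{n+1}^H)`, the second map being the restriction of an
`H`-equivariant map `S^{ℝ[N]} → X_{n+1}` to the `H`-fixed points (Lewis–May–Steinberger, Ch. II §9;
Mandell–May V.4; Schwede, *Lectures on equivariant stable homotopy theory*, §7).  Its homotopy
groups are the geometric fixed point homotopy groups
`Φ^H_k(X) = colim_n [S^{k + n·ℝ[N]^H}, X_n^H]`.  This construction sends all stable equivalences to
stable equivalences (`CLAIM.md`), so no cofibrant replacement is needed.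

As `ℝ[N]^H` has dimension `d = orbitCount H N`, this is a spectrum in `Spt d`. -/
def GSpt.geomFix [Finite N] (H : Subgroup G) (X : GSpt G N) : Spt (orbitCount H N) where
  space n := MulAction.fixedPoints H (X.space n)
  base n := ⟨X.base n, fun h => X.smul_base n h⟩
  smul_base _ _ := rfl
  str n :=
    { toFun := fun x => ⟨⟨fun t => ⟨X.str n x.1 (orbitCube H N t), by
          rintro ⟨h, hh⟩
          show h • X.str n x.1 (orbitCube H N t) = _
          have h1 := X.str_smul n h x.1 (orbitCube H N t)
          have h2 : h • x.1 = x.1 := x.2 ⟨h, hh⟩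
          have h3 : (fun i => orbitCube H N t (h • i)) = orbitCube H N t :=
            funext fun i => orbitCube_smul H N t h hh i
          rw [h2, h3] at h1
          exact h1.symm⟩, by
            refine Continuous.subtype_mk ?_ _
            unfold orbitCube
            fun_prop⟩, by
          rintro t ⟨j, hj⟩
          apply Subtype.ext
          obtain ⟨i, hi⟩ := Quotient.exists_rep ((orbitEnum H N).symm j)
          refine (X.str n x.1).2 _ ⟨i, ?_⟩
          unfold orbitCube
          rw [hi, Equiv.apply_symm_apply]
          exact hj⟩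
      continuous_toFun := by
        refine Continuous.subtype_mk ?_ _
        refine ContinuousMap.continuous_of_continuous_uncurry _ ?_
        refine Continuous.subtype_mk ?_ _
        show Continuous fun z : MulAction.fixedPoints H (X.space n) × (Fin (orbitCount H N) → I) =>
          X.str n z.1.1 (orbitCube H N z.2)
        unfold orbitCube
        fun_prop }
  str_base n t := Subtype.ext (X.str_base n _)
  str_smul _ _ _ _ := rfl

end GeomFix

/-! ## 7. Ring spectra, Morava `K`-theories, acyclicity -/

/-- A point as a `0`-fold loop. -/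
def loopZero (Y : Type) [TopologicalSpace Y] (y₀ : Y) : C(Y, Ω^ (Fin 0) Y y₀) where
  toFun x := ⟨ContinuousMap.const _ x, by rintro t ⟨i, _⟩; exact i.elim0⟩
  continuous_toFun := Continuous.subtype_mk ContinuousMap.continuous_const' _

/-- Composition of `a : A → Ω^j Y` with `s : Y → Ω Z` to a map `A → Ω^{j+1} Z`:
`x ↦ (t ↦ s (a x (t₁, …, t_j)) (t₀))`. -/
def loopStep {A Y Z : Type} [TopologicalSpace A] [TopologicalSpace Y] [TopologicalSpace Z]
    {y₀ : Y} {z₀ : Z} {j : ℕ} (a : C(A, Ω^ (Fin j) Y y₀)) (s : C(Y, Ω^ (Fin 1) Z z₀))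
    (hs : ∀ t, s y₀ t = z₀) : C(A, Ω^ (Fin (j + 1)) Z z₀) where
  toFun x := ⟨⟨fun t => s (a x (Fin.tail t)) (fun _ => t 0), by fun_prop⟩, by
    rintro t ⟨i, hi⟩
    show s (a x (Fin.tail t)) (fun _ => t 0) = _
    induction i using Fin.cases with
    | zero => exact (s _).2 _ ⟨0, hi⟩
    | succ i =>
      have : a x (Fin.tail t) = y₀ := (a x).2 _ ⟨i, hi⟩
      rw [this, hs]⟩
  continuous_toFun := by
    refine Continuous.subtype_mk ?_ _
    refine ContinuousMap.continuous_of_continuous_uncurry _ ?_
    show Continuous fun z : A × (Fin (j + 1) → I) => s (a z.1 (Fin.tail z.2)) (fun _ => z.2 0)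
    fun_prop

/-- The iterated structure maps `X_n → Ω^j X_{n+j}` of an ordinary spectrum. -/
def Spt.strIter (X : Spt 1) (n : ℕ) :
    ∀ j : ℕ, C(X.space n, Ω^ (Fin j) (X.space (n + j)) (X.base (n + j)))
  | 0 => loopZero _ _
  | j + 1 => loopStep (Spt.strIter X n j) (X.str (n + j)) (X.str_base (n + j))

lemma Spt.strIter_base (X : Spt 1) (n : ℕ) (j : ℕ) :
    ∀ t : Fin j → I, Spt.strIter X n j (X.base n) t = X.base (n + j) := by
  induction j with
  | zero => intro t; rfl
  | succ j ih =>
    intro t
    show X.str (n + j) (Spt.strIter X n j (X.base n) (Fin.tail t)) (fun _ => t 0) = _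
    rw [ih, X.str_base]; rfl

/-- The comparison functor (on objects) from ordinary spectra to spectra with structure maps
`X_n → Ω^d X_{n+1}`: keep every `d`-th space, `(every d X)_n = X_{dn}`, and compose `d` structure
maps.  It preserves homotopy groups (`π_k = colim_n π_{k+dn} X_{dn}`, a cofinal subsystem) and
for `d ≥ 1` induces an equivalence of stable homotopy categories. -/
def Spt.every (d : ℕ) (X : Spt 1) : Spt d where
  space n := X.space (d * n)
  base n := X.base (d * n)
  smul_base _ _ := rfl
  str n := Spt.strIter X (d * n) d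
  str_base n t := Spt.strIter_base X (d * n) d t
  str_smul _ _ _ _ := rfl

/-- `X` is an `Ω`-spectrum: all adjoint structure maps `X_n → Ω X_{n+1}` are weak equivalences. -/
def Spt.IsOmega (X : Spt 1) : Prop := ∀ n, IsWeakEquiv (X.str n)

/-- Continuity on compact Hausdorff test spaces, i.e. continuity for the compactly generated
topology. -/
def KContinuous {A B : Type} [TopologicalSpace A] [TopologicalSpace B] (f : A → B) : Prop :=
  ∀ (K : Type) [TopologicalSpace K] [CompactSpace K] [T2Space K] (g : C(K, A)), Continuous (f ∘ g)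

/-- A symmetric ring spectrum (Hovey–Shipley–Smith; Schwede, *Symmetric spectra*, Def. I.1.3) in
topological spaces: pointed spaces `R_n` with `Σ_n`-action, multiplication maps
`R_m ∧ R_n → R_{m+n}` (written as maps on the product that send the axes to the base point,
continuous for the compactly generated product topology), units `1 ∈ R_0`, `ι : S^1 → R_1`, subject
to associativity, unitality, equivariance and centrality of `ι`.  No commutativity is required. -/
structure SymRing : Type 1 where
  space : ℕ → Type
  [top : ∀ n, TopologicalSpace (space n)]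
  base : ∀ n, space n
  /-- the action of the symmetric groups -/
  act : ∀ n, Equiv.Perm (Fin n) → space n → space n
  act_cont : ∀ n s, Continuous (act n s)
  act_one : ∀ n x, act n 1 x = x
  act_mul : ∀ n s s' x, act n (s * s') x = act n s (act n s' x)
  act_base : ∀ n s, act n s (base n) = base n
  /-- the multiplication -/
  mul : ∀ m n, space m → space n → space (m + n)
  mul_kcont : ∀ m n, KContinuous (fun q : space m × space n => mul m n q.1 q.2)
  mul_cont_left : ∀ m n y, Continuous (fun x => mul m n x y)
  mul_cont_right : ∀ m n x, Continuous (fun y => mul m n x y)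
  mul_base_left : ∀ m n y, mul m n (base m) y = base (m + n)
  mul_base_right : ∀ m n x, mul m n x (base n) = base (m + n)
  /-- the unit `S^0 → R_0` -/
  one : space 0
  /-- the unit `S^1 → R_1` -/
  ι : LoopSpace (space 1) (base 1)
  str_cont : ∀ n, Continuous (fun q : space n × I => mul n 1 q.1 (ι q.2))
  mul_assoc : ∀ l m n x y z,
    HEq (mul (l + m) n (mul l m x y) z) (mul l (m + n) x (mul m n y z))
  mul_one : ∀ n x, mul n 0 x one = x
  one_mul : ∀ n x, HEq (mul 0 n one x) x
  mul_act : ∀ m n s s' x y, mul m n (act m s x) (act n s' y) =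
    act (m + n) (finSumFinEquiv.permCongr (Equiv.Perm.sumCongr s s')) (mul m n x y)
  central : ∀ n x t, HEq (act (n + 1) (finRotate (n + 1)) (mul n 1 x (ι t))) (mul 1 n (ι t) x)

attribute [instance] SymRing.top

/-- The underlying sequential spectrum of a symmetric ring spectrum; the structure maps are
`x ↦ (t ↦ x · ι(t))`. -/
def SymRing.toSpt (R : SymRing) : Spt 1 where
  space := R.space
  base := R.base
  smul_base _ _ := rfl
  str n :=
    { toFun := fun x => ⟨⟨fun t => R.mul n 1 x (R.ι (t 0)),
          (R.str_cont n).comp (Continuous.prodMk continuous_const (continuous_apply 0))⟩, by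
          rintro t ⟨i, hi⟩
          show R.mul n 1 x (R.ι (t 0)) = _
          have h0 : i = 0 := Subsingleton.elim _ _
          subst h0
          rcases hi with hi | hi
          · rw [hi, R.ι.source, R.mul_base_right]
          · rw [hi, R.ι.target, R.mul_base_right]⟩
      continuous_toFun := by
        refine Continuous.subtype_mk ?_ _
        refine ContinuousMap.continuous_of_continuous_uncurry _ ?_
        exact (R.str_cont n).comp
          (Continuous.prodMk continuous_fst ((continuous_apply 0).comp continuous_snd)) }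
  str_base n t := R.mul_base_left n 1 _
  str_smul _ _ _ _ := rfl

/-- `CP ι` is the complex projective space of lines in `ℂ^ι`; for `ι = Fin (a + 1)` this is
`ℂP^a`. -/
def CP (ι : Type) : Type := Projectivization ℂ (ι → ℂ)

/-- The quotient topology from `ℂ^ι ∖ {0}`. -/
instance CP.instTopologicalSpace (ι : Type) : TopologicalSpace (CP ι) :=
  inferInstanceAs (TopologicalSpace (Quotient (projectivizationSetoid ℂ (ι → ℂ))))

/-- The map `[z_i]_i ↦ [z_i ^ m]_i` of `CP ι`.  It is given by homogeneous polynomials of degree `m`
without common zero, so it pulls the line bundle `𝒪(1)` back to `𝒪(m) = 𝒪(1)^{⊗ m}`.  Hence for a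
complex orientation `x` with formal group law `F` it pulls `x` back to the `m`-series `[m]_F(x)`. -/
def CP.powMap (m : ℕ) (ι : Type) : C(CP ι, CP ι) where
  toFun := Quotient.map'
    (fun v : {v : ι → ℂ // v ≠ 0} => (⟨fun i => v.1 i ^ m, fun h => by
      obtain ⟨i, hi⟩ := Function.ne_iff.mp v.2
      exact pow_ne_zero m hi (congrFun h i)⟩ : {w : ι → ℂ // w ≠ 0}))
    (by
      rintro ⟨v, hv⟩ ⟨w, hw⟩ ⟨u, hu⟩
      refine ⟨u ^ m, ?_⟩
      simp only at hu ⊢
      rw [← hu]
      funext i
      simp [Units.smul_def, mul_pow])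
  continuous_toFun := by
    refine Continuous.quotient_map' ?_ _
    refine Continuous.subtype_mk ?_ _
    refine continuous_pi fun i => ?_
    exact ((continuous_apply i).comp continuous_subtype_val).pow m

/-- The formal group of the `Ω`-spectrum `X` (with homotopy a graded field of characteristic `p`,
concentrated in even degrees) has height exactly `n`: for a complex orientation `x` one has
`X^*(ℂP^a) = X^*[x]/(x^{a+1})` and the `p`-th power map of `ℂP^a` induces `x ↦ [p](x)`.  The height is
exactly `n` iff `[p](x) ≡ 0` modulo `x^{p^n}` and `[p](x) ≢ 0` modulo `x^{p^n+1}`, i.e. iff the power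
map induces `0` on the reduced cohomology of `ℂP^{p^n-1}` but not on that of `ℂP^{p^n}`.
(A class in `X^j(ℂP^a) = [ℂP^a, X_j]` has zero reduced part iff it is represented by a constant
map.) -/
def Spt.HeightExactly (p n : ℕ) (X : Spt 1) : Prop :=
  (∀ (j : ℕ) (f : C(CP (Fin (p ^ n)), X.space j)),
      ∃ c, (f.comp (CP.powMap p _)).Homotopic (ContinuousMap.const _ c)) ∧
  (∃ (j : ℕ) (f : C(CP (Fin (p ^ n + 1)), X.space j)),
      ¬ ∃ c, (f.comp (CP.powMap p _)).Homotopic (ContinuousMap.const _ c))

/-- `R` is (a strict model of) the Morava `K`-theory `K(n)` at the prime `p`, `n ≥ 1`: a ring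
spectrum (a symmetric ring spectrum which is an `Ω`-spectrum, so that `π_{j-m} R = π_j(R_m)`) with
`π_* R ≅ 𝔽_p[v^{±1}]`, `|v| = 2(p^n-1)`, whose formal group has height exactly `n`.
The coefficient ring is described by: `π_0 R` has `p` elements, `π_k R = 0` unless
`2(p^n-1) ∣ k`, and there is `w ∈ R_q`, `q = 2(p^n-1)` (a class in `π_{-q} R`), such that
multiplication by `w` is an equivalence (i.e. `w` is a unit of `π_* R`). -/
def SymRing.IsMoravaK (p n : ℕ) (R : SymRing) : Prop :=
  R.toSpt.IsOmega ∧
  Nat.card (HomotopyGroup (Fin 0) (R.space 0) (R.base 0)) = p ∧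
  (∀ m j : ℕ, ¬ (2 * ((p : ℤ) ^ n - 1) ∣ (j : ℤ) - m) →
    Subsingleton (HomotopyGroup (Fin j) (R.space m) (R.base m))) ∧
  (∃ w : R.space (2 * (p ^ n - 1)), ∀ m, IsWeakEquiv ⟨R.mul _ m w, R.mul_cont_right _ m w⟩) ∧
  R.toSpt.HeightExactly p n

/-- `K^*(A) = 0` for a spectrum `A` in `Spt d` and an ordinary spectrum `K`:
`K^b(A) = [A, Σ^b K] = 0` for all `b ≥ 0`, where the maps are taken in the stable homotopy category
of `Spt d` and `Σ^b K` is transported there by `Spt.every`.  For a periodic spectrum `K`, such as
`K(n)`, the degrees `b ≥ 0` exhaust all degrees. -/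
def Spt.CohomologyVanishes {d : ℕ} (A : Spt d) (K : Spt 1) : Prop :=
  ∀ b : ℕ, Subsingleton (GSH.Q.obj A ⟶ GSH.Q.obj (Spt.every d ((GSpt.shIter b).obj K)))

/-- `Hℚ_*(A) = π_*(A) ⊗ ℚ = 0`: all stable homotopy groups of `A` are torsion groups.
(The groups `π_{k+2}(sh^m A) = π_{k+2-dm}(A)` are all the stable homotopy groups of `A`,
if `d ≥ 1`.) -/
def Spt.RationallyAcyclic {d : ℕ} (A : Spt d) : Prop :=
  ∀ (k m : ℕ) (x : (GSpt.stablePi ⊤ k).obj ((GSpt.shIter m).obj A)), ∃ a : ℕ, 0 < a ∧ a • x = 0

section Main

variable {G : Type} [Group G] [Finite G]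

/-- `K(i)_*(Φ^H X) = 0`, for the genuine `G`-spectrum `X`, where `K(0) = Hℚ` and `K(i) = K i` for
`i ≥ 1`.  For `i ≥ 1` this is expressed by `K(i)^*(Φ^H X) = 0`, which is equivalent because
`K(i)^*(A) = Hom_{K(i)_*}(K(i)_* A, K(i)_*)` for every spectrum `A`. -/
def GeomAcyclic (K : ℕ → SymRing) (i : ℕ) (H : Subgroup G) (X : GSpt G G) : Prop :=
  if i = 0 then (X.geomFix H).RationallyAcyclic else (X.geomFix H).CohomologyVanishes (K i).toSpt

/-- The inclusion `𝒫_m^G(A) ⊆ 𝒫_n^G(B)` of Section 2 of the paper, where
`𝒫_i^G(H) = {X ∈ (Sp^G)^c : K(i)_*(Φ^H X) = 0}`: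
`K(m)_*(Φ^A X) = 0 ⟹ K(n)_*(Φ^B X) = 0` for every finite `p`-local genuine `G`-spectrum `X`. -/
def AcyclicityImplication (p : ℕ) (K : ℕ → SymRing) (A : Subgroup G) (m : ℕ) (B : Subgroup G)
    (n : ℕ) : Prop :=
  ∀ X : GSpt G G, X.IsCompactPLocal p → GeomAcyclic K m A X → GeomAcyclic K n B X

/-- The implication (1.1) of the paper which defines the chromatic fixed-point loss:
`K(n+r)_*(Φ^H X) = 0 ⟹ K(n)_*(Φ^G X) = 0` for every finite `p`-local genuine `G`-spectrum `X`. -/
def FixedPointImplication (p : ℕ) (K : ℕ → SymRing) (H : Subgroup G) (n r : ℕ) : Prop :=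
  AcyclicityImplication p K H (n + r) ⊤ n

end Main

/-! ## 8. `O^p` and the test of Corollary 7.5 -/

/-- `O^p(J)`, the smallest normal subgroup of `p`-power index of the finite group `J`
(Section 7.4 of the paper): the intersection of all normal subgroups of `p`-power index, which for
finite `J` is again one (`Sanity.lean`). -/
def pResidual (p : ℕ) (J : Type) [Group J] : Subgroup J :=
  sInf {N : Subgroup J | N.Normal ∧ ∃ k : ℕ, N.index = p ^ k}

instance pResidual.instNormal (p : ℕ) (J : Type) [Group J] : (pResidual p J).Normal := by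
  unfold pResidual
  rw [sInf_eq_iInf']
  exact Subgroup.normal_iInf_normal fun N => N.2.1

/-- The test of Corollary 7.5 of the paper for the pair `A, B ≤ G` (there `K, H`) and the heights
`m, n`: there is a conjugate `A' = g A g⁻¹ ≤ B` such that `N = O^p(B) = O^p(A')` and
`m ≥ n + ℓ(B/N, A'/N)`. -/
def GeneralGroupTest {G : Type} [Group G] (p : ℕ) (A : Subgroup G) (m : ℕ) (B : Subgroup G)
    (n : ℕ) : Prop :=
  ∃ A' : Subgroup G, (∃ g : G, A' = A.map (MulAut.conj g).toMonoidHom) ∧ A' ≤ B ∧
    (pResidual p B).map B.subtype = (pResidual p A').map A'.subtype ∧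
    n + cyclicLength ((A'.subgroupOf B).map (QuotientGroup.mk' (pResidual p B))) ≤ m

/-! ## 9. The statement -/

/-- **Theorem 1.1** of *Cyclic length and chromatic fixed-point loss*, and its Corollary 7.5.

1. Morava `K`-theories `K(n)` exist at every prime `p` and every height `n ≥ 1`
   (so that the next two parts are not vacuous).
2. (Theorem 1.1) For every prime `p`, every choice `K 1, K 2, …` of Morava `K`-theories at `p`,
   every finite `p`-group `G`, every subgroup `H ≤ G` and every `n ≥ 0`, the chromatic fixed-point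
   loss `r_n(G, H)`, which is the least `r` for which `FixedPointImplication p K H n r` holds,
   exists and equals the cyclic length `ℓ(G, H)`.
3. (Corollary 7.5) For every finite group `G`, all subgroups `A, B ≤ G` and all `m, n ≥ 0`,
   `𝒫_m^G(A) ⊆ 𝒫_n^G(B)` if and only if some conjugate `A' ≤ B` of `A` satisfies
   `N = O^p(B) = O^p(A')` and `m ≥ n + ℓ(B/N, A'/N)`. -/
def Statement : Prop :=
  (∀ p : ℕ, p.Prime → ∀ n : ℕ, 1 ≤ n → ∃ R : SymRing, R.IsMoravaK p n) ∧
  (∀ p : ℕ, p.Prime → ∀ (G : Type) [Group G] [Finite G], IsPGroup p G →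
    ∀ (H : Subgroup G) (n : ℕ) (K : ℕ → SymRing), (∀ i, 1 ≤ i → (K i).IsMoravaK p i) →
      IsLeast {r : ℕ | FixedPointImplication p K H n r} (cyclicLength H)) ∧
  ∀ p : ℕ, p.Prime → ∀ (G : Type) [Group G] [Finite G] (A B : Subgroup G) (m n : ℕ)
    (K : ℕ → SymRing), (∀ i, 1 ≤ i → (K i).IsMoravaK p i) →
      (AcyclicityImplication p K A m B n ↔ GeneralGroupTest p A m B n)

end

end Claimed.Open.R314
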